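import Vale.Agent.P195.MathlibUsed
import Vale.Agent.P195.Defs

set_option linter.all false

section

section

/-!
# P195 (vanishing version): structured vector spaces and the window functor

`FMod K ι J`: a `K`-vector space with operators indexed by `ι` and subspaces indexed by `J`.
`FHom X Y`: the linear maps commuting with the operators and preserving the subspaces.
For a fixed object `P`, the algebra `(FEnd P)ᵐᵒᵖ` acts on `FHom P X`.
-/

namespace Vale.Agent.P195.Van

universe u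

/-- A vector space with operators indexed by `ι` and a `ℤ`-indexed family of subspaces. -/
structure FMod (K : Type u) [Field K] (ι J : Type) where
  /-- the underlying space -/
  X : Type u
  [acg : AddCommGroup X]
  [mod : Module K X]
  /-- the operators -/
  op : ι → X →ₗ[K] X
  /-- the filtration -/
  Fil : J → Submodule K X

attribute [instance] FMod.acg FMod.mod

variable {K : Type u} [Field K] {ι J : Type}

/-- Linear maps commuting with the operators and preserving the filtrations. -/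
def FHom (X Y : FMod K ι J) : Submodule K (X.X →ₗ[K] Y.X) where
  carrier := {φ | (∀ s x, φ (X.op s x) = Y.op s (φ x)) ∧ ∀ i, ∀ x ∈ X.Fil i, φ x ∈ Y.Fil i}
  zero_mem' := by
    refine ⟨fun s x => by simp, fun i x _ => by simp⟩
  add_mem' := by
    rintro a b ⟨ha, ha'⟩ ⟨hb, hb'⟩
    refine ⟨fun s x => by simp [ha s x, hb s x], fun i x hx => ?_⟩
    exact (Y.Fil i).add_mem (ha' i x hx) (hb' i x hx)
  smul_mem' := by
    rintro c a ⟨ha, ha'⟩
    refine ⟨fun s x => by simp [ha s x], fun i x hx => ?_⟩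
    exact (Y.Fil i).smul_mem c (ha' i x hx)

theorem FHom.comp {X Y Z : FMod K ι J} {ψ : Y.X →ₗ[K] Z.X} {φ : X.X →ₗ[K] Y.X}
    (hψ : ψ ∈ FHom Y Z) (hφ : φ ∈ FHom X Y) : ψ ∘ₗ φ ∈ FHom X Z := by
  refine ⟨fun s x => ?_, fun i x hx => ?_⟩
  · simp [hφ.1 s x, hψ.1 s (φ x)]
  · exact hψ.2 i _ (hφ.2 i x hx)

theorem FHom.id (X : FMod K ι J) : (LinearMap.id : X.X →ₗ[K] X.X) ∈ FHom X X :=
  ⟨fun _ _ => rfl, fun _ _ hx => hx⟩

/-- The algebra of endomorphisms of a filtered operator module. -/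
def FEnd (P : FMod K ι J) : Subalgebra K (Module.End K P.X) where
  carrier := {φ | φ ∈ FHom P P}
  mul_mem' := by
    intro a b ha hb
    exact FHom.comp ha hb
  one_mem' := FHom.id P
  add_mem' := by
    intro a b ha hb
    exact (FHom P P).add_mem ha hb
  zero_mem' := (FHom P P).zero_mem
  algebraMap_mem' := by
    intro r
    have := (FHom P P).smul_mem r (FHom.id P)
    have h2 : (algebraMap K (Module.End K P.X) r) = r • (LinearMap.id : P.X →ₗ[K] P.X) := by
      ext x; simp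
    rw [h2]; exact this

/-- The algebra acting on windows. -/
abbrev WAlg (P : FMod K ι J) := (FEnd P)ᵐᵒᵖ

/-- `FHom P X` as a left module over `(FEnd P)ᵐᵒᵖ`, by precomposition. -/
def Win (P X : FMod K ι J) : Type u := FHom P X

instance (P X : FMod K ι J) : AddCommGroup (Win P X) := inferInstanceAs (AddCommGroup (FHom P X))
instance (P X : FMod K ι J) : Module K (Win P X) := inferInstanceAs (Module K (FHom P X))

/-- underlying linear map -/
def Win.toLin {P X : FMod K ι J} (φ : Win P X) : P.X →ₗ[K] X.X := φ.1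

theorem Win.toLin_mem {P X : FMod K ι J} (φ : Win P X) : φ.toLin ∈ FHom P X := φ.2

/-- constructor -/
def Win.mk {P X : FMod K ι J} (φ : P.X →ₗ[K] X.X) (h : φ ∈ FHom P X) : Win P X := ⟨φ, h⟩

@[simp] theorem Win.toLin_mk {P X : FMod K ι J} (φ : P.X →ₗ[K] X.X) (h : φ ∈ FHom P X) :
    (Win.mk φ h).toLin = φ := rfl

theorem Win.ext' {P X : FMod K ι J} {φ ψ : Win P X} (h : φ.toLin = ψ.toLin) : φ = ψ :=
  Subtype.ext h

@[simp] theorem Win.toLin_add {P X : FMod K ι J} (φ ψ : Win P X) :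
    (φ + ψ).toLin = φ.toLin + ψ.toLin := rfl
@[simp] theorem Win.toLin_zero {P X : FMod K ι J} : (0 : Win P X).toLin = 0 := rfl
@[simp] theorem Win.toLin_smulK {P X : FMod K ι J} (c : K) (φ : Win P X) :
    (c • φ).toLin = c • φ.toLin := rfl

instance (P X : FMod K ι J) : SMul (WAlg P) (Win P X) :=
  ⟨fun a φ => Win.mk (φ.toLin ∘ₗ (a.unop : Module.End K P.X)) (FHom.comp φ.toLin_mem a.unop.2)⟩

@[simp] theorem Win.toLin_smul {P X : FMod K ι J} (a : WAlg P) (φ : Win P X) :
    (a • φ).toLin = φ.toLin ∘ₗ (a.unop : Module.End K P.X) := rfl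

instance (P X : FMod K ι J) : Module (WAlg P) (Win P X) where
  one_smul φ := by
    apply Win.ext'; simp; rfl
  mul_smul a b φ := by
    apply Win.ext'; simp; rfl
  smul_zero a := by
    apply Win.ext'; simp
  smul_add a φ ψ := by
    apply Win.ext'; simp [LinearMap.add_comp]
  add_smul a b φ := by
    apply Win.ext'; simp [LinearMap.comp_add]
  zero_smul φ := by
    apply Win.ext'; simp

instance (P X : FMod K ι J) : IsScalarTower K (WAlg P) (Win P X) where
  smul_assoc c a φ := by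
    apply Win.ext'
    simp only [Win.toLin_smul, Win.toLin_smulK, MulOpposite.unop_smul]
    ext x
    simp

/-- Functoriality of windows. -/
def Win.map (P : FMod K ι J) {X Y : FMod K ι J} (g : X.X →ₗ[K] Y.X) (hg : g ∈ FHom X Y) :
    Win P X →ₗ[WAlg P] Win P Y where
  toFun φ := Win.mk (g ∘ₗ φ.toLin) (FHom.comp hg φ.toLin_mem)
  map_add' φ ψ := by
    apply Win.ext'; simp [LinearMap.comp_add]
  map_smul' a φ := by
    apply Win.ext'; simp [LinearMap.comp_assoc]

@[simp] theorem Win.toLin_map (P : FMod K ι J) {X Y : FMod K ι J} (g : X.X →ₗ[K] Y.X)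
    (hg : g ∈ FHom X Y) (φ : Win P X) : (Win.map P g hg φ).toLin = g ∘ₗ φ.toLin := rfl

/-- `Win P P` is the regular module. -/
def Win.self (P : FMod K ι J) : Win P P ≃ₗ[WAlg P] WAlg P where
  toFun φ := MulOpposite.op ⟨φ.toLin, φ.toLin_mem⟩
  invFun a := Win.mk (a.unop : Module.End K P.X) a.unop.2
  left_inv _ := rfl
  right_inv _ := rfl
  map_add' _ _ := rfl
  map_smul' _ _ := rfl

instance (P : FMod K ι J) : Module.Projective (WAlg P) (Win P P) :=
  Module.Projective.of_equiv (Win.self P).symm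

/-- `Win P P` and the algebra are isomorphic vector spaces. -/
def Win.selfK (P : FMod K ι J) : Win P P ≃ₗ[K] WAlg P where
  toFun φ := MulOpposite.op ⟨φ.toLin, φ.toLin_mem⟩
  invFun a := Win.mk (a.unop : Module.End K P.X) a.unop.2
  left_inv _ := rfl
  right_inv _ := rfl
  map_add' _ _ := rfl
  map_smul' _ _ := rfl


theorem Win.toLin_sum {P Y : FMod K ι J} {κ : Type*} (s : Finset κ) (ψ : κ → Win P Y) :
    (∑ k ∈ s, ψ k).toLin = ∑ k ∈ s, (ψ k).toLin := by
  let T : Win P Y →ₗ[K] (P.X →ₗ[K] Y.X) :=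
    { toFun := Win.toLin, map_add' := fun _ _ => rfl, map_smul' := fun _ _ => rfl }
  exact map_sum T ψ s

/-- Finite products. -/
@[reducible] def FMod.pi {κ : Type} (Q : κ → FMod K ι J) : FMod K ι J where
  X := ∀ j, (Q j).X
  op s := LinearMap.pi fun j => (Q j).op s ∘ₗ LinearMap.proj j
  Fil i := Submodule.pi Set.univ fun j => (Q j).Fil i

theorem FMod.proj_mem {κ : Type} (Q : κ → FMod K ι J) (j : κ) :
    (LinearMap.proj j : (∀ j, (Q j).X) →ₗ[K] (Q j).X) ∈ FHom (FMod.pi Q) (Q j) :=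
  ⟨fun _ _ => rfl, fun _ _ hx => hx j (Set.mem_univ _)⟩

theorem FMod.single_mem {κ : Type} [DecidableEq κ] (Q : κ → FMod K ι J) (j : κ) :
    (LinearMap.single K (fun j => (Q j).X) j) ∈ FHom (Q j) (FMod.pi Q) := by
  refine ⟨fun s x => ?_, fun i x hx k _ => ?_⟩
  · ext k
    by_cases hk : k = j
    · subst hk; simp
    · simp [hk]
  · by_cases hk : k = j
    · subst hk; simpa using hx
    · simp [hk]

end Vale.Agent.P195.Van
end
end

section

section

/-!
# P195 (vanishing version): more on the window functor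

Retracts (projectivity, finiteness, full faithfulness), finite products and vertexwise criteria
for injectivity, surjectivity and exactness of `Win.map (FMod.pi Q)`, finite-dimensionality.
-/

namespace Vale.Agent.P195.Van

universe u

variable {K : Type u} [Field K] {ι J : Type}

@[simp] theorem Win.toLin_sub {P X : FMod K ι J} (φ ψ : Win P X) :
    (φ - ψ).toLin = φ.toLin - ψ.toLin := rfl
@[simp] theorem Win.toLin_neg {P X : FMod K ι J} (φ : Win P X) :
    (-φ).toLin = -φ.toLin := rfl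

@[simp] theorem Win.map_zero (P : FMod K ι J) {X Y : FMod K ι J} :
    Win.map P (0 : X.X →ₗ[K] Y.X) (FHom X Y).zero_mem = 0 := rfl

theorem Win.map_add (P : FMod K ι J) {X Y : FMod K ι J} {g g' : X.X →ₗ[K] Y.X}
    (hg : g ∈ FHom X Y) (hg' : g' ∈ FHom X Y) :
    Win.map P (g + g') ((FHom X Y).add_mem hg hg') = Win.map P g hg + Win.map P g' hg' := rfl

/-! ### Retracts of sums of copies of `P` -/

/-- `Q` is a direct summand of a finite sum of copies of `P`. -/
structure IsRetract (P Q : FMod K ι J) : Prop where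
  exists_maps : ∃ (κ : Type) (_ : Fintype κ) (α : κ → P.X →ₗ[K] Q.X) (β : κ → Q.X →ₗ[K] P.X),
    (∀ k, α k ∈ FHom P Q) ∧ (∀ k, β k ∈ FHom Q P) ∧ ∀ x, ∑ k, α k (β k x) = x

/-- constructor from one pair of maps -/
theorem IsRetract.of_pair {P Q : FMod K ι J} (α : P.X →ₗ[K] Q.X) (β : Q.X →ₗ[K] P.X)
    (hα : α ∈ FHom P Q) (hβ : β ∈ FHom Q P) (h : ∀ x, α (β x) = x) : IsRetract P Q :=
  ⟨⟨Unit, inferInstance, fun _ => α, fun _ => β, fun _ => hα, fun _ => hβ, fun x => by simp [h]⟩⟩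

/-- transitivity -/
theorem IsRetract.trans {P Q R : FMod K ι J} (h1 : IsRetract P Q) (h2 : IsRetract Q R) :
    IsRetract P R := by
  obtain ⟨κ, _, α, β, hα, hβ, h⟩ := h1
  obtain ⟨κ', _, γ, δ, hγ, hδ, h'⟩ := h2
  refine ⟨⟨κ' × κ, inferInstance, fun k => γ k.1 ∘ₗ α k.2, fun k => β k.2 ∘ₗ δ k.1,
    fun k => FHom.comp (hγ _) (hα _), fun k => FHom.comp (hβ _) (hδ _), fun x => ?_⟩⟩
  rw [Fintype.sum_prod_type]
  conv_rhs => rw [← h' x]
  refine Finset.sum_congr rfl fun i _ => ?_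
  simp only [LinearMap.comp_apply]
  rw [← map_sum, h]

/-- Retracts of `P` have projective windows. -/
theorem IsRetract.projective {P Q : FMod K ι J} (h : IsRetract P Q) :
    Module.Projective (WAlg P) (Win P Q) := by
  obtain ⟨κ, _, α, β, hα, hβ, h⟩ := h
  classical
  let i : Win P Q →ₗ[WAlg P] (κ → Win P P) := LinearMap.pi fun k => Win.map P (β k) (hβ k)
  let s : (κ → Win P P) →ₗ[WAlg P] Win P Q :=
    ∑ k, (Win.map P (α k) (hα k)) ∘ₗ LinearMap.proj k
  have hproj : Module.Projective (WAlg P) (κ → Win P P) :=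
    Module.Projective.of_equiv (DirectSum.linearEquivFunOnFintype (WAlg P) κ fun _ => Win P P)
  refine Module.Projective.of_split i s ?_
  apply LinearMap.ext
  intro φ
  apply Win.ext'
  ext x
  simp only [s, i, LinearMap.comp_apply, LinearMap.sum_apply, LinearMap.proj_apply,
    LinearMap.pi_apply, Win.toLin_sum, Win.toLin_map, LinearMap.id_apply, h]

/-- Retracts of `P` have finitely generated windows. -/
theorem IsRetract.finite {P Q : FMod K ι J} (h : IsRetract P Q) :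
    Module.Finite (WAlg P) (Win P Q) := by
  obtain ⟨κ, _, α, β, hα, hβ, h⟩ := h
  have : Module.Finite (WAlg P) (Win P P) := Module.Finite.equiv (Win.self P).symm
  let i : Win P Q →ₗ[WAlg P] (κ → Win P P) := LinearMap.pi fun k => Win.map P (β k) (hβ k)
  let s : (κ → Win P P) →ₗ[WAlg P] Win P Q :=
    ∑ k, (Win.map P (α k) (hα k)) ∘ₗ LinearMap.proj k
  refine Module.Finite.of_surjective s fun φ => ⟨i φ, ?_⟩
  apply Win.ext'
  ext x
  simp only [s, i, LinearMap.comp_apply, LinearMap.sum_apply, LinearMap.proj_apply,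
    LinearMap.pi_apply, Win.toLin_sum, Win.toLin_map, h]

/-- Full faithfulness of the window functor on retracts: existence. -/
theorem IsRetract.exists_map {P Q : FMod K ι J} (h : IsRetract P Q) {X : FMod K ι J}
    (φ : Win P Q →ₗ[WAlg P] Win P X) :
    ∃ g, ∃ hg : g ∈ FHom Q X, φ = Win.map P g hg := by
  obtain ⟨κ, _, α, β, hα, hβ, h⟩ := h
  have hg : ∑ k, (φ (Win.mk (α k) (hα k))).toLin ∘ₗ β k ∈ FHom Q X :=
    (FHom Q X).sum_mem fun k _ => FHom.comp (Win.toLin_mem _) (hβ k)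
  refine ⟨_, hg, ?_⟩
  apply LinearMap.ext
  intro v
  have hmem : ∀ k, β k ∘ₗ v.toLin ∈ FHom P P := fun k => FHom.comp (hβ k) v.toLin_mem
  have hu : v = ∑ k, (MulOpposite.op (⟨β k ∘ₗ v.toLin, hmem k⟩ : FEnd P) : WAlg P) •
      Win.mk (α k) (hα k) := by
    apply Win.ext'
    rw [Win.toLin_sum]
    ext x
    rw [LinearMap.sum_apply]
    exact (h _).symm
  have h2 : φ v = ∑ k, (MulOpposite.op (⟨β k ∘ₗ v.toLin, hmem k⟩ : FEnd P) : WAlg P) •
      φ (Win.mk (α k) (hα k)) := by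
    conv_lhs => rw [hu]
    rw [map_sum]
    exact Finset.sum_congr rfl fun k _ => map_smul _ _ _
  rw [h2]
  apply Win.ext'
  rw [Win.toLin_sum]
  ext x
  rw [LinearMap.sum_apply]
  simp only [Win.toLin_smul, Win.toLin_map, LinearMap.comp_apply, LinearMap.sum_apply]
  rfl

/-- Full faithfulness of the window functor on retracts: uniqueness. -/
theorem IsRetract.map_eq_zero {P Q : FMod K ι J} (h : IsRetract P Q) {X : FMod K ι J}
    {g : Q.X →ₗ[K] X.X} (hg : g ∈ FHom Q X) (h0 : Win.map P g hg = 0) : g = 0 := by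
  obtain ⟨κ, _, α, β, hα, hβ, h⟩ := h
  ext x
  rw [← h x, map_sum]
  refine Finset.sum_eq_zero fun k _ => ?_
  have h1 : Win.map P g hg (Win.mk (α k) (hα k)) = 0 := by rw [h0]; rfl
  have h2 := congrArg (fun ψ => ψ.toLin (β k x)) h1
  exact h2

/-! ### Finite products -/

section Pi

variable {κ : Type} [Fintype κ] [DecidableEq κ]

omit [Fintype κ] in
/-- Each factor is a retract of the product. -/
theorem FMod.isRetract_factor (Q : κ → FMod K ι J) (j : κ) : IsRetract (FMod.pi Q) (Q j) :=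
  IsRetract.of_pair (LinearMap.proj j) (LinearMap.single K (fun j => (Q j).X) j)
    (FMod.proj_mem Q j) (FMod.single_mem Q j) (fun x => by simp)

/-- A map out of a product is determined by its restrictions to the factors. -/
theorem FMod.pi_hom_ext {Q : κ → FMod K ι J} {Y : Type*} [AddCommGroup Y] [Module K Y]
    {φ ψ : (FMod.pi Q).X →ₗ[K] Y}
    (h : ∀ j, φ ∘ₗ LinearMap.single K (fun j => (Q j).X) j
      = ψ ∘ₗ LinearMap.single K (fun j => (Q j).X) j) : φ = ψ :=
  LinearMap.pi_ext' h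

/-- the value of a window at a vertex -/
def Win.at {Q : κ → FMod K ι J} {X : FMod K ι J} (φ : Win (FMod.pi Q) X) (j : κ) :
    (Q j).X →ₗ[K] X.X := φ.toLin ∘ₗ LinearMap.single K (fun j => (Q j).X) j

omit [Fintype κ] in
theorem Win.at_mem {Q : κ → FMod K ι J} {X : FMod K ι J} (φ : Win (FMod.pi Q) X) (j : κ) :
    φ.at j ∈ FHom (Q j) X := FHom.comp φ.toLin_mem (FMod.single_mem Q j)

theorem Win.at_ext {Q : κ → FMod K ι J} {X : FMod K ι J} {φ ψ : Win (FMod.pi Q) X}
    (h : ∀ j, φ.at j = ψ.at j) : φ = ψ := Win.ext' (FMod.pi_hom_ext h)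

/-- a window from its values at the vertices -/
def Win.ofAt {Q : κ → FMod K ι J} {X : FMod K ι J} (f : ∀ j, (Q j).X →ₗ[K] X.X)
    (hf : ∀ j, f j ∈ FHom (Q j) X) : Win (FMod.pi Q) X :=
  Win.mk (∑ j, f j ∘ₗ LinearMap.proj j)
    ((FHom (FMod.pi Q) X).sum_mem fun j _ => FHom.comp (hf j) (FMod.proj_mem Q j))

@[simp] theorem Win.ofAt_at {Q : κ → FMod K ι J} {X : FMod K ι J} (f : ∀ j, (Q j).X →ₗ[K] X.X)
    (hf : ∀ j, f j ∈ FHom (Q j) X) (j : κ) : (Win.ofAt f hf).at j = f j := by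
  ext x
  simp only [Win.at, Win.ofAt, Win.toLin_mk, LinearMap.comp_apply, LinearMap.sum_apply,
    LinearMap.proj_apply, LinearMap.single_apply]
  rw [Finset.sum_eq_single j]
  · simp
  · intro k _ hk
    simp [Pi.single_eq_of_ne hk]
  · simp

omit [Fintype κ] in
@[simp] theorem Win.map_at {Q : κ → FMod K ι J} {X Y : FMod K ι J} (g : X.X →ₗ[K] Y.X)
    (hg : g ∈ FHom X Y) (φ : Win (FMod.pi Q) X) (j : κ) :
    (Win.map (FMod.pi Q) g hg φ).at j = g ∘ₗ φ.at j := rfl

omit [Fintype κ] in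
@[simp] theorem Win.zero_at {Q : κ → FMod K ι J} {X : FMod K ι J} (j : κ) :
    (0 : Win (FMod.pi Q) X).at j = 0 := rfl

/-- Injectivity of windows, vertexwise. -/
theorem Win.map_injective' {Q : κ → FMod K ι J} {X Y : FMod K ι J} (g : X.X →ₗ[K] Y.X)
    (hg : g ∈ FHom X Y) (h : ∀ j, ∀ φ ∈ FHom (Q j) X, g ∘ₗ φ = 0 → φ = 0) :
    Function.Injective (Win.map (FMod.pi Q) g hg) := by
  rw [injective_iff_map_eq_zero]
  intro φ hφ
  refine Win.at_ext fun j => h j _ (φ.at_mem j) ?_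
  rw [← Win.map_at g hg, hφ]
  rfl

/-- Surjectivity of windows, vertexwise. -/
theorem Win.map_surjective' {Q : κ → FMod K ι J} {X Y : FMod K ι J} (g : X.X →ₗ[K] Y.X)
    (hg : g ∈ FHom X Y) (h : ∀ j, ∀ ψ ∈ FHom (Q j) Y, ∃ φ ∈ FHom (Q j) X, g ∘ₗ φ = ψ) :
    Function.Surjective (Win.map (FMod.pi Q) g hg) := by
  intro ψ
  choose φ hφ hgφ using fun j => h j _ (ψ.at_mem j)
  refine ⟨Win.ofAt φ hφ, Win.at_ext fun j => ?_⟩
  rw [Win.map_at, Win.ofAt_at, hgφ]

/-- Exactness of windows, vertexwise. -/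
theorem Win.map_exact' {Q : κ → FMod K ι J} {X Y Z : FMod K ι J} (f : X.X →ₗ[K] Y.X)
    (hf : f ∈ FHom X Y) (g : Y.X →ₗ[K] Z.X) (hg : g ∈ FHom Y Z)
    (hgf : ∀ j, ∀ φ ∈ FHom (Q j) X, g ∘ₗ f ∘ₗ φ = 0)
    (h : ∀ j, ∀ ψ ∈ FHom (Q j) Y, g ∘ₗ ψ = 0 → ∃ φ ∈ FHom (Q j) X, f ∘ₗ φ = ψ) :
    Function.Exact (Win.map (FMod.pi Q) f hf) (Win.map (FMod.pi Q) g hg) := by
  intro ψ
  constructor
  · intro hψ
    have h1 : ∀ j, g ∘ₗ ψ.at j = 0 := fun j => by
      rw [← Win.map_at g hg, hψ]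
      rfl
    choose φ hφ hfφ using fun j => h j _ (ψ.at_mem j) (h1 j)
    refine ⟨Win.ofAt φ hφ, Win.at_ext fun j => ?_⟩
    rw [Win.map_at, Win.ofAt_at, hfφ]
  · rintro ⟨φ, rfl⟩
    refine Win.at_ext fun j => ?_
    rw [Win.map_at, Win.map_at]
    exact hgf j _ (φ.at_mem j)

/-- Windows are finite-dimensional if all vertex spaces are. -/
theorem Win.finite {Q : κ → FMod K ι J} {X : FMod K ι J}
    (h : ∀ j, Module.Finite K (FHom (Q j) X)) : Module.Finite K (Win (FMod.pi Q) X) := by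
  let ev : Win (FMod.pi Q) X →ₗ[K] (∀ j, FHom (Q j) X) :=
    { toFun := fun φ j => ⟨φ.at j, φ.at_mem j⟩
      map_add' := fun φ ψ => rfl
      map_smul' := fun c φ => rfl }
  refine Module.Finite.of_injective ev fun φ ψ hφψ => Win.at_ext fun j => ?_
  exact congrArg Subtype.val (congrFun hφψ j)

omit [DecidableEq κ] in
/-- `FHom` into a finite product is finite-dimensional if it is so for the factors. -/
theorem FHom.finite_pi {Q : κ → FMod K ι J} {X : FMod K ι J}
    (h : ∀ j, Module.Finite K (FHom X (Q j))) : Module.Finite K (FHom X (FMod.pi Q)) := by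
  let ev : FHom X (FMod.pi Q) →ₗ[K] (∀ j, FHom X (Q j)) :=
    { toFun := fun φ j => ⟨LinearMap.proj j ∘ₗ φ.1, FHom.comp (FMod.proj_mem Q j) φ.2⟩
      map_add' := fun φ ψ => rfl
      map_smul' := fun c φ => rfl }
  refine Module.Finite.of_injective ev fun φ ψ hφψ => Subtype.ext ?_
  ext x j
  exact LinearMap.congr_fun (congrArg Subtype.val (congrFun hφψ j)) x

/-- The algebra of a finite product is finite-dimensional if all `FHom (Q j) (Q k)` are. -/
theorem WAlg.finite {Q : κ → FMod K ι J} (h : ∀ j k, Module.Finite K (FHom (Q j) (Q k))) :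
    Module.Finite K (WAlg (FMod.pi Q)) := by
  have : Module.Finite K (Win (FMod.pi Q) (FMod.pi Q)) :=
    Win.finite fun j => FHom.finite_pi fun k => h j k
  exact Module.Finite.equiv (Win.selfK (FMod.pi Q))

end Pi

/-! ### Binary products -/

section Prod

/-- Binary product of objects. -/
@[reducible] def FMod.prod (X Y : FMod K ι J) : FMod K ι J where
  X := X.X × Y.X
  op s := (X.op s).prodMap (Y.op s)
  Fil i := (X.Fil i).prod (Y.Fil i)

theorem FMod.fst_mem (X Y : FMod K ι J) :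
    (LinearMap.fst K X.X Y.X) ∈ FHom (FMod.prod X Y) X :=
  ⟨fun _ _ => rfl, fun _ _ hx => hx.1⟩

theorem FMod.snd_mem (X Y : FMod K ι J) :
    (LinearMap.snd K X.X Y.X) ∈ FHom (FMod.prod X Y) Y :=
  ⟨fun _ _ => rfl, fun _ _ hx => hx.2⟩

theorem FMod.inl_mem (X Y : FMod K ι J) :
    (LinearMap.inl K X.X Y.X) ∈ FHom X (FMod.prod X Y) :=
  ⟨fun s x => by simp, fun i x hx => ⟨hx, (Y.Fil i).zero_mem⟩⟩

theorem FMod.inr_mem (X Y : FMod K ι J) :
    (LinearMap.inr K X.X Y.X) ∈ FHom Y (FMod.prod X Y) :=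
  ⟨fun s x => by simp, fun i x hx => ⟨(X.Fil i).zero_mem, hx⟩⟩

theorem FMod.prod_mem {X Y Z : FMod K ι J} {f : Z.X →ₗ[K] X.X} {g : Z.X →ₗ[K] Y.X}
    (hf : f ∈ FHom Z X) (hg : g ∈ FHom Z Y) : f.prod g ∈ FHom Z (FMod.prod X Y) :=
  ⟨fun s x => Prod.ext (hf.1 s x) (hg.1 s x), fun i x hx => ⟨hf.2 i x hx, hg.2 i x hx⟩⟩

theorem FMod.coprod_mem {X Y Z : FMod K ι J} {f : X.X →ₗ[K] Z.X} {g : Y.X →ₗ[K] Z.X}
    (hf : f ∈ FHom X Z) (hg : g ∈ FHom Y Z) : f.coprod g ∈ FHom (FMod.prod X Y) Z := by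
  refine ⟨fun s x => ?_, fun i x hx => ?_⟩
  · change f (X.op s x.1) + g (Y.op s x.2) = Z.op s (f x.1 + g x.2)
    rw [hf.1, hg.1, map_add]
  · exact (Z.Fil i).add_mem (hf.2 i _ hx.1) (hg.2 i _ hx.2)

theorem IsRetract.prod {P X Y : FMod K ι J} (hX : IsRetract P X) (hY : IsRetract P Y) :
    IsRetract P (FMod.prod X Y) := by
  obtain ⟨κ, _, α, β, hα, hβ, h⟩ := hX
  obtain ⟨κ', _, γ, δ, hγ, hδ, h'⟩ := hY
  refine ⟨⟨κ ⊕ κ', inferInstance, Sum.elim (fun k => LinearMap.inl K X.X Y.X ∘ₗ α k)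
    (fun k => LinearMap.inr K X.X Y.X ∘ₗ γ k),
    Sum.elim (fun k => β k ∘ₗ LinearMap.fst K X.X Y.X)
    (fun k => δ k ∘ₗ LinearMap.snd K X.X Y.X), ?_, ?_, ?_⟩⟩
  · rintro (k | k)
    · exact FHom.comp (FMod.inl_mem X Y) (hα k)
    · exact FHom.comp (FMod.inr_mem X Y) (hγ k)
  · rintro (k | k)
    · exact FHom.comp (hβ k) (FMod.fst_mem X Y)
    · exact FHom.comp (hδ k) (FMod.snd_mem X Y)
  · intro x
    rw [Fintype.sum_sum_type]
    simp only [Sum.elim_inl, Sum.elim_inr, LinearMap.comp_apply]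
    rw [← map_sum, ← map_sum]
    simp only [LinearMap.fst_apply, LinearMap.snd_apply, h, h']
    ext <;> simp

end Prod

end Vale.Agent.P195.Van
end
end

section

section

/-!
# P195 (vanishing version): bifiltered modules over the Weyl algebra (`GM`) and triples (`EM`)

* `GM`: a space with operators `x 0, x 1, d 0, d 1` satisfying the Weyl relations and subspaces
  `F w e` (`w` = weight, `e` = order), stable under `x` (`w + 1`), `d` (`w - 1`, `e + 1`) and
  `e ↦ e + 1`.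
* `EM`: `t : A → B` a map of `GM`'s with a square-zero operator `r` on `B` lowering the weight.
-/

namespace Vale.Agent.P195.Van

universe u

/-- Bifiltered modules over the Weyl algebra. -/
structure GM (K : Type u) [Field K] where
  /-- the underlying space -/
  X : Type u
  [acg : AddCommGroup X]
  [mod : Module K X]
  /-- multiplication by the variables -/
  x : Fin 2 → X →ₗ[K] X
  /-- the derivations -/
  d : Fin 2 → X →ₗ[K] X
  /-- the subspaces of weight `w` and order at most `e` -/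
  F : ℤ → ℤ → Submodule K X
  xx : ∀ i j z, x i (x j z) = x j (x i z)
  dd : ∀ i j z, d i (d j z) = d j (d i z)
  dx : ∀ i j z, d i (x j z) = x j (d i z) + if i = j then z else 0
  xF : ∀ i w e z, z ∈ F w e → x i z ∈ F (w + 1) e
  dF : ∀ i w e z, z ∈ F w e → d i z ∈ F (w - 1) (e + 1)
  mono : ∀ w e z, z ∈ F w e → z ∈ F w (e + 1)

attribute [instance] GM.acg GM.mod

variable {K : Type u} [Field K]

/-- Maps of `GM`'s. -/
structure IsG (A B : GM K) (φ : A.X →ₗ[K] B.X) : Prop where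
  x : ∀ i z, φ (A.x i z) = B.x i (φ z)
  d : ∀ i z, φ (A.d i z) = B.d i (φ z)
  F : ∀ w e z, z ∈ A.F w e → φ z ∈ B.F w e

theorem IsG.comp {A B C : GM K} {ψ : B.X →ₗ[K] C.X} {φ : A.X →ₗ[K] B.X} (hψ : IsG B C ψ)
    (hφ : IsG A B φ) : IsG A C (ψ ∘ₗ φ) :=
  ⟨fun i z => by simp [hφ.x, hψ.x], fun i z => by simp [hφ.d, hψ.d],
    fun w e z hz => hψ.F w e _ (hφ.F w e z hz)⟩

theorem IsG.id (A : GM K) : IsG A A LinearMap.id := ⟨fun _ _ => rfl, fun _ _ => rfl, fun _ _ _ h => h⟩

theorem IsG.zero (A B : GM K) : IsG A B 0 :=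
  ⟨fun _ _ => by simp, fun _ _ => by simp, fun _ _ _ _ => by simp⟩

theorem IsG.add {A B : GM K} {φ ψ : A.X →ₗ[K] B.X} (hφ : IsG A B φ) (hψ : IsG A B ψ) :
    IsG A B (φ + ψ) :=
  ⟨fun i z => by simp [hφ.x, hψ.x], fun i z => by simp [hφ.d, hψ.d],
    fun w e z hz => (B.F w e).add_mem (hφ.F w e z hz) (hψ.F w e z hz)⟩

theorem IsG.smul {A B : GM K} {φ : A.X →ₗ[K] B.X} (hφ : IsG A B φ) (c : K) :
    IsG A B (c • φ) :=
  ⟨fun i z => by simp [hφ.x], fun i z => by simp [hφ.d],
    fun w e z hz => (B.F w e).smul_mem c (hφ.F w e z hz)⟩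

theorem IsG.neg {A B : GM K} {φ : A.X →ₗ[K] B.X} (hφ : IsG A B φ) : IsG A B (-φ) :=
  ⟨fun i z => by simp [hφ.x], fun i z => by simp [hφ.d],
    fun w e z hz => (B.F w e).neg_mem (hφ.F w e z hz)⟩

/-- The shift of the weight. -/
@[reducible] def GM.tau (A : GM K) : GM K where
  X := A.X
  x := A.x
  d := A.d
  F w e := A.F (w + 1) e
  xx := A.xx
  dd := A.dd
  dx := A.dx
  xF i w e z hz := A.xF i (w + 1) e z hz
  dF i w e z hz := by
    have h := A.dF i (w + 1) e z hz
    rwa [show w + 1 - 1 = w - 1 + 1 by ring] at h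
  mono w e z hz := A.mono (w + 1) e z hz

theorem IsG.tau {A B : GM K} {φ : A.X →ₗ[K] B.X} (h : IsG A B φ) : IsG A.tau B.tau φ :=
  ⟨h.x, h.d, fun w e z hz => h.F (w + 1) e z hz⟩

/-- Products. -/
@[reducible] def GM.prod (A B : GM K) : GM K where
  X := A.X × B.X
  x i := (A.x i).prodMap (B.x i)
  d i := (A.d i).prodMap (B.d i)
  F w e := (A.F w e).prod (B.F w e)
  xx i j z := by ext <;> simp [A.xx i j, B.xx i j]
  dd i j z := by ext <;> simp [A.dd i j, B.dd i j]
  dx i j z := by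
    ext
    · simp only [LinearMap.prodMap_apply, A.dx, Prod.fst_add]
      split_ifs <;> rfl
    · simp only [LinearMap.prodMap_apply, B.dx, Prod.snd_add]
      split_ifs <;> rfl
  xF i w e z hz := ⟨A.xF i w e _ hz.1, B.xF i w e _ hz.2⟩
  dF i w e z hz := ⟨A.dF i w e _ hz.1, B.dF i w e _ hz.2⟩
  mono w e z hz := ⟨A.mono w e _ hz.1, B.mono w e _ hz.2⟩

/-- The zero object. -/
@[reducible] def GM.zero (K : Type u) [Field K] : GM K where
  X := PUnit
  x _ := 0
  d _ := 0
  F _ _ := ⊤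
  xx _ _ _ := rfl
  dd _ _ _ := rfl
  dx _ _ _ := rfl
  xF _ _ _ _ _ := trivial
  dF _ _ _ _ _ := trivial
  mono _ _ _ _ := trivial

/-- `Ind A = A ⊕ τA`. -/
@[reducible] def GM.ind (A : GM K) : GM K := A.prod A.tau

/-- Triples `(A, B, t : A → B)` with a square-zero operator `r` on `B` lowering the weight. -/
structure EM (K : Type u) [Field K] where
  A : GM K
  B : GM K
  r : B.X →ₗ[K] B.X
  t : A.X →ₗ[K] B.X
  rx : ∀ i z, r (B.x i z) = B.x i (r z)
  rd : ∀ i z, r (B.d i z) = B.d i (r z)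
  rr : ∀ z, r (r z) = 0
  rF : ∀ w e z, z ∈ B.F (w + 1) e → r z ∈ B.F w e
  tG : IsG A B t

/-- Maps of `EM`'s. -/
structure IsE (M N : EM K) (a : M.A.X →ₗ[K] N.A.X) (b : M.B.X →ₗ[K] N.B.X) : Prop where
  gA : IsG M.A N.A a
  gB : IsG M.B N.B b
  r : ∀ z, b (M.r z) = N.r (b z)
  t : ∀ z, b (M.t z) = N.t (a z)

theorem IsE.comp {M N L : EM K} {a : M.A.X →ₗ[K] N.A.X} {b : M.B.X →ₗ[K] N.B.X}
    {a' : N.A.X →ₗ[K] L.A.X} {b' : N.B.X →ₗ[K] L.B.X} (h' : IsE N L a' b') (h : IsE M N a b) :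
    IsE M L (a' ∘ₗ a) (b' ∘ₗ b) :=
  ⟨h'.gA.comp h.gA, h'.gB.comp h.gB, fun z => by simp [h.r, h'.r], fun z => by simp [h.t, h'.t]⟩

/-- The operators of the structured space attached to an `EM`. -/
inductive EOp : Type
  | x (i : Fin 2) : EOp
  | d (i : Fin 2) : EOp
  | r : EOp
  | t : EOp
  | p : EOp

/-- The structured space of an `EM`. -/
@[reducible] def EM.toF (M : EM K) : FMod K EOp (Bool × ℤ × ℤ) where
  X := M.A.X × M.B.X
  op s := match s with
    | .x i => (M.A.x i).prodMap (M.B.x i)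
    | .d i => (M.A.d i).prodMap (M.B.d i)
    | .r => LinearMap.inr K _ _ ∘ₗ M.r ∘ₗ LinearMap.snd K _ _
    | .t => LinearMap.inr K _ _ ∘ₗ M.t ∘ₗ LinearMap.fst K _ _
    | .p => LinearMap.inl K _ _ ∘ₗ LinearMap.fst K _ _
  Fil s := match s with
    | (true, w, e) => (M.A.F w e).prod ⊥
    | (false, w, e) => Submodule.prod ⊥ (M.B.F w e)

theorem IsE.mem {M N : EM K} {a : M.A.X →ₗ[K] N.A.X} {b : M.B.X →ₗ[K] N.B.X} (h : IsE M N a b) :
    a.prodMap b ∈ FHom M.toF N.toF := by
  refine ⟨fun s z => ?_, fun s z hz => ?_⟩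
  · cases s with
    | x i => ext <;> simp [h.gA.x, h.gB.x]
    | d i => ext <;> simp [h.gA.d, h.gB.d]
    | r => ext <;> simp [h.r]
    | t => ext <;> simp [h.t]
    | p => ext <;> simp
  · obtain ⟨s, w, e⟩ := s
    cases s with
    | true =>
      obtain ⟨h1, h2⟩ := hz
      refine ⟨h.gA.F w e _ h1, ?_⟩
      have h3 : z.2 = 0 := h2
      simp [h3]
    | false =>
      obtain ⟨h1, h2⟩ := hz
      refine ⟨?_, h.gB.F w e _ h2⟩
      have h3 : z.1 = 0 := h1
      simp [h3]

/-- Every map of structured spaces is a pair. -/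
theorem exists_isE_of_mem {M N : EM K} {φ : M.toF.X →ₗ[K] N.toF.X} (h : φ ∈ FHom M.toF N.toF) :
    ∃ a b, IsE M N a b ∧ φ = a.prodMap b := by
  have h1 : ∀ z : M.A.X × M.B.X, φ (z.1, 0) = ((φ z).1, 0) := fun z => h.1 EOp.p z
  have hA : ∀ z : M.A.X, φ (z, 0) = ((φ (z, 0)).1, 0) := fun z => h1 (z, 0)
  have hB : ∀ z : M.B.X, φ (0, z) = (0, (φ (0, z)).2) := by
    intro z
    have h2 := h1 (0, z)
    have h3 : (φ (0, z)).1 = 0 := by
      have h4 := congrArg Prod.fst h2
      have h5 : φ ((0 : M.A.X), (0 : M.B.X)) = 0 := map_zero φ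
      rw [h5] at h4
      exact h4.symm
    exact Prod.ext h3 rfl
  let a : M.A.X →ₗ[K] N.A.X := LinearMap.fst K _ _ ∘ₗ φ ∘ₗ LinearMap.inl K _ _
  let b : M.B.X →ₗ[K] N.B.X := LinearMap.snd K _ _ ∘ₗ φ ∘ₗ LinearMap.inr K _ _
  have ha : ∀ z, φ (z, 0) = (a z, 0) := hA
  have hb : ∀ z, φ (0, z) = (0, b z) := hB
  refine ⟨a, b, ⟨⟨fun i z => ?_, fun i z => ?_, fun w e z hz => ?_⟩,
    ⟨fun i z => ?_, fun i z => ?_, fun w e z hz => ?_⟩, fun z => ?_, fun z => ?_⟩, ?_⟩
  · have h2 : φ (M.A.x i z, M.B.x i 0) = (N.A.x i (φ (z, 0)).1, N.B.x i (φ (z, 0)).2) :=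
      h.1 (EOp.x i) (z, 0)
    rw [map_zero, ha, ha] at h2
    exact congrArg Prod.fst h2
  · have h2 : φ (M.A.d i z, M.B.d i 0) = (N.A.d i (φ (z, 0)).1, N.B.d i (φ (z, 0)).2) :=
      h.1 (EOp.d i) (z, 0)
    rw [map_zero, ha, ha] at h2
    exact congrArg Prod.fst h2
  · exact (h.2 (true, w, e) (z, 0) ⟨hz, rfl⟩).1
  · have h2 : φ (M.A.x i 0, M.B.x i z) = (N.A.x i (φ (0, z)).1, N.B.x i (φ (0, z)).2) :=
      h.1 (EOp.x i) (0, z)
    rw [map_zero, hb, hb] at h2
    exact congrArg Prod.snd h2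
  · have h2 : φ (M.A.d i 0, M.B.d i z) = (N.A.d i (φ (0, z)).1, N.B.d i (φ (0, z)).2) :=
      h.1 (EOp.d i) (0, z)
    rw [map_zero, hb, hb] at h2
    exact congrArg Prod.snd h2
  · exact (h.2 (false, w, e) (0, z) ⟨rfl, hz⟩).2
  · have h2 : φ (0, M.r z) = (0, N.r (φ (0, z)).2) := h.1 EOp.r (0, z)
    rw [hb, hb] at h2
    exact congrArg Prod.snd h2
  · have h2 : φ (0, M.t z) = (0, N.t (φ (z, 0)).1) := h.1 EOp.t (z, 0)
    rw [hb, ha] at h2
    exact congrArg Prod.snd h2
  · refine LinearMap.ext fun z => ?_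
    obtain ⟨z1, z2⟩ := z
    have h2 : ((z1, z2) : M.A.X × M.B.X) = (z1, 0) + (0, z2) := by simp
    have h3 : φ (z1, z2) = φ (z1, 0) + φ (0, z2) := by rw [h2, map_add]
    rw [h3, ha, hb]
    simp

/-! ### The six constructions -/

/-- the operator `(z, z') ↦ (0, z)` -/
def indR (A : GM K) : (A.X × A.X) →ₗ[K] (A.X × A.X) :=
  LinearMap.inr K A.X A.X ∘ₗ LinearMap.fst K A.X A.X

@[simp] theorem indR_apply (A : GM K) (z : A.X × A.X) : indR A z = (0, z.1) := rfl

theorem indR_F (A : GM K) (w e : ℤ) (z : A.ind.X) (hz : z ∈ A.ind.F (w + 1) e) :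
    indR A z ∈ A.ind.F w e := ⟨(A.F w e).zero_mem, hz.1⟩

/-- `J A = (A → Ind A)`. -/
@[reducible] def EM.J (A : GM K) : EM K where
  A := A
  B := A.ind
  r := indR A
  t := LinearMap.inl K A.X A.X
  rx i z := by rw [indR_apply, indR_apply]; ext <;> simp
  rd i z := by rw [indR_apply, indR_apply]; ext <;> simp
  rr z := by rw [indR_apply, indR_apply]; rfl
  rF := indR_F A
  tG := ⟨fun i z => by ext <;> simp, fun i z => by ext <;> simp, fun w e z hz => ⟨hz, by simp⟩⟩

/-- `J' A = (0 → Ind A)`. -/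
@[reducible] def EM.J' (A : GM K) : EM K where
  A := GM.zero K
  B := A.ind
  r := indR A
  t := 0
  rx i z := by rw [indR_apply, indR_apply]; ext <;> simp
  rd i z := by rw [indR_apply, indR_apply]; ext <;> simp
  rr z := by rw [indR_apply, indR_apply]; rfl
  rF := indR_F A
  tG := IsG.zero _ _

/-- `W A = (Ind A → Ind A)`. -/
@[reducible] def EM.W (A : GM K) : EM K where
  A := A.ind
  B := A.ind
  r := indR A
  t := LinearMap.id
  rx i z := by rw [indR_apply, indR_apply]; ext <;> simp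
  rd i z := by rw [indR_apply, indR_apply]; ext <;> simp
  rr z := by rw [indR_apply, indR_apply]; rfl
  rF := indR_F A
  tG := IsG.id _

/-- `[A] = (A → 0)`. -/
@[reducible] def EM.br (A : GM K) : EM K where
  A := A
  B := GM.zero K
  r := 0
  t := 0
  rx _ _ := rfl
  rd _ _ := rfl
  rr _ := rfl
  rF _ _ _ _ := trivial
  tG := IsG.zero _ _

/-- `[A]' = (0 → A)`, with `r = 0`. -/
@[reducible] def EM.br' (A : GM K) : EM K where
  A := GM.zero K
  B := A
  r := 0
  t := 0
  rx _ _ := by simp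
  rd _ _ := by simp
  rr _ := by simp
  rF _ _ _ _ := by simp
  tG := IsG.zero _ _

/-- `Δ A = (A → A)`, with `r = 0`. -/
@[reducible] def EM.De (A : GM K) : EM K where
  A := A
  B := A
  r := 0
  t := LinearMap.id
  rx _ _ := by simp
  rd _ _ := by simp
  rr _ := by simp
  rF _ _ _ _ := by simp
  tG := IsG.id _

/-! ### Functoriality -/

theorem IsG.ind {A B : GM K} {φ : A.X →ₗ[K] B.X} (h : IsG A B φ) :
    IsG A.ind B.ind (φ.prodMap φ) :=
  ⟨fun i z => by ext <;> simp [h.x], fun i z => by ext <;> simp [h.d],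
    fun w e z hz => ⟨h.F w e _ hz.1, h.F (w + 1) e _ hz.2⟩⟩

theorem IsG.J {A B : GM K} {φ : A.X →ₗ[K] B.X} (h : IsG A B φ) :
    IsE (EM.J A) (EM.J B) φ (φ.prodMap φ) :=
  ⟨h, h.ind, fun z => by rw [indR_apply, indR_apply]; ext <;> simp, fun z => by ext <;> simp⟩

theorem IsG.J' {A B : GM K} {φ : A.X →ₗ[K] B.X} (h : IsG A B φ) :
    IsE (EM.J' A) (EM.J' B) 0 (φ.prodMap φ) :=
  ⟨IsG.zero _ _, h.ind, fun z => by rw [indR_apply, indR_apply]; ext <;> simp,
    fun z => by ext <;> simp⟩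

theorem IsG.W {A B : GM K} {φ : A.X →ₗ[K] B.X} (h : IsG A B φ) :
    IsE (EM.W A) (EM.W B) (φ.prodMap φ) (φ.prodMap φ) :=
  ⟨h.ind, h.ind, fun z => by rw [indR_apply, indR_apply]; ext <;> simp, fun z => rfl⟩

theorem IsG.br {A B : GM K} {φ : A.X →ₗ[K] B.X} (h : IsG A B φ) :
    IsE (EM.br A) (EM.br B) φ 0 :=
  ⟨h, IsG.zero _ _, fun _ => rfl, fun _ => rfl⟩

/-! ### Windows -/

/-- The window of a line: `F w e × 0`. -/
def lineW (Z : GM K) (w e : ℤ) : Submodule K (Z.X × Z.X) := (Z.F w e).prod ⊥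

/-- The window of the rank two object `G_b`. -/
def gW (Z : GM K) (b : ℤ) : Submodule K (Z.X × Z.X) where
  carrier := {p | p.1 ∈ Z.F 0 (-b) ∧ p.2 ∈ Z.F 0 (-b) ∧ Z.x 1 p.1 - Z.x 0 p.2 ∈ Z.F 1 (-2)}
  zero_mem' := by simp
  add_mem' := by
    rintro p q ⟨h1, h2, h3⟩ ⟨k1, k2, k3⟩
    refine ⟨Submodule.add_mem _ h1 k1, Submodule.add_mem _ h2 k2, ?_⟩
    have := Submodule.add_mem _ h3 k3
    simp only [Prod.fst_add, Prod.snd_add, map_add]
    convert this using 1
    abel
  smul_mem' := by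
    rintro c p ⟨h1, h2, h3⟩
    refine ⟨Submodule.smul_mem _ c h1, Submodule.smul_mem _ c h2, ?_⟩
    have := Submodule.smul_mem _ c h3
    simpa [smul_sub] using this

/-- The six windows: `O(0,0), O(0,1), O(0,2), G_0, G_1, O(-1,2)`. -/
def win (Z : GM K) (i : Fin 6) : Submodule K (Z.X × Z.X) :=
  match i with
  | 0 => lineW Z 0 0
  | 1 => lineW Z 0 (-1)
  | 2 => lineW Z 0 (-2)
  | 3 => gW Z 0
  | 4 => gW Z 1
  | 5 => lineW Z 1 (-2)

end Vale.Agent.P195.Van
end
end

section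

section

/-!
# P195: three-fold extensions and `Ext³`

Sequences `0 → A₃ → A₂ → A₁ → A₀ → Q → 0` of modules, the attached map
`Hom (A₃, V) → Ext³ (Q, V)`, its naturality, and the computation of `Ext (Q, V)` when the `Aᵢ`
are projective.
-/

open CategoryTheory CategoryTheory.Abelian Function

namespace Vale.Agent.P195.Dis

universe u

variable {R : Type u} [Ring R]

/-- The short complex attached to an exact pair of linear maps. -/
def scx {A B C : ModuleCat.{u} R} (f : A →ₗ[R] B) (g : B →ₗ[R] C) (h : Exact f g) :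
    ShortComplex (ModuleCat.{u} R) :=
  ShortComplex.mk (ModuleCat.ofHom f) (ModuleCat.ofHom g) (by
    ext x
    exact (h (f x)).2 ⟨x, rfl⟩)

theorem scx_shortExact {A B C : ModuleCat.{u} R} (f : A →ₗ[R] B) (g : B →ₗ[R] C)
    (h : Exact f g) (hf : Injective f) (hg : Surjective g) : (scx f g h).ShortExact where
  exact := by
    rw [ShortComplex.moduleCat_exact_iff]
    intro x hx
    exact (h x).1 hx
  mono_f := (ModuleCat.mono_iff_injective _).2 hf
  epi_g := (ModuleCat.epi_iff_surjective _).2 hg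

/-- Precomposition with a linear map on `Ext`. -/
noncomputable def pull {A B V : ModuleCat.{u} R} (f : A →ₗ[R] B) {n : ℕ} (x : Ext B V n) :
    Ext A V n :=
  (Ext.mk₀ (ModuleCat.ofHom f)).comp x (zero_add n)

/-- The class in `Ext⁰` of a linear map. -/
noncomputable def cl0 {A V : ModuleCat.{u} R} (f : A →ₗ[R] V) : Ext A V 0 :=
  Ext.mk₀ (ModuleCat.ofHom f)

theorem cl0_surj {A V : ModuleCat.{u} R} (x : Ext A V 0) : ∃ f : A →ₗ[R] V, cl0 f = x := by
  obtain ⟨f, rfl⟩ := Ext.homEquiv₀.symm.surjective x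
  exact ⟨f.hom, rfl⟩

theorem cl0_inj {A V : ModuleCat.{u} R} {f g : A →ₗ[R] V} (h : cl0 f = cl0 g) : f = g := by
  have h2 := (Ext.mk₀_bijective _ _).1 h
  exact congrArg ModuleCat.Hom.hom h2

theorem cl0_zero {A V : ModuleCat.{u} R} : cl0 (0 : A →ₗ[R] V) = 0 := by
  unfold cl0
  rw [show ModuleCat.ofHom (0 : A →ₗ[R] V) = 0 from rfl, Ext.mk₀_zero]

theorem pull_cl0 {A B V : ModuleCat.{u} R} (f : A →ₗ[R] B) (g : B →ₗ[R] V) :
    pull f (cl0 g) = cl0 (g ∘ₗ f) := by
  unfold pull cl0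
  rw [Ext.mk₀_comp_mk₀]
  rfl

theorem pull_zero {A B V : ModuleCat.{u} R} (f : A →ₗ[R] B) {n : ℕ} :
    pull f (0 : Ext B V n) = 0 := by
  unfold pull
  rw [Ext.comp_zero]

theorem pull_pull {A B C V : ModuleCat.{u} R} (f : A →ₗ[R] B) (g : B →ₗ[R] C) {n : ℕ}
    (x : Ext C V n) : pull f (pull g x) = pull (g ∘ₗ f) x := by
  unfold pull
  rw [Ext.mk₀_comp_mk₀_assoc]
  rfl

theorem pull_zero_map {A B V : ModuleCat.{u} R} {n : ℕ} (x : Ext B V n) :
    pull (0 : A →ₗ[R] B) x = 0 := by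
  unfold pull
  rw [show ModuleCat.ofHom (0 : A →ₗ[R] B) = 0 from rfl, Ext.mk₀_zero, Ext.zero_comp]

section ses

variable {A B C V : ModuleCat.{u} R} {f : A →ₗ[R] B} {g : B →ₗ[R] C}

/-- The class of an extension. -/
noncomputable def ecl (h : Exact f g) (hf : Injective f) (hg : Surjective g) : Ext C A 1 :=
  (scx_shortExact f g h hf hg).extClass

/-- The connecting map `Extⁿ (A, V) → Extⁿ⁺¹ (C, V)`. -/
noncomputable def conn (h : Exact f g) (hf : Injective f) (hg : Surjective g) {n : ℕ}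
    (x : Ext A V n) : Ext C V (n + 1) :=
  (ecl h hf hg).comp x (add_comm 1 n)

variable (h : Exact f g) (hf : Injective f) (hg : Surjective g)

theorem conn_zero {n : ℕ} : conn h hf hg (0 : Ext A V n) = 0 := by
  unfold conn
  rw [Ext.comp_zero]

theorem conn_pull {n : ℕ} (x : Ext B V n) : conn h hf hg (pull f x) = 0 := by
  unfold conn pull
  exact (scx_shortExact f g h hf hg).extClass_comp_assoc x

theorem exists_of_conn {n : ℕ} (x : Ext A V n) (hx : conn h hf hg x = 0) :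
    ∃ y : Ext B V n, pull f y = x :=
  Ext.contravariant_sequence_exact₁ (scx_shortExact f g h hf hg) V x (add_comm 1 n) hx

include h hf hg in
theorem exists_of_pull_left {n : ℕ} (x : Ext B V n) (hx : pull f x = 0) :
    ∃ y : Ext C V n, pull g y = x :=
  Ext.contravariant_sequence_exact₂ (scx_shortExact f g h hf hg) V x hx

theorem exists_of_pull_right {n : ℕ} (x : Ext C V (n + 1)) (hx : pull g x = 0) :
    ∃ y : Ext A V n, conn h hf hg y = x :=
  Ext.contravariant_sequence_exact₃ (scx_shortExact f g h hf hg) V x hx (add_comm 1 n)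

omit h hf in
include hg in
theorem pull_inj_zero {x y : Ext C V 0} (hxy : pull g x = pull g y) : x = y := by
  obtain ⟨a, rfl⟩ := cl0_surj x
  obtain ⟨b, rfl⟩ := cl0_surj y
  rw [pull_cl0, pull_cl0] at hxy
  have h2 := cl0_inj hxy
  congr 1
  apply LinearMap.ext
  intro z
  obtain ⟨w, rfl⟩ := hg z
  exact LinearMap.congr_fun h2 w

theorem ext_eq_zero_of_projective {P : ModuleCat.{u} R} [Module.Projective R P] {n : ℕ}
    (x : Ext P V (n + 1)) : x = 0 := by
  have : Projective P := (IsProjective.iff_projective P).1 inferInstance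
  exact Ext.eq_zero_of_projective (P := P) x

variable [Module.Projective R B]

theorem conn_surj {n : ℕ} (x : Ext C V (n + 1)) : ∃ y : Ext A V n, conn h hf hg y = x :=
  exists_of_pull_right h hf hg x (ext_eq_zero_of_projective _)

end ses

end Vale.Agent.P195.Dis
end
end

section

section

/-!
# P195: sequences `0 → A₃ → A₂ → A₁ → A₀ → Q → 0`
-/

open CategoryTheory CategoryTheory.Abelian Function

namespace Vale.Agent.P195.Dis

universe u

/-- An exact sequence `0 → A₃ → A₂ → A₁ → A₀ → Q → 0` of modules. -/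
structure Seq3 (R : Type u) [Ring R] where
  /-- the resolved module -/
  Q : ModuleCat.{u} R
  A0 : ModuleCat.{u} R
  A1 : ModuleCat.{u} R
  A2 : ModuleCat.{u} R
  A3 : ModuleCat.{u} R
  e : A0 →ₗ[R] Q
  d1 : A1 →ₗ[R] A0
  d2 : A2 →ₗ[R] A1
  d3 : A3 →ₗ[R] A2
  surj : Surjective e
  ex0 : Exact d1 e
  ex1 : Exact d2 d1
  ex2 : Exact d3 d2
  inj : Injective d3

variable {R : Type u} [Ring R]

namespace Seq3

section

variable (D : Seq3 R)

/-- first syzygy -/
def K1 : ModuleCat.{u} R := ModuleCat.of R (LinearMap.ker D.e)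

/-- second syzygy -/
def K2 : ModuleCat.{u} R := ModuleCat.of R (LinearMap.ker D.d1)

/-- inclusion of the first syzygy -/
def j1 : D.K1 →ₗ[R] D.A0 := (LinearMap.ker D.e).subtype

/-- inclusion of the second syzygy -/
def j2 : D.K2 →ₗ[R] D.A1 := (LinearMap.ker D.d1).subtype

/-- projection onto the first syzygy -/
def q1 : D.A1 →ₗ[R] D.K1 := D.d1.codRestrict (LinearMap.ker D.e) fun x =>
  LinearMap.mem_ker.2 ((D.ex0 (D.d1 x)).2 ⟨x, rfl⟩)

/-- projection onto the second syzygy -/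
def q2 : D.A2 →ₗ[R] D.K2 := D.d2.codRestrict (LinearMap.ker D.d1) fun x =>
  LinearMap.mem_ker.2 ((D.ex1 (D.d2 x)).2 ⟨x, rfl⟩)

theorem j1_q1 : D.j1 ∘ₗ D.q1 = D.d1 := rfl

theorem j2_q2 : D.j2 ∘ₗ D.q2 = D.d2 := rfl

theorem j1_inj : Injective D.j1 := Subtype.val_injective

theorem j2_inj : Injective D.j2 := Subtype.val_injective

theorem q1_surj : Surjective D.q1 := by
  rintro ⟨x, hx⟩
  obtain ⟨y, rfl⟩ := (D.ex0 x).1 (LinearMap.mem_ker.1 hx)
  exact ⟨y, rfl⟩

theorem q2_surj : Surjective D.q2 := by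
  rintro ⟨x, hx⟩
  obtain ⟨y, rfl⟩ := (D.ex1 x).1 (LinearMap.mem_ker.1 hx)
  exact ⟨y, rfl⟩

theorem exact0 : Exact D.j1 D.e := by
  intro x
  constructor
  · intro hx
    exact ⟨⟨x, LinearMap.mem_ker.2 hx⟩, rfl⟩
  · rintro ⟨y, rfl⟩
    exact LinearMap.mem_ker.1 y.2

theorem exact1 : Exact D.j2 D.q1 := by
  intro x
  constructor
  · intro hx
    have h1 : D.d1 x = 0 := by
      rw [← D.j1_q1, LinearMap.comp_apply, hx, map_zero]
    exact ⟨⟨x, LinearMap.mem_ker.2 h1⟩, rfl⟩
  · rintro ⟨y, rfl⟩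
    apply D.j1_inj
    rw [map_zero]
    exact LinearMap.mem_ker.1 y.2

theorem exact2 : Exact D.d3 D.q2 := by
  intro x
  have key : D.q2 x = 0 ↔ D.d2 x = 0 := by
    constructor
    · intro hx
      rw [← D.j2_q2, LinearMap.comp_apply, hx, map_zero]
    · intro hx
      apply D.j2_inj
      rw [map_zero]
      exact hx
  rw [key]
  exact D.ex2 x

end

variable (D : Seq3 R) {V : ModuleCat.{u} R}

/-- The class in `Ext³ (Q, V)` of a linear map `A₃ → V`. -/
noncomputable def cls (f : D.A3 →ₗ[R] V) : Ext D.Q V 3 :=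
  conn D.exact0 D.j1_inj D.surj
    (conn D.exact1 D.j2_inj D.q1_surj (conn D.exact2 D.inj D.q2_surj (cl0 f)))

theorem cls_of_bd (g : D.A2 →ₗ[R] V) : D.cls (g ∘ₗ D.d3) = 0 := by
  unfold cls
  rw [← pull_cl0, conn_pull, conn_zero, conn_zero]

variable [Module.Projective R D.A0] [Module.Projective R D.A1] [Module.Projective R D.A2]

theorem cls_surj (x : Ext D.Q V 3) : ∃ f : D.A3 →ₗ[R] V, D.cls f = x := by
  obtain ⟨y, rfl⟩ := conn_surj D.exact0 D.j1_inj D.surj (n := 2) x
  obtain ⟨z, rfl⟩ := conn_surj D.exact1 D.j2_inj D.q1_surj (n := 1) y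
  obtain ⟨w, rfl⟩ := conn_surj D.exact2 D.inj D.q2_surj (n := 0) z
  obtain ⟨f, rfl⟩ := cl0_surj w
  exact ⟨f, rfl⟩

/-- The complex `Hom (A, V)` is exact except at `A₃`. -/
structure Dual (D : Seq3 R) (V : ModuleCat.{u} R) : Prop where
  h0 : ∀ f : D.A0 →ₗ[R] V, f ∘ₗ D.d1 = 0 → f = 0
  h1 : ∀ f : D.A1 →ₗ[R] V, f ∘ₗ D.d2 = 0 → ∃ g : D.A0 →ₗ[R] V, g ∘ₗ D.d1 = f
  h2 : ∀ f : D.A2 →ₗ[R] V, f ∘ₗ D.d3 = 0 → ∃ g : D.A1 →ₗ[R] V, g ∘ₗ D.d2 = f

variable {D}

omit [Module.Projective R D.A0] [Module.Projective R D.A1] [Module.Projective R D.A2] in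
theorem Dual.ext0 (hD : D.Dual V) (x : Ext D.Q V 0) : x = 0 := by
  obtain ⟨f, rfl⟩ := cl0_surj x
  have h : f ∘ₗ D.e = 0 := by
    apply hD.h0
    rw [LinearMap.comp_assoc]
    have : D.e ∘ₗ D.d1 = 0 := by
      apply LinearMap.ext
      intro y
      exact (D.ex0 (D.d1 y)).2 ⟨y, rfl⟩
    rw [this, LinearMap.comp_zero]
  have h2 : f = 0 := by
    apply LinearMap.ext
    intro y
    obtain ⟨z, rfl⟩ := D.surj y
    exact LinearMap.congr_fun h z
  rw [h2, cl0_zero]

omit [Module.Projective R D.A1] [Module.Projective R D.A2] in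
theorem Dual.ext1 (hD : D.Dual V) (x : Ext D.Q V 1) : x = 0 := by
  obtain ⟨y, rfl⟩ := conn_surj D.exact0 D.j1_inj D.surj (n := 0) x
  obtain ⟨f, rfl⟩ := cl0_surj y
  have hf : (f ∘ₗ D.q1) ∘ₗ D.d2 = 0 := by
    rw [LinearMap.comp_assoc]
    have : D.q1 ∘ₗ D.d2 = 0 := by
      apply LinearMap.ext
      intro y
      apply D.j1_inj
      exact (D.ex1 (D.d2 y)).2 ⟨y, rfl⟩
    rw [this, LinearMap.comp_zero]
  obtain ⟨g, hg⟩ := hD.h1 _ hf
  have h2 : g ∘ₗ D.j1 = f := by
    apply LinearMap.ext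
    intro y
    obtain ⟨z, rfl⟩ := D.q1_surj y
    exact LinearMap.congr_fun hg z
  rw [← h2, ← pull_cl0, conn_pull]

omit [Module.Projective R D.A2] in
theorem Dual.ext2 (hD : D.Dual V) (x : Ext D.Q V 2) : x = 0 := by
  obtain ⟨y, rfl⟩ := conn_surj D.exact0 D.j1_inj D.surj (n := 1) x
  obtain ⟨z, rfl⟩ := conn_surj D.exact1 D.j2_inj D.q1_surj (n := 0) y
  obtain ⟨f, rfl⟩ := cl0_surj z
  have hf : (f ∘ₗ D.q2) ∘ₗ D.d3 = 0 := by
    rw [LinearMap.comp_assoc]
    have : D.q2 ∘ₗ D.d3 = 0 := by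
      apply LinearMap.ext
      intro y
      apply D.j2_inj
      exact (D.ex2 (D.d3 y)).2 ⟨y, rfl⟩
    rw [this, LinearMap.comp_zero]
  obtain ⟨g, hg⟩ := hD.h2 _ hf
  have h2 : g ∘ₗ D.j2 = f := by
    apply LinearMap.ext
    intro y
    obtain ⟨z, rfl⟩ := D.q2_surj y
    exact LinearMap.congr_fun hg z
  rw [← h2, ← pull_cl0, conn_pull, conn_zero]

theorem ext_ge_four [Module.Projective R D.A3] (n : ℕ) (x : Ext D.Q V (n + 4)) : x = 0 := by
  obtain ⟨y, rfl⟩ := conn_surj D.exact0 D.j1_inj D.surj (n := n + 3) x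
  obtain ⟨z, rfl⟩ := conn_surj D.exact1 D.j2_inj D.q1_surj (n := n + 2) y
  obtain ⟨w, rfl⟩ := conn_surj D.exact2 D.inj D.q2_surj (n := n + 1) z
  rw [ext_eq_zero_of_projective w, conn_zero, conn_zero, conn_zero]

end Seq3

end Vale.Agent.P195.Dis
end
end

section

section

/-!
# P195: orthogonality of modules

`OrthC M N` means `Extⁱ (M, N) = 0` for all `i ≥ 0`.  Two-out-of-three lemmas, finite sums,
towers, classes of modules closed under syzygies, and finite projective resolutions.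
-/

open CategoryTheory CategoryTheory.Abelian Function

namespace Vale.Agent.P195.Van

open Vale.Agent.P195.Dis

universe u

variable {R : Type u} [Ring R]

/-- `Extⁱ (M, N) = 0` for all `i ≥ 0`. -/
def OrthC (M N : ModuleCat.{u} R) : Prop := ∀ (i : ℕ) (x : Ext M N i), x = 0

/-- `Extⁱ (M, N) = 0` for all `i ≥ 1`. -/
def OrthCPos (M N : ModuleCat.{u} R) : Prop := ∀ (i : ℕ) (x : Ext M N (i + 1)), x = 0

theorem OrthC.pos {M N : ModuleCat.{u} R} (h : OrthC M N) : OrthCPos M N := fun i x => h (i + 1) x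

theorem OrthCPos.orth {M N : ModuleCat.{u} R} (h : OrthCPos M N) (h0 : ∀ f : M →ₗ[R] N, f = 0) :
    OrthC M N := by
  intro i x
  match i, x with
  | 0, x =>
    obtain ⟨f, rfl⟩ := cl0_surj x
    rw [h0 f, cl0_zero]
  | i + 1, x => exact h i x

theorem orthCPos_of_projective (P N : ModuleCat.{u} R) [Module.Projective R P] : OrthCPos P N :=
  fun _ x => ext_eq_zero_of_projective x

/-! ### Contravariant two out of three -/

section left

variable {A B C N : ModuleCat.{u} R} {f : A →ₗ[R] B} {g : B →ₗ[R] C}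
  (h : Exact f g) (hf : Injective f) (hg : Surjective g)

include h hf hg

theorem OrthC.left₁ (hB : OrthC B N) (hC : OrthCPos C N) : OrthC A N := by
  intro i x
  obtain ⟨y, rfl⟩ := exists_of_conn h hf hg x (hC i _)
  rw [hB _ y, pull_zero]

theorem OrthC.left₂ (hA : OrthC A N) (hC : OrthC C N) : OrthC B N := by
  intro i x
  obtain ⟨y, rfl⟩ := exists_of_pull_left h hf hg x (hA i _)
  rw [hC _ y, pull_zero]

theorem OrthC.left₃ (hA : OrthC A N) (hB : OrthC B N) : OrthC C N := by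
  intro i x
  match i, x with
  | 0, x =>
    apply pull_inj_zero hg
    rw [hB _ (pull g x), pull_zero]
  | i + 1, x =>
    obtain ⟨y, rfl⟩ := exists_of_pull_right h hf hg x (hB _ _)
    rw [hA _ y, conn_zero]

theorem OrthCPos.left₁ (hB : OrthCPos B N) (hC : OrthCPos C N) : OrthCPos A N := by
  intro i x
  obtain ⟨y, rfl⟩ := exists_of_conn h hf hg x (hC (i + 1) _)
  rw [hB _ y, pull_zero]

/-- If `Ext¹ (C, N) = 0` then maps `A → N` extend to `B`. -/
theorem exists_extend (hC : ∀ x : Ext C N 1, x = 0) (u : A →ₗ[R] N) :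
    ∃ v : B →ₗ[R] N, v ∘ₗ f = u := by
  obtain ⟨y, hy⟩ := exists_of_conn h hf hg (cl0 u) (hC _)
  obtain ⟨v, rfl⟩ := cl0_surj y
  refine ⟨v, ?_⟩
  rw [pull_cl0] at hy
  exact cl0_inj hy

end left

/-! ### Covariant functoriality -/

/-- Postcomposition with a linear map on `Ext`. -/
noncomputable def push {M A B : ModuleCat.{u} R} (f : A →ₗ[R] B) {n : ℕ} (x : Ext M A n) :
    Ext M B n :=
  x.comp (Ext.mk₀ (ModuleCat.ofHom f)) (add_zero n)

theorem push_zero {M A B : ModuleCat.{u} R} (f : A →ₗ[R] B) {n : ℕ} :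
    push f (0 : Ext M A n) = 0 := by
  unfold push
  rw [Ext.zero_comp]

theorem push_cl0 {M A B : ModuleCat.{u} R} (f : A →ₗ[R] B) (g : M →ₗ[R] A) :
    push f (cl0 g) = cl0 (f ∘ₗ g) := by
  unfold push cl0
  rw [Ext.mk₀_comp_mk₀]
  rfl

theorem push_push {M A B C : ModuleCat.{u} R} (f : A →ₗ[R] B) (g : B →ₗ[R] C) {n : ℕ}
    (x : Ext M A n) : push g (push f x) = push (g ∘ₗ f) x := by
  unfold push
  rw [Ext.comp_assoc_of_third_deg_zero, Ext.mk₀_comp_mk₀]
  rfl

section right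

variable {A B C M : ModuleCat.{u} R} {f : A →ₗ[R] B} {g : B →ₗ[R] C}

/-- The covariant connecting map. -/
noncomputable def conn' (h : Exact f g) (hf : Injective f) (hg : Surjective g) {n : ℕ}
    (x : Ext M C n) : Ext M A (n + 1) :=
  x.comp (ecl h hf hg) rfl

variable (h : Exact f g) (hf : Injective f) (hg : Surjective g)

theorem conn'_zero {n : ℕ} : conn' h hf hg (0 : Ext M C n) = 0 := by
  unfold conn'
  rw [Ext.zero_comp]

theorem exists_of_push_left {n : ℕ} (x : Ext M A (n + 1)) (hx : push f x = 0) :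
    ∃ y : Ext M C n, conn' h hf hg y = x :=
  Ext.covariant_sequence_exact₁ (S := scx f g h) M (scx_shortExact f g h hf hg) x hx rfl

include h hf hg

theorem OrthC.right₁ (hB : OrthC M B) (hC : OrthC M C) : OrthC M A := by
  intro i x
  match i, x with
  | 0, x =>
    obtain ⟨u, rfl⟩ := cl0_surj x
    have h1 := hB 0 (push f (cl0 u))
    rw [push_cl0, ← cl0_zero] at h1
    have h2 := cl0_inj h1
    have h3 : u = 0 := by
      apply LinearMap.ext
      intro y
      apply hf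
      rw [LinearMap.zero_apply, map_zero]
      exact LinearMap.congr_fun h2 y
    rw [h3, cl0_zero]
  | i + 1, x =>
    obtain ⟨y, rfl⟩ := exists_of_push_left h hf hg x (hB _ _)
    rw [hC _ y, conn'_zero]

end right

/-! ### Finite sums -/

theorem pull_id {A V : ModuleCat.{u} R} {n : ℕ} (x : Ext A V n) :
    pull (LinearMap.id : A →ₗ[R] A) x = x := by
  unfold pull
  rw [show ModuleCat.ofHom (LinearMap.id : A →ₗ[R] A) = 𝟙 _ from rfl, Ext.mk₀_id_comp]

theorem push_id {A V : ModuleCat.{u} R} {n : ℕ} (x : Ext A V n) :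
    push (LinearMap.id : V →ₗ[R] V) x = x := by
  unfold push
  rw [show ModuleCat.ofHom (LinearMap.id : V →ₗ[R] V) = 𝟙 _ from rfl, Ext.comp_mk₀_id]

theorem pull_sum_map {A B V : ModuleCat.{u} R} {n : ℕ} {ι : Type*} (s : Finset ι)
    (f : ι → A →ₗ[R] B) (x : Ext B V n) : pull (∑ i ∈ s, f i) x = ∑ i ∈ s, pull (f i) x := by
  let F : (A →ₗ[R] B) →+ Ext A V n :=
    { toFun := fun g => pull g x
      map_zero' := pull_zero_map x
      map_add' := fun g h => by
        unfold pull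
        rw [ModuleCat.ofHom_add, Ext.mk₀_add, Ext.add_comp] }
  exact map_sum F f s

theorem push_sum_map {A B V : ModuleCat.{u} R} {n : ℕ} {ι : Type*} (s : Finset ι)
    (f : ι → A →ₗ[R] B) (x : Ext V A n) : push (∑ i ∈ s, f i) x = ∑ i ∈ s, push (f i) x := by
  let F : (A →ₗ[R] B) →+ Ext V B n :=
    { toFun := fun g => push g x
      map_zero' := by
        change push (0 : A →ₗ[R] B) x = 0
        unfold push
        rw [show ModuleCat.ofHom (0 : A →ₗ[R] B) = 0 from rfl, Ext.mk₀_zero, Ext.comp_zero]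
      map_add' := fun g h => by
        unfold push
        rw [ModuleCat.ofHom_add, Ext.mk₀_add, Ext.comp_add] }
  exact map_sum F f s

/-- If `M` is a summand of a finite sum of the `Q i` then `OrthC` passes from the `Q i` to `M`. -/
theorem OrthC.of_retract_sum {M N : ModuleCat.{u} R} {ι : Type*} (s : Finset ι)
    (Q : ι → ModuleCat.{u} R) (p : ∀ i, M →ₗ[R] Q i) (q : ∀ i, Q i →ₗ[R] M)
    (h : ∑ i ∈ s, q i ∘ₗ p i = LinearMap.id) (hQ : ∀ i, OrthC (Q i) N) : OrthC M N := by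
  intro n x
  rw [← pull_id x, ← h, pull_sum_map]
  apply Finset.sum_eq_zero
  intro i _
  rw [← pull_pull, hQ i _ (pull (q i) x), pull_zero]

theorem OrthC.of_retract_sum_right {M N : ModuleCat.{u} R} {ι : Type*} (s : Finset ι)
    (Q : ι → ModuleCat.{u} R) (p : ∀ i, N →ₗ[R] Q i) (q : ∀ i, Q i →ₗ[R] N)
    (h : ∑ i ∈ s, q i ∘ₗ p i = LinearMap.id) (hQ : ∀ i, OrthC M (Q i)) : OrthC M N := by
  intro n x
  rw [← push_id x, ← h, push_sum_map]
  apply Finset.sum_eq_zero
  intro i _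
  rw [← push_push, hQ i _ (push (p i) x), push_zero]

theorem OrthCPos.of_retract_sum_right {M N : ModuleCat.{u} R} {ι : Type*} (s : Finset ι)
    (Q : ι → ModuleCat.{u} R) (p : ∀ i, N →ₗ[R] Q i) (q : ∀ i, Q i →ₗ[R] N)
    (h : ∑ i ∈ s, q i ∘ₗ p i = LinearMap.id) (hQ : ∀ i, OrthCPos M (Q i)) : OrthCPos M N := by
  intro n x
  rw [← push_id x, ← h, push_sum_map]
  apply Finset.sum_eq_zero
  intro i _
  rw [← push_push, hQ i _ (push (p i) x), push_zero]

/-- Finite products in the first variable. -/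
theorem OrthC.pi {N : ModuleCat.{u} R} {ι : Type} [Fintype ι] [DecidableEq ι]
    (Q : ι → ModuleCat.{u} R) (h : ∀ i, OrthC (Q i) N) :
    OrthC (ModuleCat.of R (∀ i, Q i)) N :=
  OrthC.of_retract_sum (Finset.univ : Finset ι) Q
    (fun i => (LinearMap.proj i : (∀ i, Q i) →ₗ[R] Q i))
    (fun i => (LinearMap.single R (fun i => Q i) i : Q i →ₗ[R] ∀ i, Q i)) (by
      apply LinearMap.ext
      intro x
      rw [LinearMap.sum_apply]
      simp only [LinearMap.comp_apply, LinearMap.proj_apply, LinearMap.id_apply]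
      exact LinearMap.sum_single_apply (fun i => Q i) x) h

/-! ### Towers and classes -/

/-- A class of modules closed under kernels of covers by modules orthogonal to `N` consists of
modules orthogonal to `N`. -/
theorem orthC_of_class {N : ModuleCat.{u} R} (𝒞 : ModuleCat.{u} R → Prop)
    (h : ∀ M, 𝒞 M → ∃ (M' P : ModuleCat.{u} R) (f : M' →ₗ[R] P) (g : P →ₗ[R] M),
      Exact f g ∧ Injective f ∧ Surjective g ∧ OrthC P N ∧ 𝒞 M')
    (M : ModuleCat.{u} R) (hM : 𝒞 M) : OrthC M N := by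
  intro i
  induction i generalizing M with
  | zero =>
    intro x
    obtain ⟨M', P, f, g, _, _, hg, hP, _⟩ := h M hM
    apply pull_inj_zero hg
    rw [hP _ (pull g x), pull_zero]
  | succ i ih =>
    intro x
    obtain ⟨M', P, f, g, hfg, hf, hg, hP, hM'⟩ := h M hM
    obtain ⟨y, rfl⟩ := exists_of_pull_right hfg hf hg x (hP _ _)
    rw [ih M' hM' y, conn_zero]

/-! ### Finite projective resolutions -/

/-- A projective resolution of length three whose dual complex is exact everywhere. -/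
theorem orthC_of_seq3 (D : Seq3 R) {N : ModuleCat.{u} R} [Module.Projective R D.A0]
    [Module.Projective R D.A1] [Module.Projective R D.A2] [Module.Projective R D.A3]
    (hD : D.Dual N) (h3 : ∀ f : D.A3 →ₗ[R] N, ∃ g : D.A2 →ₗ[R] N, g ∘ₗ D.d3 = f) :
    OrthC D.Q N := by
  intro i x
  match i, x with
  | 0, x => exact hD.ext0 x
  | 1, x => exact hD.ext1 x
  | 2, x => exact hD.ext2 x
  | 3, x =>
    obtain ⟨f, rfl⟩ := D.cls_surj x
    obtain ⟨g, rfl⟩ := h3 f
    exact D.cls_of_bd g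
  | i + 4, x => exact Seq3.ext_ge_four i x

/-- A projective resolution of length two whose dual complex is exact everywhere. -/
theorem orthC_of_res2 {Q A0 A1 A2 N : ModuleCat.{u} R} [Module.Projective R A0]
    [Module.Projective R A1] [Module.Projective R A2]
    (e : A0 →ₗ[R] Q) (d1 : A1 →ₗ[R] A0) (d2 : A2 →ₗ[R] A1) (surj : Surjective e)
    (ex0 : Exact d1 e) (ex1 : Exact d2 d1) (inj : Injective d2)
    (h0 : ∀ f : A0 →ₗ[R] N, f ∘ₗ d1 = 0 → f = 0)
    (h1 : ∀ f : A1 →ₗ[R] N, f ∘ₗ d2 = 0 → ∃ g : A0 →ₗ[R] N, g ∘ₗ d1 = f)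
    (h2 : ∀ f : A2 →ₗ[R] N, ∃ g : A1 →ₗ[R] N, g ∘ₗ d2 = f) : OrthC Q N := by
  let D : Seq3 R :=
    { Q := Q
      A0 := A0
      A1 := A1
      A2 := A2
      A3 := ModuleCat.of R PUnit.{u + 1}
      e := e
      d1 := d1
      d2 := d2
      d3 := 0
      surj := surj
      ex0 := ex0
      ex1 := ex1
      ex2 := by
        intro x
        constructor
        · intro hx
          exact ⟨0, (inj (hx.trans (map_zero d2).symm)).symm⟩
        · rintro ⟨y, rfl⟩
          rw [LinearMap.zero_apply, map_zero]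
      inj := fun x y _ => Subsingleton.elim (α := PUnit.{u + 1}) x y }
  have p0 : Module.Projective R D.A0 := (inferInstance : Module.Projective R A0)
  have p1 : Module.Projective R D.A1 := (inferInstance : Module.Projective R A1)
  have p2 : Module.Projective R D.A2 := (inferInstance : Module.Projective R A2)
  have p3 : Module.Projective R D.A3 := (inferInstance : Module.Projective R PUnit.{u + 1})
  refine orthC_of_seq3 D ⟨h0, h1, fun f _ => h2 f⟩ fun f => ⟨0, ?_⟩
  apply LinearMap.ext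
  intro x
  rw [show x = 0 from Subsingleton.elim (α := PUnit.{u + 1}) x 0, map_zero, map_zero]

end Vale.Agent.P195.Van
end
end

section

section

/-!
# P195: orthogonality, unbundled version

`EZ R i M N` means `Extⁱ_R (M, N) = 0`, `Orth R M N` means `EZ R i M N` for all `i ≥ 0`.
-/

open CategoryTheory CategoryTheory.Abelian Function

namespace Vale.Agent.P195.Van

open Vale.Agent.P195.Dis

universe u

/-- `Extⁱ_R (M, N) = 0`. -/
def EZ (R : Type u) [Ring R] (i : ℕ) (M N : Type u) [AddCommGroup M] [Module R M]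
    [AddCommGroup N] [Module R N] : Prop :=
  Subsingleton (Ext (ModuleCat.of R M) (ModuleCat.of R N) i)

/-- `Extⁱ_R (M, N) = 0` for all `i ≥ 0`. -/
def Orth (R : Type u) [Ring R] (M N : Type u) [AddCommGroup M] [Module R M]
    [AddCommGroup N] [Module R N] : Prop := ∀ i, EZ R i M N

/-- `Extⁱ_R (M, N) = 0` for all `i ≥ 1`. -/
def OrthPos (R : Type u) [Ring R] (M N : Type u) [AddCommGroup M] [Module R M]
    [AddCommGroup N] [Module R N] : Prop := ∀ i, EZ R (i + 1) M N

/-- Short exact sequences of linear maps. -/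
structure SES {R : Type u} [Ring R] {A B C : Type u} [AddCommGroup A] [Module R A]
    [AddCommGroup B] [Module R B] [AddCommGroup C] [Module R C] (f : A →ₗ[R] B)
    (g : B →ₗ[R] C) : Prop where
  inj : Injective f
  exact : Exact f g
  surj : Surjective g

variable {R : Type u} [Ring R] {A B C M N P Q : Type u}
  [AddCommGroup A] [Module R A] [AddCommGroup B] [Module R B] [AddCommGroup C] [Module R C]
  [AddCommGroup M] [Module R M] [AddCommGroup N] [Module R N] [AddCommGroup P] [Module R P]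
  [AddCommGroup Q] [Module R Q]

theorem orth_iff : Orth R M N ↔ OrthC (ModuleCat.of R M) (ModuleCat.of R N) :=
  ⟨fun h i x => (h i).elim x 0, fun h i => subsingleton_of_forall_eq 0 (h i)⟩

theorem orthPos_iff : OrthPos R M N ↔ OrthCPos (ModuleCat.of R M) (ModuleCat.of R N) :=
  ⟨fun h i x => (h i).elim x 0, fun h i => subsingleton_of_forall_eq 0 (h i)⟩

theorem Orth.pos (h : Orth R M N) : OrthPos R M N := fun i => h (i + 1)

theorem ez_zero_iff : EZ R 0 M N ↔ ∀ f : M →ₗ[R] N, f = 0 := by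
  constructor
  · intro h f
    have h1 : cl0 (A := ModuleCat.of R M) (V := ModuleCat.of R N) f = 0 := h.elim _ _
    rw [← cl0_zero] at h1
    exact cl0_inj h1
  · intro h
    refine subsingleton_of_forall_eq 0 fun x => ?_
    obtain ⟨f, rfl⟩ := cl0_surj x
    rw [show f = 0 from h f, cl0_zero]

theorem Orth.hom (h : Orth R M N) (f : M →ₗ[R] N) : f = 0 := ez_zero_iff.1 (h 0) f

theorem OrthPos.orth (h : OrthPos R M N) (h0 : ∀ f : M →ₗ[R] N, f = 0) : Orth R M N := by
  intro i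
  match i with
  | 0 => exact ez_zero_iff.2 h0
  | i + 1 => exact h i

theorem orthPos_of_projective [Module.Projective R P] : OrthPos R P N :=
  orthPos_iff.2 (orthCPos_of_projective (ModuleCat.of R P) (ModuleCat.of R N))

theorem orth_of_projective [Module.Projective R P] (h0 : ∀ f : P →ₗ[R] N, f = 0) :
    Orth R P N := orthPos_of_projective.orth h0

section

variable {f : A →ₗ[R] B} {g : B →ₗ[R] C} (s : SES f g)

include s

/-! Two out of three in the first variable. -/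

theorem SES.orth_left₁ (hB : Orth R B N) (hC : Orth R C N) : Orth R A N :=
  orth_iff.2 (OrthC.left₁ (A := ModuleCat.of R A) (B := ModuleCat.of R B)
    (C := ModuleCat.of R C) s.exact s.inj s.surj (orth_iff.1 hB) (orth_iff.1 hC).pos)

theorem SES.orth_left₂ (hA : Orth R A N) (hC : Orth R C N) : Orth R B N :=
  orth_iff.2 (OrthC.left₂ (A := ModuleCat.of R A) (B := ModuleCat.of R B)
    (C := ModuleCat.of R C) s.exact s.inj s.surj (orth_iff.1 hA) (orth_iff.1 hC))

theorem SES.orth_left₃ (hA : Orth R A N) (hB : Orth R B N) : Orth R C N :=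
  orth_iff.2 (OrthC.left₃ (A := ModuleCat.of R A) (B := ModuleCat.of R B)
    (C := ModuleCat.of R C) s.exact s.inj s.surj (orth_iff.1 hA) (orth_iff.1 hB))

theorem SES.orthPos_left₁ (hB : OrthPos R B N) (hC : OrthPos R C N) : OrthPos R A N :=
  orthPos_iff.2 (OrthCPos.left₁ (A := ModuleCat.of R A) (B := ModuleCat.of R B)
    (C := ModuleCat.of R C) s.exact s.inj s.surj (orthPos_iff.1 hB) (orthPos_iff.1 hC))

theorem SES.extend (hC : EZ R 1 C N) (u : A →ₗ[R] N) : ∃ v : B →ₗ[R] N, v ∘ₗ f = u :=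
  exists_extend (A := ModuleCat.of R A) (B := ModuleCat.of R B) (C := ModuleCat.of R C)
    (N := ModuleCat.of R N) s.exact s.inj s.surj (fun x => hC.elim x 0) u

/-- `Ext¹ (C, N) = 0` if `Ext¹ (B, N) = 0` and maps extend. -/
theorem SES.ez_one (hB : EZ R 1 B N) (hext : ∀ u : A →ₗ[R] N, ∃ v : B →ₗ[R] N, v ∘ₗ f = u) :
    EZ R 1 C N := by
  refine subsingleton_of_forall_eq 0 fun x => ?_
  obtain ⟨y, rfl⟩ := exists_of_pull_right (A := ModuleCat.of R A) (B := ModuleCat.of R B)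
    (C := ModuleCat.of R C) s.exact s.inj s.surj (n := 0) x (hB.elim _ _)
  obtain ⟨u, rfl⟩ := cl0_surj y
  obtain ⟨v, rfl⟩ := hext u
  exact (congrArg _ (pull_cl0 (A := ModuleCat.of R A) (B := ModuleCat.of R B)
    (V := ModuleCat.of R N) f v).symm).trans (conn_pull _ _ _ _)

/-- `Extⁱ (A, N) = 0` from `Extⁱ (B, N) = 0` and `Extⁱ⁺¹ (C, N) = 0`. -/
theorem SES.ez_left {i : ℕ} (hB : EZ R i B N) (hC : EZ R (i + 1) C N) : EZ R i A N := by
  refine subsingleton_of_forall_eq 0 fun x => ?_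
  obtain ⟨y, rfl⟩ := exists_of_conn (A := ModuleCat.of R A) (B := ModuleCat.of R B)
    (C := ModuleCat.of R C) s.exact s.inj s.surj x (hC.elim _ _)
  rw [show y = 0 from hB.elim _ _, pull_zero]

/-- `Extⁱ⁺¹ (C, N) = 0` from `Extⁱ (A, N) = 0` and `Extⁱ⁺¹ (B, N) = 0`. -/
theorem SES.ez_right {i : ℕ} (hA : EZ R i A N) (hB : EZ R (i + 1) B N) :
    EZ R (i + 1) C N := by
  refine subsingleton_of_forall_eq 0 fun x => ?_
  obtain ⟨y, rfl⟩ := exists_of_pull_right (A := ModuleCat.of R A) (B := ModuleCat.of R B)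
    (C := ModuleCat.of R C) s.exact s.inj s.surj x (hB.elim _ _)
  rw [show y = 0 from hA.elim _ _, conn_zero]

/-! Two out of three in the second variable. -/

theorem SES.orth_right₁ (hB : Orth R M B) (hC : Orth R M C) : Orth R M A :=
  orth_iff.2 (OrthC.right₁ (A := ModuleCat.of R A) (B := ModuleCat.of R B)
    (C := ModuleCat.of R C) s.exact s.inj s.surj (orth_iff.1 hB) (orth_iff.1 hC))

end

/-! Invariance and finite sums. -/

theorem Orth.pi {ι : Type} [Finite ι] (F : ι → Type u) [∀ i, AddCommGroup (F i)]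
    [∀ i, Module R (F i)] (h : ∀ i, Orth R (F i) N) : Orth R (∀ i, F i) N := by
  classical
  have := Fintype.ofFinite ι
  exact orth_iff.2 (OrthC.pi (fun i => ModuleCat.of R (F i)) fun i => orth_iff.1 (h i))

theorem Orth.pow {ι : Type} [Finite ι] (h : Orth R M N) : Orth R (ι → M) N :=
  Orth.pi (fun _ => M) fun _ => h

/-- A summand of a finite sum. -/
theorem Orth.of_retract_sum {ι : Type*} (s : Finset ι) (F : ι → Type u)
    [∀ i, AddCommGroup (F i)] [∀ i, Module R (F i)] (p : ∀ i, M →ₗ[R] F i)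
    (q : ∀ i, F i →ₗ[R] M) (h : ∑ i ∈ s, q i ∘ₗ p i = LinearMap.id)
    (hF : ∀ i, Orth R (F i) N) : Orth R M N :=
  orth_iff.2 (OrthC.of_retract_sum (M := ModuleCat.of R M) s (fun i => ModuleCat.of R (F i)) p q h
    fun i => orth_iff.1 (hF i))

theorem Orth.of_retract_sum_right {ι : Type*} (s : Finset ι) (F : ι → Type u)
    [∀ i, AddCommGroup (F i)] [∀ i, Module R (F i)] (p : ∀ i, N →ₗ[R] F i)
    (q : ∀ i, F i →ₗ[R] N) (h : ∑ i ∈ s, q i ∘ₗ p i = LinearMap.id)
    (hF : ∀ i, Orth R M (F i)) : Orth R M N :=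
  orth_iff.2 (OrthC.of_retract_sum_right (N := ModuleCat.of R N) s
    (fun i => ModuleCat.of R (F i)) p q h fun i => orth_iff.1 (hF i))

theorem OrthPos.of_retract_sum_right {ι : Type*} (s : Finset ι) (F : ι → Type u)
    [∀ i, AddCommGroup (F i)] [∀ i, Module R (F i)] (p : ∀ i, N →ₗ[R] F i)
    (q : ∀ i, F i →ₗ[R] N) (h : ∑ i ∈ s, q i ∘ₗ p i = LinearMap.id)
    (hF : ∀ i, OrthPos R M (F i)) : OrthPos R M N :=
  orthPos_iff.2 (OrthCPos.of_retract_sum_right (N := ModuleCat.of R N) s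
    (fun i => ModuleCat.of R (F i)) p q h fun i => orthPos_iff.1 (hF i))

theorem OrthPos.congr_right (e : N ≃ₗ[R] P) (h : OrthPos R M N) : OrthPos R M P :=
  OrthPos.of_retract_sum_right (Finset.univ : Finset Unit) (fun _ => N)
    (fun _ => (e.symm : P →ₗ[R] N)) (fun _ => (e : N →ₗ[R] P)) (by
      rw [Finset.univ_unique, Finset.sum_singleton]
      apply LinearMap.ext
      intro x
      simp) (fun _ => h)

/-- Single degree version of invariance under retracts. -/
theorem EZ.of_retract {i : ℕ} (p : M →ₗ[R] P) (q : P →ₗ[R] M) (h : q ∘ₗ p = LinearMap.id)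
    (hP : EZ R i P N) : EZ R i M N := by
  refine subsingleton_of_forall_eq 0 fun x => ?_
  have h1 : pull (A := ModuleCat.of R M) (B := ModuleCat.of R P) p
      (pull (A := ModuleCat.of R P) (B := ModuleCat.of R M) q x) = x := by
    rw [pull_pull]
    have h2 : (q ∘ₗ p : M →ₗ[R] M) = LinearMap.id := h
    exact (congrArg (fun f => pull (A := ModuleCat.of R M) (B := ModuleCat.of R M) f x) h2).trans
      (pull_id x)
  rw [← h1, show pull (A := ModuleCat.of R P) (B := ModuleCat.of R M) q x = 0 from hP.elim _ _,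
    pull_zero]

/-- Zero modules are orthogonal to everything. -/
theorem orth_of_subsingleton [Subsingleton M] : Orth R M N :=
  orth_of_projective (P := M) fun f => LinearMap.ext fun x => by
    rw [Subsingleton.elim x 0, map_zero, map_zero]

/-! Induction principles. -/

/-- Step D: a class of modules closed under kernels of covers by modules orthogonal to `N`. -/
theorem orth_of_class (𝒞 : ∀ (X : Type u) [AddCommGroup X] [Module R X], Prop)
    (h : ∀ (X : Type u) [AddCommGroup X] [Module R X], 𝒞 X →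
      ∃ (X' : Type u) (_ : AddCommGroup X') (_ : Module R X') (P : Type u) (_ : AddCommGroup P)
        (_ : Module R P) (f : X' →ₗ[R] P) (g : P →ₗ[R] X), SES f g ∧ Orth R P N ∧ 𝒞 X')
    (hM : 𝒞 M) : Orth R M N := by
  refine orth_iff.2 (orthC_of_class (fun X : ModuleCat.{u} R => 𝒞 X) ?_ (ModuleCat.of R M) hM)
  intro X hX
  obtain ⟨X', _, _, P, _, _, f, g, hs, hP, hX'⟩ := h X hX
  exact ⟨ModuleCat.of R X', ModuleCat.of R P, f, g, hs.exact, hs.inj, hs.surj, orth_iff.1 hP,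
    hX'⟩

/-! Finite projective resolutions. -/

variable {A0 A1 A2 A3 : Type u} [AddCommGroup A0] [Module R A0] [AddCommGroup A1] [Module R A1]
  [AddCommGroup A2] [Module R A2] [AddCommGroup A3] [Module R A3]

theorem orth_of_res2 [Module.Projective R A0] [Module.Projective R A1] [Module.Projective R A2]
    (e : A0 →ₗ[R] Q) (d1 : A1 →ₗ[R] A0) (d2 : A2 →ₗ[R] A1) (surj : Surjective e)
    (ex0 : Exact d1 e) (ex1 : Exact d2 d1) (inj : Injective d2)
    (h0 : ∀ f : A0 →ₗ[R] N, f ∘ₗ d1 = 0 → f = 0)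
    (h1 : ∀ f : A1 →ₗ[R] N, f ∘ₗ d2 = 0 → ∃ g : A0 →ₗ[R] N, g ∘ₗ d1 = f)
    (h2 : ∀ f : A2 →ₗ[R] N, ∃ g : A1 →ₗ[R] N, g ∘ₗ d2 = f) : Orth R Q N :=
  orth_iff.2 (orthC_of_res2 (Q := ModuleCat.of R Q) (A0 := ModuleCat.of R A0)
    (A1 := ModuleCat.of R A1) (A2 := ModuleCat.of R A2) (N := ModuleCat.of R N) e d1 d2 surj
    ex0 ex1 inj h0 h1 h2)

theorem orth_of_res3 [Module.Projective R A0] [Module.Projective R A1] [Module.Projective R A2]
    [Module.Projective R A3]
    (e : A0 →ₗ[R] Q) (d1 : A1 →ₗ[R] A0) (d2 : A2 →ₗ[R] A1) (d3 : A3 →ₗ[R] A2)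
    (surj : Surjective e) (ex0 : Exact d1 e) (ex1 : Exact d2 d1) (ex2 : Exact d3 d2)
    (inj : Injective d3)
    (h0 : ∀ f : A0 →ₗ[R] N, f ∘ₗ d1 = 0 → f = 0)
    (h1 : ∀ f : A1 →ₗ[R] N, f ∘ₗ d2 = 0 → ∃ g : A0 →ₗ[R] N, g ∘ₗ d1 = f)
    (h2 : ∀ f : A2 →ₗ[R] N, f ∘ₗ d3 = 0 → ∃ g : A1 →ₗ[R] N, g ∘ₗ d2 = f)
    (h3 : ∀ f : A3 →ₗ[R] N, ∃ g : A2 →ₗ[R] N, g ∘ₗ d3 = f) : Orth R Q N := by
  let D : Seq3 R :=
    { Q := ModuleCat.of R Q
      A0 := ModuleCat.of R A0
      A1 := ModuleCat.of R A1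
      A2 := ModuleCat.of R A2
      A3 := ModuleCat.of R A3
      e := e
      d1 := d1
      d2 := d2
      d3 := d3
      surj := surj
      ex0 := ex0
      ex1 := ex1
      ex2 := ex2
      inj := inj }
  have p0 : Module.Projective R D.A0 := (inferInstance : Module.Projective R A0)
  have p1 : Module.Projective R D.A1 := (inferInstance : Module.Projective R A1)
  have p2 : Module.Projective R D.A2 := (inferInstance : Module.Projective R A2)
  have p3 : Module.Projective R D.A3 := (inferInstance : Module.Projective R A3)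
  exact orth_iff.2 (orthC_of_seq3 D (N := ModuleCat.of R N) ⟨h0, h1, h2⟩ h3)

end Vale.Agent.P195.Van
end
end

section

section

/-!
# P195 (vanishing version): evaluation of `EM`'s at the vertices, exactness of windows

* `Rep T i u`: the pair `u` is a universal element of the window `win T i`.
* maps `J T → M` are the elements of `win M.A i`, maps `J' T → M` those of `win M.B i`.
* `GSES`, `ESES`: short exact sequences of `GM`'s, `EM`'s (exactness at the six windows), and the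
  resulting short exact sequences of windows over `WAlg (FMod.pi Q)`.
* the exact sequences `(a)`, `(b)`, `(c)`, ...
-/

namespace Vale.Agent.P195.Van

universe u

variable {K : Type u} [Field K]

/-! ### Windows -/

theorem IsG.lineW {A B : GM K} {φ : A.X →ₗ[K] B.X} (h : IsG A B φ) {w e : ℤ} {p : A.X × A.X}
    (hp : p ∈ lineW A w e) : φ.prodMap φ p ∈ Van.lineW B w e :=
  ⟨h.F _ _ _ hp.1, by
    have h2 : p.2 = 0 := hp.2
    change φ p.2 = 0
    rw [h2, map_zero]⟩

theorem IsG.gW {A B : GM K} {φ : A.X →ₗ[K] B.X} (h : IsG A B φ) {b : ℤ} {p : A.X × A.X}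
    (hp : p ∈ gW A b) : φ.prodMap φ p ∈ Van.gW B b := by
  refine ⟨h.F _ _ _ hp.1, h.F _ _ _ hp.2.1, ?_⟩
  change B.x 1 (φ p.1) - B.x 0 (φ p.2) ∈ B.F 1 (-2)
  rw [← h.x, ← h.x, ← map_sub]
  exact h.F _ _ _ hp.2.2

theorem IsG.win {A B : GM K} {φ : A.X →ₗ[K] B.X} (h : IsG A B φ) (i : Fin 6) {p : A.X × A.X}
    (hp : p ∈ win A i) : φ.prodMap φ p ∈ Van.win B i := by
  fin_cases i
  · exact h.lineW hp
  · exact h.lineW hp
  · exact h.lineW hp
  · exact h.gW hp
  · exact h.gW hp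
  · exact h.lineW hp

/-- Windows of a product. -/
theorem mem_win_prod {A B : GM K} {i : Fin 6} {p : (A.X × B.X) × (A.X × B.X)} :
    p ∈ win (A.prod B) i ↔ (p.1.1, p.2.1) ∈ win A i ∧ (p.1.2, p.2.2) ∈ win B i := by
  have hl : ∀ w e, p ∈ lineW (A.prod B) w e ↔
      (p.1.1, p.2.1) ∈ lineW A w e ∧ (p.1.2, p.2.2) ∈ lineW B w e := by
    intro w e
    constructor
    · rintro ⟨⟨h1, h2⟩, h3⟩
      have h4 : p.2 = 0 := h3
      exact ⟨⟨h1, by simp [h4]⟩, ⟨h2, by simp [h4]⟩⟩
    · rintro ⟨⟨h1, h2⟩, ⟨h3, h4⟩⟩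
      exact ⟨⟨h1, h3⟩, Prod.ext h2 h4⟩
  have hg : ∀ b, p ∈ gW (A.prod B) b ↔
      (p.1.1, p.2.1) ∈ gW A b ∧ (p.1.2, p.2.2) ∈ gW B b := by
    intro b
    constructor
    · rintro ⟨⟨h1, h2⟩, ⟨h3, h4⟩, ⟨h5, h6⟩⟩
      exact ⟨⟨h1, h3, h5⟩, ⟨h2, h4, h6⟩⟩
    · rintro ⟨⟨h1, h3, h5⟩, ⟨h2, h4, h6⟩⟩
      exact ⟨⟨h1, h2⟩, ⟨h3, h4⟩, ⟨h5, h6⟩⟩
  fin_cases i
  · exact hl _ _
  · exact hl _ _
  · exact hl _ _
  · exact hg _
  · exact hg _
  · exact hl _ _

/-! ### Universal elements -/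

/-- `u` is a universal element of the `i`-th window of `T`. -/
structure Rep (T : GM K) (i : Fin 6) (u : T.X × T.X) : Prop where
  mem : u ∈ win T i
  ex : ∀ (Z : GM K) (z : Z.X × Z.X), z ∈ win Z i →
    ∃ φ : T.X →ₗ[K] Z.X, IsG T Z φ ∧ φ.prodMap φ u = z
  uniq : ∀ (Z : GM K) (φ ψ : T.X →ₗ[K] Z.X), IsG T Z φ → IsG T Z ψ →
    φ.prodMap φ u = ψ.prodMap ψ u → φ = ψ

variable {T : GM K} {i : Fin 6} {u : T.X × T.X}

/-- the map `Ind Z → M.B` induced by `β : Z → M.B` -/
def EM.indB (M : EM K) {Z : GM K} (β : Z.X →ₗ[K] M.B.X) : (Z.X × Z.X) →ₗ[K] M.B.X :=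
  β.coprod (M.r ∘ₗ β)

@[simp] theorem EM.indB_apply (M : EM K) {Z : GM K} (β : Z.X →ₗ[K] M.B.X) (z : Z.X × Z.X) :
    M.indB (Z := Z) β z = β z.1 + M.r (β z.2) := rfl

theorem IsG.indB {M : EM K} {Z : GM K} {β : Z.X →ₗ[K] M.B.X} (h : IsG Z M.B β) :
    IsG Z.ind M.B (M.indB (Z := Z) β) := by
  refine ⟨fun i z => ?_, fun i z => ?_, fun w e z hz => ?_⟩
  · simp only [EM.indB_apply, LinearMap.prodMap_apply, h.x, M.rx, map_add]
  · simp only [EM.indB_apply, LinearMap.prodMap_apply, h.d, M.rd, map_add]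
  · exact (M.B.F w e).add_mem (h.F _ _ _ hz.1) (M.rF _ _ _ (h.F _ _ _ hz.2))

/-- maps `J Z → M` from maps `Z → M.A` -/
theorem IsG.toJ {M : EM K} {Z : GM K} {a : Z.X →ₗ[K] M.A.X} (h : IsG Z M.A a) :
    IsE (EM.J Z) M a (M.indB (Z := Z) (M.t ∘ₗ a)) := by
  refine ⟨h, (M.tG.comp h).indB, fun z => ?_, fun z => ?_⟩
  · rw [indR_apply]
    simp [M.rr]
  · simp

/-- maps `J' Z → M` from maps `Z → M.B` -/
theorem IsG.toJ' {M : EM K} {Z : GM K} {β : Z.X →ₗ[K] M.B.X} (h : IsG Z M.B β) :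
    IsE (EM.J' Z) M 0 (M.indB (Z := Z) β) := by
  refine ⟨IsG.zero _ _, h.indB, fun z => ?_, fun z => ?_⟩
  · rw [indR_apply]
    simp [M.rr]
  · simp

/-- the second component of a map `J Z → M` or `J' Z → M` -/
theorem IsE.J_eq {M : EM K} {Z : GM K} {a : Z.X →ₗ[K] M.A.X} {b : (Z.X × Z.X) →ₗ[K] M.B.X}
    (h : IsE (EM.J Z) M a b) : b = M.indB (Z := Z) (M.t ∘ₗ a) := by
  refine LinearMap.ext fun z => ?_
  have h1 : b (z.1, 0) = M.t (a z.1) := h.t z.1
  have h2 : b (0, z.2) = M.r (b (z.2, 0)) := h.r (z.2, 0)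
  have h3 : b (z.2, 0) = M.t (a z.2) := h.t z.2
  have h4 : b z = b (z.1, 0) + b (0, z.2) := by rw [← map_add]; simp
  rw [h4, h1, h2, h3]
  rfl

/-- the restriction of `b` to the first component -/
theorem IsE.J'_eq {M : EM K} {Z : GM K} {a : (GM.zero K).X →ₗ[K] M.A.X}
    {b : (Z.X × Z.X) →ₗ[K] M.B.X}
    (h : IsE (EM.J' Z) M a b) : b = M.indB (Z := Z) (b ∘ₗ LinearMap.inl K Z.X Z.X) := by
  refine LinearMap.ext fun z => ?_
  have h2 : b (0, z.2) = M.r (b (z.2, 0)) := h.r (z.2, 0)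
  have h4 : b z = b (z.1, 0) + b (0, z.2) := by rw [← map_add]; simp
  rw [h4, h2]
  rfl

theorem IsE.J'_isG {M : EM K} {Z : GM K} {a : (GM.zero K).X →ₗ[K] M.A.X}
    {b : (Z.X × Z.X) →ₗ[K] M.B.X}
    (h : IsE (EM.J' Z) M a b) : IsG Z M.B (b ∘ₗ LinearMap.inl K Z.X Z.X) := by
  refine h.gB.comp ⟨fun i z => by ext <;> simp, fun i z => by ext <;> simp,
    fun w e z hz => ⟨hz, by simp⟩⟩

/-- Maps `J T → M` exist: evaluation at the generator is onto `win M.A i`. -/
theorem Rep.J_ex (hT : Rep T i u) (M : EM K) {z : M.A.X × M.A.X} (hz : z ∈ win M.A i) :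
    ∃ a b, IsE (EM.J T) M a b ∧ a.prodMap a u = z := by
  obtain ⟨a, ha, hau⟩ := hT.ex M.A z hz
  exact ⟨a, _, ha.toJ, hau⟩

theorem Rep.J_uniq (hT : Rep T i u) {M : EM K} {a a' : T.X →ₗ[K] M.A.X}
    {b b' : (T.X × T.X) →ₗ[K] M.B.X} (h : IsE (EM.J T) M a b) (h' : IsE (EM.J T) M a' b')
    (he : a.prodMap a u = a'.prodMap a' u) : a = a' ∧ b = b' := by
  have h1 : a = a' := hT.uniq _ _ _ h.gA h'.gA he
  subst h1
  exact ⟨rfl, h.J_eq.trans h'.J_eq.symm⟩

/-- Maps `J' T → M` exist: evaluation at the generator is onto `win M.B i`. -/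
theorem Rep.J'_ex (hT : Rep T i u) (M : EM K) {z : M.B.X × M.B.X} (hz : z ∈ win M.B i) :
    ∃ b, IsE (EM.J' T) M 0 b ∧ (b (u.1, 0), b (u.2, 0)) = z := by
  obtain ⟨β, hβ, hβu⟩ := hT.ex M.B z hz
  refine ⟨_, hβ.toJ', ?_⟩
  rw [← hβu]
  ext <;> simp

theorem Rep.J'_uniq (hT : Rep T i u) {M : EM K} {a a' : (GM.zero K).X →ₗ[K] M.A.X}
    {b b' : (T.X × T.X) →ₗ[K] M.B.X} (h : IsE (EM.J' T) M a b) (h' : IsE (EM.J' T) M a' b')
    (he : (b (u.1, 0), b (u.2, 0)) = (b' (u.1, 0), b' (u.2, 0))) : a = a' ∧ b = b' := by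
  have h1 : b ∘ₗ LinearMap.inl K T.X T.X = b' ∘ₗ LinearMap.inl K T.X T.X :=
    hT.uniq _ _ _ h.J'_isG h'.J'_isG he
  refine ⟨?_, ?_⟩
  · refine LinearMap.ext fun z => ?_
    rw [Subsingleton.elim z 0, map_zero, map_zero]
  · rw [h.J'_eq, h1, ← h'.J'_eq]

theorem Rep.J'_mem (hT : Rep T i u) {M : EM K} {a : (GM.zero K).X →ₗ[K] M.A.X}
    {b : (T.X × T.X) →ₗ[K] M.B.X} (h : IsE (EM.J' T) M a b) :
    ((b (u.1, 0), b (u.2, 0)) : M.B.X × M.B.X) ∈ win M.B i :=
  h.J'_isG.win i hT.mem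

/-! ### Exactness at the windows -/

/-- injectivity at the six windows -/
def WInj (A B : GM K) (f : A.X →ₗ[K] B.X) : Prop :=
  ∀ i, ∀ z ∈ win A i, f.prodMap f z = 0 → z = 0

/-- surjectivity at the six windows -/
def WSurj (A B : GM K) (f : A.X →ₗ[K] B.X) : Prop :=
  ∀ i, ∀ z ∈ win B i, ∃ y ∈ win A i, f.prodMap f y = z

/-- exactness in the middle at the six windows -/
def WEx (A B C : GM K) (f : A.X →ₗ[K] B.X) (g : B.X →ₗ[K] C.X) : Prop :=
  ∀ i, ∀ z ∈ win B i, g.prodMap g z = 0 → ∃ y ∈ win A i, f.prodMap f y = z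

theorem WInj.of_injective {A B : GM K} {f : A.X →ₗ[K] B.X} (h : Function.Injective f) :
    WInj A B f := by
  intro i z _ hfz
  have h1 : f z.1 = 0 := congrArg Prod.fst hfz
  have h2 : f z.2 = 0 := congrArg Prod.snd hfz
  exact Prod.ext ((map_eq_zero_iff f h).1 h1) ((map_eq_zero_iff f h).1 h2)

/-- short exact sequences of `GM`'s -/
structure GSES (A B C : GM K) (f : A.X →ₗ[K] B.X) (g : B.X →ₗ[K] C.X) : Prop where
  gf : IsG A B f
  gg : IsG B C g
  zero : ∀ z, g (f z) = 0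
  inj : WInj A B f
  ex : WEx A B C f g
  surj : WSurj B C g

theorem GSES.prod {A B C A' B' C' : GM K} {f : A.X →ₗ[K] B.X} {g : B.X →ₗ[K] C.X}
    {f' : A'.X →ₗ[K] B'.X} {g' : B'.X →ₗ[K] C'.X} (h : GSES A B C f g)
    (h' : GSES A' B' C' f' g') :
    GSES (A.prod A') (B.prod B') (C.prod C') (f.prodMap f') (g.prodMap g') := by
  refine ⟨⟨fun i z => ?_, fun i z => ?_, fun w e z hz => ?_⟩,
    ⟨fun i z => ?_, fun i z => ?_, fun w e z hz => ?_⟩, fun z => ?_, fun i z hz h0 => ?_,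
    fun i z hz h0 => ?_, fun i z hz => ?_⟩
  · ext <;> simp [h.gf.x, h'.gf.x]
  · ext <;> simp [h.gf.d, h'.gf.d]
  · exact ⟨h.gf.F _ _ _ hz.1, h'.gf.F _ _ _ hz.2⟩
  · ext <;> simp [h.gg.x, h'.gg.x]
  · ext <;> simp [h.gg.d, h'.gg.d]
  · exact ⟨h.gg.F _ _ _ hz.1, h'.gg.F _ _ _ hz.2⟩
  · ext <;> simp [h.zero, h'.zero]
  · rw [mem_win_prod] at hz
    have k1 : f z.1.1 = 0 := congrArg (fun p => p.1.1) h0
    have k2 : f z.2.1 = 0 := congrArg (fun p => p.2.1) h0
    have k3 : f' z.1.2 = 0 := congrArg (fun p => p.1.2) h0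
    have k4 : f' z.2.2 = 0 := congrArg (fun p => p.2.2) h0
    have h1 := h.inj i _ hz.1 (Prod.ext k1 k2)
    have h2 := h'.inj i _ hz.2 (Prod.ext k3 k4)
    obtain ⟨⟨z1, z2⟩, ⟨z3, z4⟩⟩ := z
    simp only [Prod.mk_eq_zero] at h1 h2 ⊢
    exact ⟨⟨h1.1, h2.1⟩, ⟨h1.2, h2.2⟩⟩
  · rw [mem_win_prod] at hz
    have k1 : g z.1.1 = 0 := congrArg (fun p => p.1.1) h0
    have k2 : g z.2.1 = 0 := congrArg (fun p => p.2.1) h0
    have k3 : g' z.1.2 = 0 := congrArg (fun p => p.1.2) h0
    have k4 : g' z.2.2 = 0 := congrArg (fun p => p.2.2) h0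
    obtain ⟨y, hy, hfy⟩ := h.ex i _ hz.1 (Prod.ext k1 k2)
    obtain ⟨y', hy', hfy'⟩ := h'.ex i _ hz.2 (Prod.ext k3 k4)
    refine ⟨((y.1, y'.1), (y.2, y'.2)), mem_win_prod.2 ⟨hy, hy'⟩, ?_⟩
    obtain ⟨⟨z1, z2⟩, ⟨z3, z4⟩⟩ := z
    have e1 := congrArg Prod.fst hfy
    have e2 := congrArg Prod.snd hfy
    have e3 := congrArg Prod.fst hfy'
    have e4 := congrArg Prod.snd hfy'
    exact Prod.ext (Prod.ext e1 e3) (Prod.ext e2 e4)
  · rw [mem_win_prod] at hz
    obtain ⟨y, hy, hfy⟩ := h.surj i _ hz.1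
    obtain ⟨y', hy', hfy'⟩ := h'.surj i _ hz.2
    refine ⟨((y.1, y'.1), (y.2, y'.2)), mem_win_prod.2 ⟨hy, hy'⟩, ?_⟩
    obtain ⟨⟨z1, z2⟩, ⟨z3, z4⟩⟩ := z
    have e1 := congrArg Prod.fst hfy
    have e2 := congrArg Prod.snd hfy
    have e3 := congrArg Prod.fst hfy'
    have e4 := congrArg Prod.snd hfy'
    exact Prod.ext (Prod.ext e1 e3) (Prod.ext e2 e4)

theorem GSES.ind {A B C : GM K} {f : A.X →ₗ[K] B.X} {g : B.X →ₗ[K] C.X} (h : GSES A B C f g)
    (hτ : GSES A.tau B.tau C.tau f g) :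
    GSES A.ind B.ind C.ind (f.prodMap f) (g.prodMap g) := h.prod hτ

/-- `0 → A → A × B → B → 0` -/
theorem GSES.inl_snd (A B : GM K) :
    GSES A (A.prod B) B (LinearMap.inl K A.X B.X) (LinearMap.snd K A.X B.X) := by
  refine ⟨⟨fun i z => by ext <;> simp, fun i z => by ext <;> simp,
    fun w e z hz => ⟨hz, by simp⟩⟩, ⟨fun i z => rfl, fun i z => rfl, fun w e z hz => hz.2⟩,
    fun z => rfl, WInj.of_injective LinearMap.inl_injective, fun i z hz h0 => ?_,
    fun i z hz => ?_⟩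
  · rw [mem_win_prod] at hz
    refine ⟨_, hz.1, ?_⟩
    obtain ⟨⟨z1, z2⟩, ⟨z3, z4⟩⟩ := z
    have h1 : z2 = 0 := congrArg Prod.fst h0
    have h2 : z4 = 0 := congrArg Prod.snd h0
    subst h1; subst h2
    rfl
  · refine ⟨((0, z.1), (0, z.2)), mem_win_prod.2 ⟨?_, hz⟩, rfl⟩
    exact zero_mem _

/-- `0 → B → A × B → A → 0` -/
theorem GSES.inr_fst (A B : GM K) :
    GSES B (A.prod B) A (LinearMap.inr K A.X B.X) (LinearMap.fst K A.X B.X) := by
  refine ⟨⟨fun i z => by ext <;> simp, fun i z => by ext <;> simp,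
    fun w e z hz => ⟨by simp, hz⟩⟩, ⟨fun i z => rfl, fun i z => rfl, fun w e z hz => hz.1⟩,
    fun z => rfl, WInj.of_injective LinearMap.inr_injective, fun i z hz h0 => ?_,
    fun i z hz => ?_⟩
  · rw [mem_win_prod] at hz
    refine ⟨_, hz.2, ?_⟩
    obtain ⟨⟨z1, z2⟩, ⟨z3, z4⟩⟩ := z
    have h1 : z1 = 0 := congrArg Prod.fst h0
    have h2 : z3 = 0 := congrArg Prod.snd h0
    subst h1; subst h2
    rfl
  · refine ⟨((z.1, 0), (z.2, 0)), mem_win_prod.2 ⟨hz, ?_⟩, rfl⟩
    exact zero_mem _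

/-- `0 → A → A → 0 → 0` -/
theorem GSES.id_zero (A : GM K) : GSES A A (GM.zero K) LinearMap.id 0 :=
  ⟨IsG.id A, IsG.zero _ _, fun _ => rfl, WInj.of_injective Function.injective_id,
    fun _ z hz _ => ⟨z, hz, rfl⟩, fun _ _ _ => ⟨0, zero_mem _, Subsingleton.elim _ _⟩⟩

/-- `0 → 0 → A → A → 0` -/
theorem GSES.zero_id (A : GM K) : GSES (GM.zero K) A A 0 LinearMap.id :=
  ⟨IsG.zero _ _, IsG.id A, fun _ => rfl, fun _ _ _ _ => Subsingleton.elim _ _,
    fun _ z _ h0 => ⟨0, zero_mem _, by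
      have h1 : z = 0 := h0
      rw [h1]; rfl⟩, fun _ z hz => ⟨z, hz, rfl⟩⟩

/-- `0 → 0 → 0 → 0 → 0` -/
theorem GSES.zero_zero : GSES (GM.zero K) (GM.zero K) (GM.zero K) 0 0 :=
  ⟨IsG.zero _ _, IsG.zero _ _, fun _ => rfl, fun _ _ _ _ => Subsingleton.elim _ _,
    fun _ _ _ _ => ⟨0, zero_mem _, Subsingleton.elim _ _⟩,
    fun _ _ _ => ⟨0, zero_mem _, Subsingleton.elim _ _⟩⟩

/-- short exact sequences of `EM`'s -/
structure ESES (M N L : EM K) (a : M.A.X →ₗ[K] N.A.X) (b : M.B.X →ₗ[K] N.B.X)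
    (a' : N.A.X →ₗ[K] L.A.X) (b' : N.B.X →ₗ[K] L.B.X) : Prop where
  e : IsE M N a b
  e' : IsE N L a' b'
  A : GSES M.A N.A L.A a a'
  B : GSES M.B N.B L.B b b'

/-- `(a)`: `0 → Δ (τ C) → W C → Δ C → 0` -/
theorem ESES.De_W_De (C : GM K) :
    ESES (EM.De C.tau) (EM.W C) (EM.De C) (LinearMap.inr K C.X C.X) (LinearMap.inr K C.X C.X)
      (LinearMap.fst K C.X C.X) (LinearMap.fst K C.X C.X) where
  e := ⟨(GSES.inr_fst C C.tau).gf, (GSES.inr_fst C C.tau).gf,
    fun z => by rw [indR_apply]; simp, fun z => rfl⟩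
  e' := ⟨(GSES.inr_fst C C.tau).gg, (GSES.inr_fst C C.tau).gg,
    fun z => by rw [indR_apply]; simp, fun z => rfl⟩
  A := GSES.inr_fst C C.tau
  B := GSES.inr_fst C C.tau

/-- `(b)`: `0 → J Z → W Z → [τ Z] → 0` -/
theorem ESES.J_W_br (Z : GM K) :
    ESES (EM.J Z) (EM.W Z) (EM.br Z.tau) (LinearMap.inl K Z.X Z.X) LinearMap.id
      (LinearMap.snd K Z.X Z.X) 0 where
  e := ⟨(GSES.inl_snd Z Z.tau).gf, IsG.id _, fun _ => rfl, fun _ => rfl⟩
  e' := ⟨(GSES.inl_snd Z Z.tau).gg, IsG.zero _ _, fun _ => rfl, fun _ => rfl⟩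
  A := GSES.inl_snd Z Z.tau
  B := GSES.id_zero Z.ind

/-- `(c)`: `0 → J' Z → J Z → [Z] → 0` -/
theorem ESES.J'_J_br (Z : GM K) :
    ESES (EM.J' Z) (EM.J Z) (EM.br Z) 0 LinearMap.id LinearMap.id 0 where
  e := ⟨IsG.zero _ _, IsG.id _, fun _ => rfl, fun _ => rfl⟩
  e' := ⟨IsG.id _, IsG.zero _ _, fun _ => rfl, fun _ => rfl⟩
  A := GSES.zero_id Z
  B := GSES.id_zero Z.ind

/-- `0 → [Z]' → Δ Z → [Z] → 0` -/
theorem ESES.br'_De_br (Z : GM K) :
    ESES (EM.br' Z) (EM.De Z) (EM.br Z) 0 LinearMap.id LinearMap.id 0 where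
  e := ⟨IsG.zero _ _, IsG.id _, fun _ => rfl, fun _ => rfl⟩
  e' := ⟨IsG.id _, IsG.zero _ _, fun _ => rfl, fun _ => rfl⟩
  A := GSES.zero_id Z
  B := GSES.id_zero Z

/-- `0 → [τ Z]' → J Z → Δ Z → 0` -/
theorem ESES.br'_J_De (Z : GM K) :
    ESES (EM.br' Z.tau) (EM.J Z) (EM.De Z) 0 (LinearMap.inr K Z.X Z.X) LinearMap.id
      (LinearMap.fst K Z.X Z.X) where
  e := ⟨IsG.zero _ _, (GSES.inr_fst Z Z.tau).gf, fun z => by rw [indR_apply]; simp,
    fun z => rfl⟩
  e' := ⟨IsG.id _, (GSES.inr_fst Z Z.tau).gg, fun z => by rw [indR_apply]; simp, fun z => rfl⟩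
  A := GSES.zero_id Z
  B := GSES.inr_fst Z Z.tau

section functors

variable {A B C : GM K} {f : A.X →ₗ[K] B.X} {g : B.X →ₗ[K] C.X}

theorem GSES.J (h : GSES A B C f g) (hτ : GSES A.tau B.tau C.tau f g) :
    ESES (EM.J A) (EM.J B) (EM.J C) f (f.prodMap f) g (g.prodMap g) :=
  ⟨h.gf.J, h.gg.J, h, h.ind hτ⟩

theorem GSES.W (h : GSES A B C f g) (hτ : GSES A.tau B.tau C.tau f g) :
    ESES (EM.W A) (EM.W B) (EM.W C) (f.prodMap f) (f.prodMap f) (g.prodMap g) (g.prodMap g) :=
  ⟨h.gf.W, h.gg.W, h.ind hτ, h.ind hτ⟩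

theorem GSES.br (h : GSES A B C f g) : ESES (EM.br A) (EM.br B) (EM.br C) f 0 g 0 :=
  ⟨h.gf.br, h.gg.br, h, GSES.zero_zero⟩

end functors

/-! ### Windows over the pi-object -/

/-- the structured space is `J T` or `J' T` for an object with a universal element -/
def IsVert (Q : FMod K EOp (Bool × ℤ × ℤ)) : Prop :=
  ∃ (T : GM K) (i : Fin 6) (u : T.X × T.X), Rep T i u ∧ (Q = (EM.J T).toF ∨ Q = (EM.J' T).toF)

theorem IsVert.J (hT : Rep T i u) : IsVert (EM.J T).toF := ⟨T, i, u, hT, Or.inl rfl⟩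
theorem IsVert.J' (hT : Rep T i u) : IsVert (EM.J' T).toF := ⟨T, i, u, hT, Or.inr rfl⟩

variable {M N L : EM K} {a : M.A.X →ₗ[K] N.A.X} {b : M.B.X →ₗ[K] N.B.X}
    {a' : N.A.X →ₗ[K] L.A.X} {b' : N.B.X →ₗ[K] L.B.X}

theorem prodMap_eq_zero {A B A' B' : Type*} [AddCommGroup A] [Module K A] [AddCommGroup B]
    [Module K B] [AddCommGroup A'] [Module K A'] [AddCommGroup B'] [Module K B']
    {a : A →ₗ[K] A'} {b : B →ₗ[K] B'} (h : a.prodMap b = 0) : a = 0 ∧ b = 0 := by
  refine ⟨LinearMap.ext fun z => ?_, LinearMap.ext fun z => ?_⟩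
  · exact congrArg Prod.fst (LinearMap.congr_fun h (z, 0))
  · exact congrArg Prod.snd (LinearMap.congr_fun h (0, z))

theorem IsVert.inj {Q : FMod K EOp (Bool × ℤ × ℤ)} (hQ : IsVert Q) (hA : WInj M.A N.A a)
    (hB : WInj M.B N.B b) (φ : Q.X →ₗ[K] M.toF.X) (hφ : φ ∈ FHom Q M.toF)
    (h0 : a.prodMap b ∘ₗ φ = 0) : φ = 0 := by
  obtain ⟨T, i, u, hT, rfl | rfl⟩ := hQ
  · obtain ⟨c, d, hcd, rfl⟩ := exists_isE_of_mem hφ
    obtain ⟨h1, h2⟩ := prodMap_eq_zero (show (a ∘ₗ c).prodMap (b ∘ₗ d) = 0 from h0)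
    have h3 : c.prodMap c u = 0 := by
      refine hA i _ (hcd.gA.win i hT.mem) ?_
      exact Prod.ext (LinearMap.congr_fun h1 u.1) (LinearMap.congr_fun h1 u.2)
    have h4 : IsE (EM.J T) M 0 0 :=
      ⟨IsG.zero _ _, IsG.zero _ _, fun z => by simp, fun z => by simp⟩
    obtain ⟨h5, h6⟩ := hT.J_uniq hcd h4 (by rw [h3]; simp)
    rw [h5, h6]
    ext <;> simp
  · obtain ⟨c, d, hcd, rfl⟩ := exists_isE_of_mem hφ
    obtain ⟨h1, h2⟩ := prodMap_eq_zero (show (a ∘ₗ c).prodMap (b ∘ₗ d) = 0 from h0)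
    have h3 : (d (u.1, 0), d (u.2, 0)) = (0 : M.B.X × M.B.X) := by
      refine hB i _ (hT.J'_mem hcd) ?_
      exact Prod.ext (LinearMap.congr_fun h2 (u.1, 0)) (LinearMap.congr_fun h2 (u.2, 0))
    have h4 : IsE (EM.J' T) M 0 0 :=
      ⟨IsG.zero _ _, IsG.zero _ _, fun z => by simp, fun z => by simp⟩
    obtain ⟨h5, h6⟩ := hT.J'_uniq hcd h4 (by rw [h3]; rfl)
    rw [h5, h6]
    ext <;> simp

theorem IsVert.surj {Q : FMod K EOp (Bool × ℤ × ℤ)} (hQ : IsVert Q) (h : IsE M N a b)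
    (hA : WSurj M.A N.A a) (hB : WSurj M.B N.B b) (ψ : Q.X →ₗ[K] N.toF.X)
    (hψ : ψ ∈ FHom Q N.toF) : ∃ φ ∈ FHom Q M.toF, a.prodMap b ∘ₗ φ = ψ := by
  obtain ⟨T, i, u, hT, rfl | rfl⟩ := hQ
  · obtain ⟨c, d, hcd, rfl⟩ := exists_isE_of_mem hψ
    obtain ⟨y, hy, hay⟩ := hA i _ (hcd.gA.win i hT.mem)
    obtain ⟨c', d', hcd', hc'⟩ := hT.J_ex M hy
    refine ⟨c'.prodMap d', hcd'.mem, ?_⟩
    have h1 : a.prodMap a (c'.prodMap c' u) = c.prodMap c u := by rw [hc', hay]
    obtain ⟨h2, h3⟩ := hT.J_uniq (h.comp hcd') hcd h1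
    rw [← h2, ← h3]
    rfl
  · obtain ⟨c, d, hcd, rfl⟩ := exists_isE_of_mem hψ
    obtain ⟨y, hy, hay⟩ := hB i _ (hT.J'_mem hcd)
    obtain ⟨d', hcd', hc'⟩ := hT.J'_ex M hy
    refine ⟨(0 : (GM.zero K).X →ₗ[K] M.A.X).prodMap d', hcd'.mem, ?_⟩
    have h1 : b.prodMap b (d' (u.1, 0), d' (u.2, 0)) = (d (u.1, 0), d (u.2, 0)) := by
      rw [hc', hay]
    obtain ⟨h2, h3⟩ := hT.J'_uniq (h.comp hcd') hcd h1
    rw [← h2, ← h3]
    rfl

theorem IsVert.ex {Q : FMod K EOp (Bool × ℤ × ℤ)} (hQ : IsVert Q) (h : IsE M N a b)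
    (hA : WEx M.A N.A L.A a a') (hB : WEx M.B N.B L.B b b') (ψ : Q.X →ₗ[K] N.toF.X)
    (hψ : ψ ∈ FHom Q N.toF) (h0 : a'.prodMap b' ∘ₗ ψ = 0) :
    ∃ φ ∈ FHom Q M.toF, a.prodMap b ∘ₗ φ = ψ := by
  obtain ⟨T, i, u, hT, rfl | rfl⟩ := hQ
  · obtain ⟨c, d, hcd, rfl⟩ := exists_isE_of_mem hψ
    obtain ⟨h1, h2⟩ := prodMap_eq_zero (show (a' ∘ₗ c).prodMap (b' ∘ₗ d) = 0 from h0)
    obtain ⟨y, hy, hay⟩ := hA i _ (hcd.gA.win i hT.mem)
      (Prod.ext (LinearMap.congr_fun h1 u.1) (LinearMap.congr_fun h1 u.2))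
    obtain ⟨c', d', hcd', hc'⟩ := hT.J_ex M hy
    refine ⟨c'.prodMap d', hcd'.mem, ?_⟩
    have h1 : a.prodMap a (c'.prodMap c' u) = c.prodMap c u := by rw [hc', hay]
    obtain ⟨h2, h3⟩ := hT.J_uniq (h.comp hcd') hcd h1
    rw [← h2, ← h3]
    rfl
  · obtain ⟨c, d, hcd, rfl⟩ := exists_isE_of_mem hψ
    obtain ⟨h1, h2⟩ := prodMap_eq_zero (show (a' ∘ₗ c).prodMap (b' ∘ₗ d) = 0 from h0)
    obtain ⟨y, hy, hay⟩ := hB i _ (hT.J'_mem hcd)
      (Prod.ext (LinearMap.congr_fun h2 (u.1, 0)) (LinearMap.congr_fun h2 (u.2, 0)))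
    obtain ⟨d', hcd', hc'⟩ := hT.J'_ex M hy
    refine ⟨(0 : (GM.zero K).X →ₗ[K] M.A.X).prodMap d', hcd'.mem, ?_⟩
    have h1 : b.prodMap b (d' (u.1, 0), d' (u.2, 0)) = (d (u.1, 0), d (u.2, 0)) := by
      rw [hc', hay]
    obtain ⟨h2, h3⟩ := hT.J'_uniq (h.comp hcd') hcd h1
    rw [← h2, ← h3]
    rfl

/-- the map of windows induced by a map of `EM`'s -/
def IsE.map (P : FMod K EOp (Bool × ℤ × ℤ)) (h : IsE M N a b) :
    Win P M.toF →ₗ[WAlg P] Win P N.toF :=
  Win.map P (X := M.toF) (Y := N.toF) (a.prodMap b) h.mem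

@[simp] theorem IsE.toLin_map (P : FMod K EOp (Bool × ℤ × ℤ)) (h : IsE M N a b)
    (φ : Win P M.toF) : (h.map P φ).toLin = (a.prodMap b) ∘ₗ φ.toLin := rfl

/-- `P` is a finite sum of objects `J T` and `J' T`. -/
def IsBase (P : FMod K EOp (Bool × ℤ × ℤ)) : Prop :=
  ∃ (κ : Type) (_ : Fintype κ) (_ : DecidableEq κ) (Q : κ → FMod K EOp (Bool × ℤ × ℤ)),
    (∀ j, IsVert (Q j)) ∧ P = FMod.pi Q

variable {P : FMod K EOp (Bool × ℤ × ℤ)}

theorem IsE.map_injective (hP : IsBase P) (h : IsE M N a b) (hA : WInj M.A N.A a)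
    (hB : WInj M.B N.B b) : Function.Injective (h.map P) := by
  obtain ⟨κ, _, _, Q, hQ, rfl⟩ := hP
  exact Win.map_injective' _ h.mem fun j φ hφ h0 => (hQ j).inj hA hB φ hφ h0

theorem IsE.map_surjective (hP : IsBase P) (h : IsE M N a b) (hA : WSurj M.A N.A a)
    (hB : WSurj M.B N.B b) : Function.Surjective (h.map P) := by
  obtain ⟨κ, _, _, Q, hQ, rfl⟩ := hP
  exact Win.map_surjective' _ h.mem fun j ψ hψ => (hQ j).surj h hA hB ψ hψ

theorem IsE.map_exact (hP : IsBase P) (h : IsE M N a b) (h' : IsE N L a' b')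
    (hzA : ∀ z, a' (a z) = 0) (hzB : ∀ z, b' (b z) = 0)
    (hA : WEx M.A N.A L.A a a') (hB : WEx M.B N.B L.B b b') :
    Function.Exact (h.map P) (h'.map P) := by
  obtain ⟨κ, _, _, Q, hQ, rfl⟩ := hP
  exact Win.map_exact' _ h.mem _ h'.mem
    (fun _ φ _ => LinearMap.ext fun z => Prod.ext (hzA (φ z).1) (hzB (φ z).2))
    (fun j ψ hψ h0 => (hQ j).ex h hA hB ψ hψ h0)

theorem ESES.ses (h : ESES M N L a b a' b') (hP : IsBase P) : SES (h.e.map P) (h.e'.map P) where
  inj := h.e.map_injective hP h.A.inj h.B.inj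
  exact := h.e.map_exact hP h.e' h.A.zero h.B.zero h.A.ex h.B.ex
  surj := h.e'.map_surjective hP h.A.surj h.B.surj

end Vale.Agent.P195.Van
end
end

section

section

open Function

namespace Vale.Agent.P195

universe u v w

/-! ### A linear algebra lemma: spans of tails of a sequence stabilise -/

section Alg

variable (k : Type w) [CommRing k] {R : Type u} [Ring R] [Algebra k R]

/-- `Hom(X, W)` modulo the maps that extend along `i : X → P`. -/
abbrev EE {X P : Type*} [AddCommGroup X] [Module R X] [AddCommGroup P] [Module R P]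
    (i : X →ₗ[R] P) (W : Type*) [AddCommGroup W] [Module R W] [Module k W]
    [IsScalarTower k R W] : Type _ :=
  (X →ₗ[R] W) ⧸ LinearMap.range (LinearMap.lcomp k W i)

section finite

variable {X W : Type*} [AddCommGroup X] [Module R X] [AddCommGroup W] [Module R W] [Module k W]
    [IsScalarTower k R W]

/-- evaluation at a finite family of vectors -/
def evalFam {n : ℕ} (s : Fin n → X) : (X →ₗ[R] W) →ₗ[k] (Fin n → W) where
  toFun f i := f (s i)
  map_add' _ _ := rfl
  map_smul' _ _ := rfl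

theorem evalFam_injective {n : ℕ} (s : Fin n → X) (hs : Submodule.span R (Set.range s) = ⊤) :
    Injective (evalFam k s : (X →ₗ[R] W) →ₗ[k] (Fin n → W)) := by
  intro f g h
  apply LinearMap.ext_on_range hs
  intro i
  exact congrFun h i

theorem noeth_hom [Module.Finite R X] [IsNoetherian k W] : IsNoetherian k (X →ₗ[R] W) := by
  obtain ⟨n, s, hs⟩ := Module.Finite.exists_fin (R := R) (M := X)
  exact isNoetherian_of_injective _ (evalFam_injective k s hs)

end finite

section pieces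

variable {X P : Type*} [AddCommGroup X] [Module R X] [AddCommGroup P] [Module R P]

end pieces

section piecesH

variable {P Y : Type*} [AddCommGroup P] [Module R P] [AddCommGroup Y] [Module R Y]
    [Module k P] [IsScalarTower k R P] [Module k Y] [IsScalarTower k R Y] (p : P →ₗ[R] Y)

end piecesH

end Alg

end Vale.Agent.P195
end
end

section

section

open Function

namespace Vale.Agent.P195

universe u v w

section factor

variable {R : Type u} [Ring R]

theorem factor_surj {N' P N W : Type*} [AddCommGroup N'] [AddCommGroup P] [AddCommGroup N]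
    [AddCommGroup W] [Module R N'] [Module R P] [Module R N] [Module R W]
    {i : N' →ₗ[R] P} {p : P →ₗ[R] N} (hp : Surjective p) (hex : Exact i p)
    (g : P →ₗ[R] W) (hg : g ∘ₗ i = 0) : ∃ h : N →ₗ[R] W, h ∘ₗ p = g := by
  have hle : LinearMap.ker p ≤ LinearMap.ker g := by
    intro x hx
    obtain ⟨y, rfl⟩ := (hex x).1 hx
    exact LinearMap.congr_fun hg y
  refine ⟨((LinearMap.ker p).liftQ g hle) ∘ₗ
    (p.quotKerEquivOfSurjective hp).symm.toLinearMap, ?_⟩
  ext x
  have : (p.quotKerEquivOfSurjective hp).symm (p x) = Submodule.Quotient.mk x := by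
    rw [LinearEquiv.symm_apply_eq]
    rfl
  simp [this]

theorem cancel_surj {P N W : Type*} [AddCommGroup P] [AddCommGroup N] [AddCommGroup W]
    [Module R P] [Module R N] [Module R W] {p : P →ₗ[R] N} (hp : Surjective p)
    {f g : N →ₗ[R] W} (h : f ∘ₗ p = g ∘ₗ p) : f = g := by
  ext x
  obtain ⟨y, rfl⟩ := hp x
  exact LinearMap.congr_fun h y

end factor

/-- A resolution `… → P 1 → P 0 → N 0 → 0` by finitely generated projective modules, cut into the
short exact sequences `0 → N (n+1) → P n → N n → 0`. -/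
structure IsResol {R : Type u} [Ring R] {N P : ℕ → Type v} [∀ n, AddCommGroup (N n)]
    [∀ n, Module R (N n)] [∀ n, AddCommGroup (P n)] [∀ n, Module R (P n)]
    (i : ∀ n, N (n + 1) →ₗ[R] P n) (p : ∀ n, P n →ₗ[R] N n) : Prop where
  inj : ∀ n, Injective (i n)
  surj : ∀ n, Surjective (p n)
  exact : ∀ n, Exact (i n) (p n)
  fin : ∀ n, Module.Finite R (P n)
  proj : ∀ n, Module.Projective R (P n)

section

variable {R : Type u} [Ring R] {N P : ℕ → Type v} [∀ n, AddCommGroup (N n)]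
    [∀ n, Module R (N n)] [∀ n, AddCommGroup (P n)] [∀ n, Module R (P n)]
    {i : ∀ n, N (n + 1) →ₗ[R] P n} {p : ∀ n, P n →ₗ[R] N n}

end

section key

variable (k : Type w) [CommRing k] {R : Type u} [Ring R] [Algebra k R]
variable {N P : ℕ → Type v} [∀ n, AddCommGroup (N n)]
    [∀ n, Module R (N n)] [∀ n, AddCommGroup (P n)] [∀ n, Module R (P n)]
    {i : ∀ n, N (n + 1) →ₗ[R] P n} {p : ∀ n, P n →ₗ[R] N n}
variable {A B : Type*} [AddCommGroup A] [AddCommGroup B] [Module R A] [Module R B]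
    [Module k A] [Module k B] [IsScalarTower k R A] [IsScalarTower k R B]
    {n : ℕ} {α : A →ₗ[R] B} {β : B →ₗ[R] N n}

end key

end Vale.Agent.P195
end
end

section

section

open Function

namespace Vale.Agent.P195

universe u v w

theorem inj_of_length {k : Type*} [CommRing k] {A B : Type*} [AddCommGroup A] [AddCommGroup B]
    [Module k A] [Module k B] [IsArtinian k A] [IsNoetherian k A] [IsArtinian k B]
    [IsNoetherian k B] (f : A →ₗ[k] B) (hf : Surjective f)
    (h : (Module.length k A).toNat = (Module.length k B).toNat) : Injective f := by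
  have h1 := Module.length_eq_add_of_exact (LinearMap.ker f).subtype f
    (Submodule.subtype_injective _) hf (LinearMap.exact_subtype_ker_map f)
  have hA : Module.length k A ≠ ⊤ := Module.length_ne_top
  have hB : Module.length k B ≠ ⊤ := Module.length_ne_top
  have hK : Module.length k (LinearMap.ker f) ≠ ⊤ := Module.length_ne_top
  have h2 : (Module.length k A).toNat =
      (Module.length k (LinearMap.ker f)).toNat + (Module.length k B).toNat := by
    rw [h1, ENat.toNat_add hK hB]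
  have h3 : (Module.length k (LinearMap.ker f)).toNat = 0 := by omega
  have h4 : Module.length k (LinearMap.ker f) = 0 := by
    rcases ENat.toNat_eq_zero.1 h3 with h | h
    · exact h
    · exact absurd h hK
  have h5 := (Module.length_eq_zero_iff).1 h4
  rw [← LinearMap.ker_eq_bot, Submodule.eq_bot_iff]
  intro x hx
  have := h5.elim ⟨x, hx⟩ 0
  exact congrArg Subtype.val this

section

variable (k : Type w) [CommRing k] {R : Type u} [Ring R] [Algebra k R]
variable {κ : Type*} [Fintype κ] (V : κ → Type v) [∀ j, AddCommGroup (V j)]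
    [∀ j, Module R (V j)] [∀ j, Module k (V j)] [∀ j, IsScalarTower k R (V j)]

end


end Vale.Agent.P195
end
end

section

section

namespace Vale.Agent.P195

open Submodule

universe u v

/-- A module annihilated by the Jacobson radical of a semiprimary ring is semisimple. -/
theorem isSemisimpleModule_of_jacobson_le {R : Type u} [Ring R] [IsArtinianRing R]
    {X : Type v} [AddCommGroup X] [Module R X]
    (h : ∀ r ∈ Ring.jacobson R, ∀ x : X, r • x = 0) : IsSemisimpleModule R X := by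
  have ht : Module.IsTorsionBySet R X (Ring.jacobson R : Set R) := fun x r => h r r.2 x
  let _ := ht.module
  exact (ht.semilinearMap.isSemisimpleModule_iff_of_bijective Function.bijective_id).2
      inferInstance

/-- Over an Artinian ring, the radical of a module is `J • M`. -/
theorem jacobson_le_smul_top {R : Type u} [Ring R] [IsArtinianRing R]
    (X : Type v) [AddCommGroup X] [Module R X] :
    Module.jacobson R X ≤ Ring.jacobson R • (⊤ : Submodule R X) := by
  apply Module.jacobson_le_of_eq_bot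
  have : IsSemisimpleModule R (X ⧸ (Ring.jacobson R • (⊤ : Submodule R X))) := by
    apply isSemisimpleModule_of_jacobson_le
    intro r hr x
    obtain ⟨x, rfl⟩ := Submodule.Quotient.mk_surjective _ x
    rw [← Submodule.Quotient.mk_smul, Submodule.Quotient.mk_eq_zero]
    exact Submodule.smul_mem_smul hr mem_top
  exact IsSemisimpleModule.jacobson_eq_bot R _

/-- Every finitely generated module over an Artinian ring is a quotient of a finitely generated
projective module `P` with kernel contained in `J P`. -/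
theorem exists_min_cover {R : Type u} [Ring R] [IsArtinianRing R]
    (X : Type u) [AddCommGroup X] [Module R X] [Module.Finite R X] :
    ∃ (P : Type u) (_ : AddCommGroup P) (_ : Module R P),
      Module.Finite R P ∧ Module.Projective R P ∧
      ∃ π : P →ₗ[R] X, Function.Surjective π ∧
        LinearMap.ker π ≤ Ring.jacobson R • (⊤ : Submodule R P) := by
  obtain ⟨n, p, hp⟩ := Module.Finite.exists_fin' R X
  set K := LinearMap.ker p with hK
  -- a minimal submodule `Q` with `Q ⊔ K = ⊤`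
  obtain ⟨Q, hQ, hmin⟩ := IsArtinian.set_has_minimal {Q : Submodule R (Fin n → R) | Q ⊔ K = ⊤}
    ⟨⊤, by simp⟩
  have hmin' : ∀ Q' : Submodule R (Fin n → R), Q' ≤ Q → Q' ⊔ K = ⊤ → Q' = Q := by
    intro Q' hle h
    exact (eq_or_lt_of_le hle).resolve_right (hmin Q' h)
  let π : Q →ₗ[R] X := p ∘ₗ Q.subtype
  have hπ : Function.Surjective π := by
    intro x
    obtain ⟨y, rfl⟩ := hp x
    have hy : y ∈ Q ⊔ K := by rw [hQ]; trivial
    obtain ⟨q, hq, k, hk, rfl⟩ := Submodule.mem_sup.mp hy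
    refine ⟨⟨q, hq⟩, ?_⟩
    have : p k = 0 := hk
    simp [π, this]
  obtain ⟨f, hf⟩ := Module.projective_lifting_property π p hπ
  let g : Q →ₗ[R] Q := f ∘ₗ Q.subtype
  have hg : π ∘ₗ g = π := by
    ext x
    exact congrArg (fun h => h x.1) hf
  have hgs : Function.Surjective g := by
    have h1 : (LinearMap.range g).map Q.subtype = Q := by
      apply hmin'
      · rintro _ ⟨y, -, rfl⟩
        exact y.2
      · rw [eq_top_iff]
        intro y _
        have hy : y ∈ Q ⊔ K := by rw [hQ]; trivial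
        obtain ⟨q, hq, k, hk, rfl⟩ := Submodule.mem_sup.mp hy
        have h2 : q - (g ⟨q, hq⟩ : Fin n → R) ∈ K := by
          have := congrArg (fun h => h ⟨q, hq⟩) hg
          simp only [LinearMap.comp_apply, π] at this
          simp only [hK, LinearMap.mem_ker, map_sub]
          rw [sub_eq_zero]
          exact this.symm
        have h3 : q + k = (g ⟨q, hq⟩ : Fin n → R) + ((q - (g ⟨q, hq⟩ : Fin n → R)) + k) := by abel
        rw [h3]
        exact Submodule.add_mem_sup ⟨g ⟨q, hq⟩, ⟨⟨q, hq⟩, rfl⟩, rfl⟩ (K.add_mem h2 hk)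
    intro y
    have : (y : Fin n → R) ∈ (LinearMap.range g).map Q.subtype := by rw [h1]; exact y.2
    obtain ⟨z, ⟨w, rfl⟩, hz⟩ := this
    exact ⟨w, Subtype.ext hz⟩
  have hgb : Function.Bijective g := by
    refine ⟨?_, hgs⟩
    exact IsNoetherian.injective_of_surjective_endomorphism g hgs
  let e := LinearEquiv.ofBijective g hgb
  have hproj : Module.Projective R Q := by
    refine Module.Projective.of_split Q.subtype (e.symm.toLinearMap ∘ₗ f) ?_
    refine LinearMap.ext fun x => ?_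
    exact e.symm_apply_apply x
  refine ⟨Q, inferInstance, inferInstance, inferInstance, hproj, π, hπ, ?_⟩
  refine le_trans ?_ (jacobson_le_smul_top Q)
  refine le_sInf ?_
  intro N hN
  by_contra hle
  have h1 : N ⊔ LinearMap.ker π = ⊤ := hN.2 _ (lt_of_le_of_ne le_sup_left (by
    intro h
    exact hle (h ▸ le_sup_right)))
  have h2 : N.map Q.subtype = Q := by
    apply hmin'
    · rintro _ ⟨y, -, rfl⟩
      exact y.2
    · rw [eq_top_iff]
      intro y _
      have hy : y ∈ Q ⊔ K := by rw [hQ]; trivial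
      obtain ⟨q, hq, k, hk, rfl⟩ := Submodule.mem_sup.mp hy
      have h3 : (⟨q, hq⟩ : Q) ∈ N ⊔ LinearMap.ker π := by rw [h1]; trivial
      obtain ⟨a, ha, b, hb, hab⟩ := Submodule.mem_sup.mp h3
      have h4 : q + k = (a : Fin n → R) + ((b : Fin n → R) + k) := by
        have := congrArg Subtype.val hab
        simp only [Submodule.coe_add] at this
        rw [← this]; abel
      rw [h4]
      exact Submodule.add_mem_sup ⟨a, ha, rfl⟩ (K.add_mem hb hk)
  apply hN.1
  rw [eq_top_iff]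
  intro y _
  have : (y : Fin n → R) ∈ N.map Q.subtype := by rw [h2]; exact y.2
  obtain ⟨z, hz, hzy⟩ := this
  have : z = y := Subtype.ext hzy
  exact this ▸ hz

end Vale.Agent.P195
end
end

section

section

namespace Vale.Agent.P195

open Submodule Filter

universe u v w

section Indec

variable {R : Type u} [Ring R]

/-- Fitting: an endomorphism of an indecomposable module of finite length is bijective
or nilpotent. -/
theorem IsIndec.bijective_or_isNilpotent {X : Type v} [AddCommGroup X] [Module R X]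
    [IsNoetherian R X] [IsArtinian R X] (h : IsIndec R X) (f : Module.End R X) :
    Function.Bijective f ∨ IsNilpotent f := by
  obtain ⟨n, hn, hn1⟩ :=
    (f.eventually_isCompl_ker_pow_range_pow.and (eventually_ge_atTop 1)).exists
  rcases h.2 _ _ hn with h0 | h0
  · left
    have hinj : Function.Injective (f ^ n : Module.End R X) := LinearMap.ker_eq_bot.mp h0
    have hf : Function.Injective f := by
      obtain ⟨k, rfl⟩ : ∃ k, n = k + 1 := ⟨n - 1, by omega⟩
      rw [pow_succ] at hinj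
      exact Function.Injective.of_comp (f := (f ^ k : Module.End R X)) hinj
    exact ⟨hf, IsArtinian.surjective_of_injective_endomorphism f hf⟩
  · right
    exact ⟨n, LinearMap.range_eq_bot.mp h0⟩

theorem IsIndec.bijective_of_add {X : Type v} [AddCommGroup X] [Module R X]
    [IsNoetherian R X] [IsArtinian R X] (h : IsIndec R X) (f g : Module.End R X)
    (hfg : Function.Bijective (f + g)) : Function.Bijective f ∨ Function.Bijective g := by
  have hu : IsUnit (f + g) := (Module.End.isUnit_iff _).mpr hfg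
  obtain ⟨u, hu⟩ := hu
  rcases h.bijective_or_isNilpotent (↑u⁻¹ * f) with h1 | h1
  · left
    have h2 : IsUnit (↑u⁻¹ * f) := (Module.End.isUnit_iff _).mpr h1
    have h3 : f = ↑u * (↑u⁻¹ * f) := by rw [← mul_assoc, Units.mul_inv, one_mul]
    rw [← Module.End.isUnit_iff, h3]
    exact u.isUnit.mul h2
  · right
    have h2 : IsUnit (1 - ↑u⁻¹ * f) := h1.isUnit_one_sub
    have h3 : g = ↑u * (1 - ↑u⁻¹ * f) := by
      rw [mul_sub, mul_one, ← mul_assoc, Units.mul_inv, one_mul, hu, add_sub_cancel_left]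
    rw [← Module.End.isUnit_iff, h3]
    exact u.isUnit.mul h2

theorem IsIndec.exists_bijective_of_sum {X : Type v} [AddCommGroup X] [Module R X]
    [IsNoetherian R X] [IsArtinian R X] (h : IsIndec R X) {ι : Type w} (s : Finset ι)
    (f : ι → Module.End R X) (hf : Function.Bijective (∑ j ∈ s, f j : Module.End R X)) :
    ∃ j ∈ s, Function.Bijective (f j) := by
  classical
  induction s using Finset.induction_on with
  | empty =>
    exfalso
    rw [Finset.sum_empty] at hf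
    have := h.1
    obtain ⟨x, hx⟩ := exists_ne (0 : X)
    exact hx (hf.1 (by simp))
  | insert a s ha ih =>
    rw [Finset.sum_insert ha] at hf
    rcases h.bijective_of_add _ _ hf with h1 | h1
    · exact ⟨a, Finset.mem_insert_self _ _, h1⟩
    · obtain ⟨j, hj, hj'⟩ := ih h1
      exact ⟨j, Finset.mem_insert_of_mem hj, hj'⟩

/-- If an indecomposable module of finite length is a direct summand of a finite sum of
indecomposable modules then it is isomorphic to one of them. -/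
theorem IsIndec.exists_linearEquiv {X : Type v} [AddCommGroup X] [Module R X]
    [IsNoetherian R X] [IsArtinian R X] (h : IsIndec R X) {ι : Type w} [Fintype ι]
    (W : ι → Type v) [∀ i, AddCommGroup (W i)] [∀ i, Module R (W i)]
    (hW : ∀ i, IsIndec R (W i))
    (i : X →ₗ[R] ((j : ι) → W j)) (p : ((j : ι) → W j) →ₗ[R] X) (hpi : p ∘ₗ i = LinearMap.id) :
    ∃ j, Nonempty (X ≃ₗ[R] W j) := by
  classical
  have hsum : (∑ j : ι, (p ∘ₗ LinearMap.single R W j) ∘ₗ (LinearMap.proj j ∘ₗ i)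
      : Module.End R X) = LinearMap.id := by
    refine LinearMap.ext fun x => ?_
    have h1 : i x = ∑ j : ι, Pi.single j (i x j) := (Finset.univ_sum_single (i x)).symm
    have h2 := congrArg (fun k => k x) hpi
    simp only [LinearMap.comp_apply, LinearMap.id_apply] at h2
    rw [LinearMap.sum_apply]
    simp only [LinearMap.comp_apply, LinearMap.id_apply, LinearMap.proj_apply,
      LinearMap.single_apply]
    rw [← map_sum, ← h1, h2]
  obtain ⟨j, -, hj⟩ := h.exists_bijective_of_sum Finset.univ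
    (fun j => (p ∘ₗ LinearMap.single R W j) ∘ₗ (LinearMap.proj j ∘ₗ i))
    (by rw [hsum]; exact Function.bijective_id)
  refine ⟨j, ?_⟩
  set a : X →ₗ[R] W j := LinearMap.proj j ∘ₗ i with ha
  set b : W j →ₗ[R] X := p ∘ₗ LinearMap.single R W j with hb
  let e : X ≃ₗ[R] X := LinearEquiv.ofBijective (b ∘ₗ a) hj
  let r : W j →ₗ[R] X := e.symm.toLinearMap ∘ₗ b
  have hra : ∀ x, r (a x) = x := fun x => e.symm_apply_apply x
  have hcompl : IsCompl (LinearMap.range a) (LinearMap.ker r) := by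
    constructor
    · rw [disjoint_def]
      rintro _ ⟨x, rfl⟩ hx
      have : r (a x) = 0 := hx
      rw [hra] at this
      rw [this, map_zero]
    · rw [codisjoint_iff, eq_top_iff]
      intro y _
      have h1 : y = a (r y) + (y - a (r y)) := by abel
      rw [h1]
      refine Submodule.add_mem_sup ⟨r y, rfl⟩ ?_
      rw [LinearMap.mem_ker, map_sub, hra, sub_self]
  have hinj : Function.Injective a := Function.LeftInverse.injective hra
  rcases (hW j).2 _ _ hcompl with h0 | h0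
  · exfalso
    have := h.1
    obtain ⟨x, hx⟩ := exists_ne (0 : X)
    apply hx
    apply hinj
    rw [map_zero]
    have : a x ∈ LinearMap.range a := ⟨x, rfl⟩
    rwa [h0, Submodule.mem_bot] at this
  · refine ⟨LinearEquiv.ofBijective a ⟨hinj, ?_⟩⟩
    rw [← LinearMap.range_eq_top]
    have := hcompl.sup_eq_top
    rwa [h0, sup_bot_eq] at this

end Indec

section Decomposition

variable {R : Type u} [Ring R]

/-- Finite direct sum decomposition into indecomposables, for submodules of a fixed module. -/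
theorem exists_indec_decomposition_submodule {X : Type v} [AddCommGroup X] [Module R X]
    [IsArtinian R X] (N : Submodule R X) :
    ∃ (m : ℕ) (T : Fin m → Submodule R X), (∀ k, IsIndec R (T k)) ∧
      Nonempty (N ≃ₗ[R] ((k : Fin m) → T k)) := by
  induction N using WellFoundedLT.induction with
  | ind N ih =>
    by_cases hN : N = ⊥
    · subst hN
      refine ⟨0, Fin.elim0, fun k => k.elim0, ⟨?_⟩⟩
      exact { toFun := fun _ k => k.elim0
              map_add' := fun _ _ => funext fun k => k.elim0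
              map_smul' := fun _ _ => funext fun k => k.elim0
              invFun := fun _ => 0
              left_inv := fun x => Subsingleton.elim _ _
              right_inv := fun x => funext fun k => k.elim0 }
    · by_cases hI : IsIndec R N
      · refine ⟨1, fun _ => N, fun _ => hI, ⟨?_⟩⟩
        exact (LinearEquiv.funUnique (Fin 1) R N).symm
      · have hnt : Nontrivial N := (Submodule.nontrivial_iff_ne_bot).mpr hN
        have h1 : ∃ A B : Submodule R N, IsCompl A B ∧ A ≠ ⊥ ∧ B ≠ ⊥ := by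
          by_contra hcon
          apply hI
          refine ⟨hnt, fun A B hAB => ?_⟩
          by_contra hcon2
          push Not at hcon2
          exact hcon ⟨A, B, hAB, hcon2.1, hcon2.2⟩
        obtain ⟨A, B, hAB, hA, hB⟩ := h1
        have hltA : A.map N.subtype < N := by
          refine lt_of_le_of_ne (Submodule.map_subtype_le N A) ?_
          intro h
          apply hB
          have hAt : A = ⊤ := by
            rw [eq_top_iff]
            intro x _
            have : (x : X) ∈ A.map N.subtype := by rw [h]; exact x.2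
            obtain ⟨y, hy, hyx⟩ := this
            have : y = x := Subtype.ext hyx
            exact this ▸ hy
          have := hAB.inf_eq_bot
          rwa [hAt, top_inf_eq] at this
        have hltB : B.map N.subtype < N := by
          refine lt_of_le_of_ne (Submodule.map_subtype_le N B) ?_
          intro h
          apply hA
          have hBt : B = ⊤ := by
            rw [eq_top_iff]
            intro x _
            have : (x : X) ∈ B.map N.subtype := by rw [h]; exact x.2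
            obtain ⟨y, hy, hyx⟩ := this
            have : y = x := Subtype.ext hyx
            exact this ▸ hy
          have := hAB.inf_eq_bot
          rwa [hBt, inf_top_eq] at this
        obtain ⟨m₁, T₁, hT₁, ⟨e₁⟩⟩ := ih _ hltA
        obtain ⟨m₂, T₂, hT₂, ⟨e₂⟩⟩ := ih _ hltB
        refine ⟨m₁ + m₂, Fin.append T₁ T₂, ?_, ⟨?_⟩⟩
        · intro k
          refine Fin.addCases (fun i => ?_) (fun i => ?_) k
          · rw [Fin.append_left]; exact hT₁ i
          · rw [Fin.append_right]; exact hT₂ i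
        · let eA : A ≃ₗ[R] A.map N.subtype := A.equivMapOfInjective _ N.subtype_injective
          let eB : B ≃ₗ[R] B.map N.subtype := B.equivMapOfInjective _ N.subtype_injective
          let e3 : N ≃ₗ[R] (A × B) := (Submodule.prodEquivOfIsCompl A B hAB).symm
          let e4 : (A × B) ≃ₗ[R] (((k : Fin m₁) → T₁ k) × ((k : Fin m₂) → T₂ k)) :=
            (eA.trans e₁).prodCongr (eB.trans e₂)
          let e5 : (((k : Fin m₁) → T₁ k) × ((k : Fin m₂) → T₂ k)) ≃ₗ[R]
              ((k : Fin m₁ ⊕ Fin m₂) → (Sum.elim T₁ T₂ k : Submodule R X)) :=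
            { toFun := fun x k => match k with
                | Sum.inl i => x.1 i
                | Sum.inr i => x.2 i
              map_add' := by rintro _ _; funext k; rcases k with k | k <;> rfl
              map_smul' := by rintro _ _; funext k; rcases k with k | k <;> rfl
              invFun := fun x => (fun i => x (Sum.inl i), fun i => x (Sum.inr i))
              left_inv := fun x => rfl
              right_inv := fun x => by funext k; rcases k with k | k <;> rfl }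
          let e6 : ((k : Fin m₁ ⊕ Fin m₂) → (Sum.elim T₁ T₂ k : Submodule R X)) ≃ₗ[R]
              ((k : Fin (m₁ + m₂)) → (Fin.append T₁ T₂ k : Submodule R X)) := by
            refine LinearEquiv.trans (LinearEquiv.piCongrRight (fun k => ?_))
              (LinearEquiv.piCongrLeft R (fun k => (Fin.append T₁ T₂ k : Submodule R X))
                finSumFinEquiv)
            refine LinearEquiv.ofEq _ _ ?_
            rcases k with k | k
            · simp
            · simp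
          exact (e3.trans e4).trans (e5.trans e6)

/-- Every module of finite length is a finite direct sum of indecomposables. -/
theorem exists_indec_decomposition (X : Type v) [AddCommGroup X] [Module R X]
    [IsArtinian R X] :
    ∃ (m : ℕ) (T : Fin m → Submodule R X), (∀ k, IsIndec R (T k)) ∧
      Nonempty (X ≃ₗ[R] ((k : Fin m) → T k)) := by
  obtain ⟨m, T, hT, ⟨e⟩⟩ := exists_indec_decomposition_submodule (⊤ : Submodule R X)
  exact ⟨m, T, hT, ⟨Submodule.topEquiv.symm.trans e⟩⟩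

/-- Krull-Schmidt in the form needed here: a finite length direct summand of a finite sum of
indecomposables `W i` is a finite sum of some of the `W i`. -/
theorem exists_linearEquiv_of_summand {X : Type v} [AddCommGroup X] [Module R X]
    [IsNoetherian R X] [IsArtinian R X] {ι : Type w} [Fintype ι]
    (W : ι → Type v) [∀ i, AddCommGroup (W i)] [∀ i, Module R (W i)]
    (hW : ∀ i, IsIndec R (W i))
    (i : X →ₗ[R] ((j : ι) → W j)) (p : ((j : ι) → W j) →ₗ[R] X) (hpi : p ∘ₗ i = LinearMap.id) :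
    ∃ (m : ℕ) (c : Fin m → ι), Nonempty (X ≃ₗ[R] ((k : Fin m) → W (c k))) := by
  classical
  obtain ⟨m, T, hT, ⟨e⟩⟩ := exists_indec_decomposition (R := R) X
  have hc : ∀ k, ∃ j, Nonempty (T k ≃ₗ[R] W j) := by
    intro k
    refine (hT k).exists_linearEquiv W hW
      (i ∘ₗ e.symm.toLinearMap ∘ₗ LinearMap.single R (fun k => T k) k)
      (LinearMap.proj k ∘ₗ e.toLinearMap ∘ₗ p) ?_
    refine LinearMap.ext fun x => ?_
    have h2 := congrArg (fun g => g (e.symm (Pi.single k x))) hpi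
    simp only [LinearMap.comp_apply, LinearMap.id_apply] at h2
    simp only [LinearMap.comp_apply, LinearMap.id_apply, LinearMap.proj_apply,
      LinearMap.single_apply, LinearEquiv.coe_coe, h2, LinearEquiv.apply_symm_apply,
      Pi.single_eq_same]
  choose c ε using hc
  exact ⟨m, c, ⟨e.trans (LinearEquiv.piCongrRight fun k => (ε k).some)⟩⟩

end Decomposition

/-- For `V` of finite length there is a finite list `W` of modules such that every member of
`add V` is a finite direct sum of members of the list. -/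
theorem exists_list_of_add {R : Type u} [Ring R] [IsArtinianRing R]
    (V : Type v) [AddCommGroup V] [Module R V] [Module.Finite R V] :
    ∃ (r : ℕ) (W : Fin r → ModuleCat.{v} R), (∀ k, Module.Finite R (W k)) ∧
      ∀ (X : Type v) [AddCommGroup X] [Module R X], InAdd R V X →
        ∃ (m : ℕ) (c : Fin m → Fin r), Nonempty (X ≃ₗ[R] ((j : Fin m) → W (c j))) := by
  classical
  obtain ⟨r, T, hT, ⟨e⟩⟩ := exists_indec_decomposition (R := R) V
  refine ⟨r, fun k => ModuleCat.of R (T k), fun k => inferInstance, ?_⟩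
  intro X _ _ hX
  obtain ⟨n, i, p, hpi⟩ := hX
  have hinj : Function.Injective i := by
    refine Function.LeftInverse.injective (g := p) fun x => ?_
    exact congrArg (fun g => g x) hpi
  have : IsNoetherian R X := isNoetherian_of_injective i hinj
  have : IsArtinian R X := isArtinian_of_injective i hinj
  let e1 : (Fin n → V) ≃ₗ[R] (Fin n → ((k : Fin r) → T k)) :=
    LinearEquiv.piCongrRight fun _ => e
  let e2 : (Fin n → ((k : Fin r) → T k)) ≃ₗ[R] ((x : Fin n × Fin r) → T x.2) :=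
    { toFun := fun f x => f x.1 x.2
      map_add' := fun _ _ => rfl
      map_smul' := fun _ _ => rfl
      invFun := fun f a b => f (a, b)
      left_inv := fun _ => rfl
      right_inv := fun _ => rfl }
  obtain ⟨m, c, ⟨ε⟩⟩ := exists_linearEquiv_of_summand (R := R) (X := X)
    (ι := Fin n × Fin r) (fun x => T x.2) (fun x => hT x.2)
    ((e1.trans e2).toLinearMap ∘ₗ i) (p ∘ₗ (e1.trans e2).symm.toLinearMap) (by
      refine LinearMap.ext fun x => ?_
      have h2 := congrArg (fun g => g x) hpi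
      simp only [LinearMap.comp_apply, LinearMap.id_apply] at h2
      simp only [LinearMap.comp_apply, LinearEquiv.coe_coe, LinearEquiv.symm_apply_apply,
        LinearMap.id_apply, h2])
  exact ⟨m, fun k => (c k).2, ⟨ε⟩⟩

end Vale.Agent.P195
end
end
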