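import Vale.Agent.P195.MathlibUsed
import Vale.Agent.P195.Bdl.B2
import Vale.Agent.P195.Defs
import Vale.Agent.P195.Bdl.B1

set_option linter.all false

section

section

/-!
# P195: the universal properties of `O(a,b)` and `G_b`
-/

namespace Vale.Agent.P195.Van

open MvPolynomial Vale.Agent.P195.Weyl

universe u

variable {K : Type u} [Field K]

/-- generation of the windows of `G_b`, all weights -/
theorem GG_gen' {b w d : ℤ} (hb : b ≤ 2) {h : D K × D K} (hh : h ∈ Weyl.GG K b w d) :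
    ∃ p ∈ V K w (b + d), ∃ q ∈ V K w (b + d), ∃ g ∈ V K (w - 1) (d + 2),
      h = (p, q) + jj g := by
  rw [mem_GG] at hh
  obtain ⟨p, hp, q, hq, h1⟩ := Rx_trunc hh.2
  obtain ⟨g, hg, h2⟩ := exists_jj (w := w) (d := d + 2) (h := h - (p, q))
    (Submodule.sub_mem _ hh.1.2 (V_mono (by omega) hq)) (by
      rw [map_sub, sub_eq_zero]; exact h1)
  exact ⟨p, hp, q, hq, g, hg, by rw [← h2]; abel⟩

theorem GM.isWeylOps (Z : GM K) : IsWeylOps Z.x Z.d := ⟨Z.xx, Z.dd, Z.dx⟩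

theorem GM.cF (Z : GM K) {w w' e e' : ℤ} {z : Z.X} (h : z ∈ Z.F w e) (hw : w = w')
    (he : e = e') : z ∈ Z.F w' e' := by subst hw; subst he; exact h

/-- Universal property of a line, existence. -/
theorem rep_line (Z : GM K) (z : Z.X) :
    ∃ φ : D K →ₗ[K] Z.X, φ 1 = z ∧ (∀ i f, φ (Lx i f) = Z.x i (φ f)) ∧
      (∀ i f, φ (Ld i f) = Z.d i (φ f)) ∧
      ∀ w e, z ∈ Z.F w e → ∀ w' e' f, f ∈ V K w' e' → φ f ∈ Z.F (w + w') (e + e') := by
  obtain ⟨φ, h1, hx, hd, hF⟩ := univ_exists Z.isWeylOps z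
  refine ⟨φ, h1, hx, hd, fun w e hz w' e' f hf => ?_⟩
  exact hF Z.F (fun w e i y hy => Z.xF i w e y hy) (fun w e i y hy => Z.dF i w e y hy)
    (fun w e y hy => Z.mono w e y hy) w e hz w' e' f hf

theorem rep_line_ext {Z : GM K} {φ ψ : D K →ₗ[K] Z.X} (h1 : φ 1 = ψ 1)
    (hx : ∀ i f, φ (Lx i f) = Z.x i (φ f)) (hx' : ∀ i f, ψ (Lx i f) = Z.x i (ψ f))
    (hd : ∀ i f, φ (Ld i f) = Z.d i (φ f)) (hd' : ∀ i f, ψ (Ld i f) = Z.d i (ψ f)) : φ = ψ :=
  univ_ext h1 hx hx' hd hd'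

/-- Right multiplication by `x_i` corresponds to acting on the generator. -/
theorem rep_line_Rx {Z : GM K} {φ ψ : D K →ₗ[K] Z.X} (i : Fin 2) (h1 : ψ 1 = Z.x i (φ 1))
    (hx : ∀ i f, φ (Lx i f) = Z.x i (φ f)) (hx' : ∀ i f, ψ (Lx i f) = Z.x i (ψ f))
    (hd : ∀ i f, φ (Ld i f) = Z.d i (φ f)) (hd' : ∀ i f, ψ (Ld i f) = Z.d i (ψ f)) (f : D K) :
    φ (Rx i f) = ψ f := by
  have h : φ ∘ₗ Rx i = ψ := by
    refine rep_line_ext ?_ ?_ hx' ?_ hd'
    · rw [LinearMap.comp_apply, Rx_one, ← Lx_one, hx, h1]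
    · intro j f
      rw [LinearMap.comp_apply, ← Lx_Rx, hx, LinearMap.comp_apply]
    · intro j f
      rw [LinearMap.comp_apply, ← Ld_Rx, hd, LinearMap.comp_apply]
  rw [← h, LinearMap.comp_apply]

/-- Universal property of `G_b`, existence. -/
theorem rep_GG (Z : GM K) {b : ℤ} (hb : b ≤ 2) {z₀ z₁ : Z.X} (h0 : z₀ ∈ Z.F 0 (-b))
    (h1 : z₁ ∈ Z.F 0 (-b)) (h2 : Z.x 1 z₀ - Z.x 0 z₁ ∈ Z.F 1 (-2)) :
    ∃ φ : (D K × D K) →ₗ[K] Z.X, φ (1, 0) = z₀ ∧ φ (0, 1) = z₁ ∧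
      (∀ i f, φ (Lx2 i f) = Z.x i (φ f)) ∧ (∀ i f, φ (Ld2 i f) = Z.d i (φ f)) ∧
      ∀ w e f, f ∈ Weyl.GG K b w e → φ f ∈ Z.F w e := by
  obtain ⟨φ₀, a0, a1, a2, a3⟩ := rep_line Z z₀
  obtain ⟨φ₁, b0, b1, b2, b3⟩ := rep_line Z z₁
  obtain ⟨ψ, c0, c1, c2, c3⟩ := rep_line Z (Z.x 1 z₀ - Z.x 0 z₁)
  obtain ⟨ψ₀, d0, d1, d2, -⟩ := rep_line Z (Z.x 1 z₀)
  obtain ⟨ψ₁, e0, e1, e2, -⟩ := rep_line Z (Z.x 0 z₁)
  have hψ : ψ = ψ₀ - ψ₁ := by
    refine rep_line_ext ?_ c1 ?_ c2 ?_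
    · rw [LinearMap.sub_apply, c0, d0, e0]
    · intro i f; rw [LinearMap.sub_apply, d1, e1, LinearMap.sub_apply, map_sub]
    · intro i f; rw [LinearMap.sub_apply, d2, e2, LinearMap.sub_apply, map_sub]
  have key : ∀ g, φ₀ (Rx 1 g) - φ₁ (Rx 0 g) = ψ g := by
    intro g
    rw [rep_line_Rx (ψ := ψ₀) 1 (by rw [d0, a0]) a1 d1 a2 d2,
      rep_line_Rx (ψ := ψ₁) 0 (by rw [e0, b0]) b1 e1 b2 e2, hψ, LinearMap.sub_apply]
  refine ⟨φ₀.coprod φ₁, ?_, ?_, ?_, ?_, ?_⟩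
  · simp [a0]
  · simp only [LinearMap.coprod_apply, map_zero, b0, zero_add]
  · intro i f
    simp only [LinearMap.coprod_apply, Lx2_apply, a1, b1, map_add]
  · intro i f
    simp only [LinearMap.coprod_apply, Ld2_apply, a2, b2, map_add]
  · intro w e f hf
    obtain ⟨p, hp, q, hq, g, hg, rfl⟩ := GG_gen' hb hf
    rw [map_add, LinearMap.coprod_apply, LinearMap.coprod_apply]
    refine Submodule.add_mem _ (Submodule.add_mem _ ?_ ?_) ?_
    · exact Z.cF (a3 _ _ h0 _ _ _ hp) (by ring) (by ring)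
    · exact Z.cF (b3 _ _ h1 _ _ _ hq) (by ring) (by ring)
    · have := Z.cF (c3 _ _ h2 _ _ _ hg) (w' := w) (e' := e) (by ring) (by ring)
      rw [← key] at this
      simpa only [jj_apply, Fin.isValue, map_neg, sub_eq_add_neg] using this

/-- Universal property of `G_b`, uniqueness. -/
theorem rep_GG_ext {Z : GM K} {φ ψ : (D K × D K) →ₗ[K] Z.X} (h1 : φ (1, 0) = ψ (1, 0))
    (h2 : φ (0, 1) = ψ (0, 1))
    (hx : ∀ i f, φ (Lx2 i f) = Z.x i (φ f)) (hx' : ∀ i f, ψ (Lx2 i f) = Z.x i (ψ f))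
    (hd : ∀ i f, φ (Ld2 i f) = Z.d i (φ f)) (hd' : ∀ i f, ψ (Ld2 i f) = Z.d i (ψ f)) :
    φ = ψ := by
  have hl : ∀ (χ : (D K × D K) →ₗ[K] Z.X), (∀ i f, χ (Lx2 i f) = Z.x i (χ f)) → ∀ i f,
      (χ ∘ₗ LinearMap.inl K (D K) (D K)) (Lx i f) =
        Z.x i ((χ ∘ₗ LinearMap.inl K (D K) (D K)) f) := by
    intro χ h i f
    have := h i (f, 0)
    simpa using this
  have hr : ∀ (χ : (D K × D K) →ₗ[K] Z.X), (∀ i f, χ (Lx2 i f) = Z.x i (χ f)) → ∀ i f,
      (χ ∘ₗ LinearMap.inr K (D K) (D K)) (Lx i f) =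
        Z.x i ((χ ∘ₗ LinearMap.inr K (D K) (D K)) f) := by
    intro χ h i f
    have := h i (0, f)
    simpa only [LinearMap.coe_comp, LinearMap.coe_inr, Function.comp_apply, Lx2_apply, map_zero] using this
  have hl' : ∀ (χ : (D K × D K) →ₗ[K] Z.X), (∀ i f, χ (Ld2 i f) = Z.d i (χ f)) → ∀ i f,
      (χ ∘ₗ LinearMap.inl K (D K) (D K)) (Ld i f) =
        Z.d i ((χ ∘ₗ LinearMap.inl K (D K) (D K)) f) := by
    intro χ h i f
    have := h i (f, 0)
    simpa only [LinearMap.coe_comp, LinearMap.coe_inl, Function.comp_apply, Ld2_apply, map_zero] using this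
  have hr' : ∀ (χ : (D K × D K) →ₗ[K] Z.X), (∀ i f, χ (Ld2 i f) = Z.d i (χ f)) → ∀ i f,
      (χ ∘ₗ LinearMap.inr K (D K) (D K)) (Ld i f) =
        Z.d i ((χ ∘ₗ LinearMap.inr K (D K) (D K)) f) := by
    intro χ h i f
    have := h i (0, f)
    simpa only [LinearMap.coe_comp, LinearMap.coe_inr, Function.comp_apply, Ld2_apply, map_zero] using this
  apply LinearMap.prod_ext
  · exact rep_line_ext (by simpa only [LinearMap.coe_comp, LinearMap.coe_inl, Function.comp_apply] using h1) (hl φ hx) (hl ψ hx') (hl' φ hd) (hl' ψ hd')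
  · exact rep_line_ext (by simpa only [LinearMap.coe_comp, LinearMap.coe_inr, Function.comp_apply] using h2) (hr φ hx) (hr ψ hx') (hr' φ hd) (hr' ψ hd')

end Vale.Agent.P195.Van
end
end

section

section

/-!
# P195: the six objects `T_i` represent the six windows
-/

open Vale.Agent.P195.Weyl MvPolynomial

namespace Vale.Agent.P195.Van

universe u

variable {K : Type u} [Field K]

/-- `O(a,b)` represents `Z ↦ Z(-a,-b)`. -/
theorem OO_ex (a b : ℤ) (Z : GM K) {z : Z.X} (hz : z ∈ Z.F (-a) (-b)) :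
    ∃ φ : D K →ₗ[K] Z.X, IsG (OO K a b) Z φ ∧ φ 1 = z := by
  obtain ⟨φ, h1, hx, hd, hF⟩ := rep_line Z z
  refine ⟨φ, ⟨hx, hd, fun w e f hf => ?_⟩, h1⟩
  exact Z.cF (hF _ _ hz _ _ f hf) (by ring) (by ring)

theorem OO_ext {a b : ℤ} {Z : GM K} {φ ψ : D K →ₗ[K] Z.X} (hφ : IsG (OO K a b) Z φ)
    (hψ : IsG (OO K a b) Z ψ) (h : φ 1 = ψ 1) : φ = ψ :=
  rep_line_ext h hφ.x hψ.x hφ.d hψ.d

/-- `G_b` represents its window. -/
theorem GG_ex {b : ℤ} (hb : b ≤ 2) (Z : GM K) {z : Z.X × Z.X} (hz : z ∈ gW Z b) :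
    ∃ φ : (D K × D K) →ₗ[K] Z.X, IsG (GG K b) Z φ ∧ φ (1, 0) = z.1 ∧ φ (0, 1) = z.2 := by
  obtain ⟨φ, h0, h1, hx, hd, hF⟩ := rep_GG Z hb hz.1 hz.2.1 hz.2.2
  exact ⟨φ, ⟨hx, hd, hF⟩, h0, h1⟩

theorem GG_ext {b : ℤ} {Z : GM K} {φ ψ : (D K × D K) →ₗ[K] Z.X} (hφ : IsG (GG K b) Z φ)
    (hψ : IsG (GG K b) Z ψ) (h1 : φ (1, 0) = ψ (1, 0)) (h2 : φ (0, 1) = ψ (0, 1)) : φ = ψ :=
  rep_GG_ext h1 h2 hφ.x hψ.x hφ.d hψ.d

theorem one_mem_V' (w d : ℤ) (hw : w = 0) (hd : 0 ≤ d) : (1 : D K) ∈ V K w d := by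
  subst hw; exact V_mono hd one_mem_V

theorem GG_gen_mem {b : ℤ} (hb : b ≤ 2) :
    (((1, 0) : D K × D K), ((0, 1) : D K × D K)) ∈ gW (GG K b) b := by
  refine ⟨?_, ?_, ?_⟩
  · exact pair_mem_GG hb (one_mem_V' _ _ rfl (by simp)) (Submodule.zero_mem _)
  · exact pair_mem_GG hb (Submodule.zero_mem _) (one_mem_V' _ _ rfl (by simp))
  · have h : (Lx2 1 ((1, 0) : D K × D K) - Lx2 0 ((0, 1) : D K × D K)) = jj (1 : D K) := by
      simp only [Fin.isValue, Lx2_apply, Lx_one, map_zero, Prod.mk_sub_mk, sub_zero, zero_sub, jj_apply, Rx_one]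
    change Lx2 1 ((1, 0) : D K × D K) - Lx2 0 ((0, 1) : D K × D K) ∈ Weyl.GG K b 1 (-2)
    rw [h]
    exact jj_mem (one_mem_V' _ _ (by norm_num) (by norm_num))

theorem OO_gen_mem (a b : ℤ) :
    ((1 : D K), (0 : D K)) ∈ lineW (OO K a b) (-a) (-b) :=
  ⟨one_mem_V' _ _ (by ring) (by simp), rfl⟩

/-- The `i`-th object represents the `i`-th window. -/
theorem OO_rep (a b : ℤ) (i : Fin 6)
    (hi : ∀ (Z : GM K) (z : Z.X × Z.X), z ∈ win Z i ↔ z ∈ lineW Z (-a) (-b)) :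
    Rep (OO K a b) i ((1 : D K), (0 : D K)) where
  mem := (hi _ _).2 (OO_gen_mem a b)
  ex Z z hz := by
    have hz' := (hi _ _).1 hz
    obtain ⟨φ, hφ, h1⟩ := OO_ex a b Z (z := z.1) hz'.1
    refine ⟨φ, hφ, ?_⟩
    have h2 : z.2 = 0 := hz'.2
    refine Prod.ext h1 ?_
    rw [h2]
    exact map_zero φ
  uniq Z φ ψ hφ hψ h := OO_ext hφ hψ (congrArg Prod.fst h)

theorem GG_rep {b : ℤ} (hb : b ≤ 2) (i : Fin 6)
    (hi : ∀ (Z : GM K) (z : Z.X × Z.X), z ∈ win Z i ↔ z ∈ gW Z b) :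
    Rep (GG K b) i (((1, 0) : D K × D K), ((0, 1) : D K × D K)) where
  mem := (hi _ _).2 (GG_gen_mem hb)
  ex Z z hz := by
    obtain ⟨φ, hφ, h1, h2⟩ := GG_ex hb Z ((hi _ _).1 hz)
    exact ⟨φ, hφ, Prod.ext h1 h2⟩
  uniq Z φ ψ hφ hψ h := GG_ext hφ hψ (congrArg Prod.fst h) (congrArg Prod.snd h)

/-- The six objects represent the six windows. -/
theorem TT_rep (i : Fin 6) : Rep (TT K i) i (gen K i) := by
  fin_cases i
  · exact OO_rep 0 0 0 fun Z z => by
      show z ∈ lineW Z 0 0 ↔ _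
      rw [neg_zero]
  · exact OO_rep 0 1 1 fun Z z => by
      show z ∈ lineW Z 0 (-1) ↔ _
      rw [neg_zero]
  · exact OO_rep 0 2 2 fun Z z => by
      show z ∈ lineW Z 0 (-2) ↔ _
      rw [neg_zero]
  · exact GG_rep (b := 0) (by norm_num) 3 fun Z z => Iff.rfl
  · exact GG_rep (b := 1) (by norm_num) 4 fun Z z => Iff.rfl
  · exact OO_rep (-1) 2 5 fun Z z => by
      show z ∈ lineW Z 1 (-2) ↔ _
      rw [neg_neg]

theorem gen_mem (i : Fin 6) : gen K i ∈ win (TT K i) i := (TT_rep i).mem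

/-- The vertices. -/
theorem PE_isVert (v : Bool × Fin 6) : IsVert (PE K v).toF := by
  obtain ⟨s, i⟩ := v
  cases s
  · exact IsVert.J' (TT_rep i)
  · exact IsVert.J (TT_rep i)

theorem PP_isBase : IsBase (PP K) :=
  ⟨Bool × Fin 6, inferInstance, inferInstance, fun v => (PE K v).toF, PE_isVert, rfl⟩

end Vale.Agent.P195.Van
end
end

section

section

/-!
# P195: modules of type `L` are orthogonal to modules of type `K`

`PK`, `PL` are finitely generated projective modules which together generate all modules, with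
`Hom (PK, PL) = 0`.  If `Hom (PK, M) = 0` and `Hom (PL, N) = 0` then `Orth R M N`.
-/

open Function

namespace Vale.Agent.P195.Van

universe u

section TypeLK

variable {R : Type u} [Ring R] {PK PL : Type u} [AddCommGroup PK] [Module R PK]
  [AddCommGroup PL] [Module R PL]

/-- `R` is a sum of a summand of `PK` and a summand of `PL`. -/
structure GenPair (R : Type u) [Ring R] (PK PL : Type u) [AddCommGroup PK] [Module R PK]
    [AddCommGroup PL] [Module R PL] : Prop where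
  exists_maps : ∃ (iK : R →ₗ[R] PK) (pK : PK →ₗ[R] R) (iL : R →ₗ[R] PL) (pL : PL →ₗ[R] R),
    pK ∘ₗ iK + pL ∘ₗ iL = LinearMap.id

/-- A module without maps from `PK` is generated by `PL`. -/
theorem GenPair.exists_cover [IsNoetherianRing R] (hgen : GenPair R PK PL) (M : Type u)
    [AddCommGroup M] [Module R M] [Module.Finite R M] (hM : ∀ f : PK →ₗ[R] M, f = 0) :
    ∃ (k : ℕ) (g : (Fin k → PL) →ₗ[R] M), Surjective g := by
  obtain ⟨k, g, hg⟩ := exists_trace (R := R) (P0 := PL) M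
  refine ⟨k, g, fun x => ?_⟩
  obtain ⟨iK, pK, iL, pL, h⟩ := hgen.exists_maps
  have h1 : pK (iK 1) + pL (iL 1) = 1 := LinearMap.congr_fun h 1
  have h2 := congrArg (LinearMap.toSpanSingleton R M x) h1
  rw [map_add] at h2
  have h3 : LinearMap.toSpanSingleton R M x (pK (iK 1)) = 0 :=
    LinearMap.congr_fun (hM (LinearMap.toSpanSingleton R M x ∘ₗ pK)) (iK 1)
  rw [h3, zero_add, LinearMap.toSpanSingleton_apply, LinearMap.toSpanSingleton_apply,
    one_smul] at h2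
  exact hg (LinearMap.toSpanSingleton R M x ∘ₗ pL) ⟨iL 1, h2⟩

/-- Type `L` modules are orthogonal to type `K` modules. -/
theorem orth_LK [IsNoetherianRing R] [Module.Finite R PL] [Module.Projective R PL]
    (hgen : GenPair R PK PL) (hKL : ∀ f : PK →ₗ[R] PL, f = 0) {M N : Type u} [AddCommGroup M]
    [Module R M] [AddCommGroup N] [Module R N] [Module.Finite R M]
    (hM : ∀ f : PK →ₗ[R] M, f = 0) (hN : ∀ f : PL →ₗ[R] N, f = 0) : Orth R M N := by
  refine orth_of_class (fun X _ _ => Module.Finite R X ∧ ∀ f : PK →ₗ[R] X, f = 0) ?_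
    ⟨inferInstance, hM⟩
  rintro X _ _ ⟨hfin, hX⟩
  obtain ⟨k, g, hg⟩ := hgen.exists_cover X hX
  have hproj : Module.Projective R (Fin k → PL) :=
    Module.Projective.of_equiv (DirectSum.linearEquivFunOnFintype R (Fin k) fun _ => PL)
  refine ⟨LinearMap.ker g, inferInstance, inferInstance, Fin k → PL, inferInstance,
    inferInstance, (LinearMap.ker g).subtype, g,
    ⟨(LinearMap.ker g).subtype_injective, LinearMap.exact_subtype_ker_map g, hg⟩, ?_, ?_, ?_⟩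
  · refine orth_of_projective fun f => ?_
    apply LinearMap.pi_ext'
    intro j
    exact (hN _).trans (hN _).symm
  · have hN : IsNoetherian R (Fin k → PL) := inferInstance
    infer_instance
  · intro f
    apply LinearMap.ext
    intro x
    apply Subtype.ext
    funext j
    exact LinearMap.congr_fun (hKL (LinearMap.proj j ∘ₗ (LinearMap.ker g).subtype ∘ₗ f)) x

end TypeLK

end Vale.Agent.P195.Van
end
end

section

section

/-!
# P195: matrix units of the algebra of a finite sum, and modules supported on two vertices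
-/

namespace Vale.Agent.P195.Van

universe u

variable {K : Type u} [Field K] {ι J : Type} {κ : Type} [Fintype κ]
  {P : FMod K ι J} {Q : κ → FMod K ι J}

/-- `P` is the sum of the objects `Q j`. -/
structure SumData (P : FMod K ι J) (Q : κ → FMod K ι J) where
  /-- projections -/
  pr : ∀ j, P.X →ₗ[K] (Q j).X
  /-- inclusions -/
  inc : ∀ j, (Q j).X →ₗ[K] P.X
  pr_mem : ∀ j, pr j ∈ FHom P (Q j)
  inc_mem : ∀ j, inc j ∈ FHom (Q j) P
  pr_inc : ∀ j x, pr j (inc j x) = x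
  pr_inc_ne : ∀ j k, j ≠ k → ∀ x, pr j (inc k x) = 0
  sum_inc : ∀ x, ∑ j, inc j (pr j x) = x

/-- The sum data of a product. -/
def SumData.pi [DecidableEq κ] (Q : κ → FMod K ι J) : SumData (FMod.pi Q) Q where
  pr j := LinearMap.proj j
  inc j := LinearMap.single K (fun j => (Q j).X) j
  pr_mem := FMod.proj_mem Q
  inc_mem := FMod.single_mem Q
  pr_inc j x := by simp
  pr_inc_ne j k h x := by simp [h]
  sum_inc x := Finset.univ_sum_single x

theorem walg_ext {a b : WAlg P}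
    (h : (a.unop : Module.End K P.X) = (b.unop : Module.End K P.X)) : a = b :=
  MulOpposite.unop_injective (Subtype.ext h)

namespace SumData

variable (s : SumData P Q)

/-- the matrix unit attached to `φ : Q k → Q j` -/
def elt (k j : κ) (φ : (Q k).X →ₗ[K] (Q j).X) (hφ : φ ∈ FHom (Q k) (Q j)) : WAlg P :=
  MulOpposite.op ⟨s.inc j ∘ₗ φ ∘ₗ s.pr k, FHom.comp (s.inc_mem j) (FHom.comp hφ (s.pr_mem k))⟩

/-- the idempotent of a vertex -/
def idem (j : κ) : WAlg P := s.elt j j LinearMap.id (FHom.id (Q j))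

theorem elt_congr {k j : κ} {φ ψ : (Q k).X →ₗ[K] (Q j).X} (h : φ = ψ)
    (hφ : φ ∈ FHom (Q k) (Q j)) (hψ : ψ ∈ FHom (Q k) (Q j)) :
    s.elt k j φ hφ = s.elt k j ψ hψ := by
  subst h; rfl

theorem elt_mul (k l j : κ) {α : (Q k).X →ₗ[K] (Q l).X} (hα : α ∈ FHom (Q k) (Q l))
    {β : (Q l).X →ₗ[K] (Q j).X} (hβ : β ∈ FHom (Q l) (Q j)) :
    s.elt k l α hα * s.elt l j β hβ = s.elt k j (β ∘ₗ α) (FHom.comp hβ hα) := by
  apply walg_ext
  refine LinearMap.ext fun x => ?_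
  change s.inc j (β (s.pr l (s.inc l (α (s.pr k x))))) = s.inc j (β (α (s.pr k x)))
  rw [s.pr_inc]

theorem elt_mul_ne (k l l' j : κ) (hl : l ≠ l') {α : (Q k).X →ₗ[K] (Q l).X}
    (hα : α ∈ FHom (Q k) (Q l)) {β : (Q l').X →ₗ[K] (Q j).X} (hβ : β ∈ FHom (Q l') (Q j)) :
    s.elt k l α hα * s.elt l' j β hβ = 0 := by
  apply walg_ext
  refine LinearMap.ext fun x => ?_
  change s.inc j (β (s.pr l' (s.inc l (α (s.pr k x))))) = 0
  rw [s.pr_inc_ne _ _ hl.symm, map_zero, map_zero]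

theorem elt_add (k j : κ) {α β : (Q k).X →ₗ[K] (Q j).X} (hα : α ∈ FHom (Q k) (Q j))
    (hβ : β ∈ FHom (Q k) (Q j)) :
    s.elt k j (α + β) ((FHom _ _).add_mem hα hβ) = s.elt k j α hα + s.elt k j β hβ := by
  apply walg_ext
  refine LinearMap.ext fun x => ?_
  exact map_add (s.inc j) (α (s.pr k x)) (β (s.pr k x))

theorem elt_zero (k j : κ) :
    s.elt k j (0 : (Q k).X →ₗ[K] (Q j).X) (FHom (Q k) (Q j)).zero_mem = 0 := by
  apply walg_ext
  refine LinearMap.ext fun x => ?_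
  exact map_zero (s.inc j)

theorem elt_smul (k j : κ) (c : K) {α : (Q k).X →ₗ[K] (Q j).X}
    (hα : α ∈ FHom (Q k) (Q j)) :
    s.elt k j (c • α) ((FHom _ _).smul_mem c hα) = c • s.elt k j α hα := by
  apply walg_ext
  refine LinearMap.ext fun x => ?_
  exact map_smul (s.inc j) c (α (s.pr k x))

/-- the matrix entries of an element -/
def entry (r : WAlg P) (k j : κ) : (Q k).X →ₗ[K] (Q j).X :=
  s.pr j ∘ₗ (r.unop : Module.End K P.X) ∘ₗ s.inc k

theorem entry_mem (r : WAlg P) (k j : κ) : s.entry r k j ∈ FHom (Q k) (Q j) :=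
  FHom.comp (s.pr_mem j) (FHom.comp r.unop.2 (s.inc_mem k))

/-- decomposition in matrix units -/
theorem sum_elt (r : WAlg P) :
    ∑ k, ∑ j, s.elt k j (s.entry r k j) (s.entry_mem r k j) = r := by
  apply walg_ext
  let U : WAlg P →+ Module.End K P.X :=
    { toFun := fun a => (a.unop : Module.End K P.X)
      map_zero' := rfl
      map_add' := fun _ _ => rfl }
  change U _ = U r
  rw [map_sum]
  simp only [map_sum]
  refine LinearMap.ext fun x => ?_
  rw [LinearMap.sum_apply]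
  simp only [LinearMap.sum_apply]
  have h1 : ∀ k j, (U (s.elt k j (s.entry r k j) (s.entry_mem r k j))) x =
      s.inc j (s.pr j ((U r) (s.inc k (s.pr k x)))) := fun k j => rfl
  simp only [h1, s.sum_inc]
  rw [← map_sum, s.sum_inc]

theorem elt_idem (k j : κ) {α : (Q k).X →ₗ[K] (Q j).X} (hα : α ∈ FHom (Q k) (Q j)) :
    s.elt k j α hα * s.idem j = s.elt k j α hα := by
  rw [idem, elt_mul]
  exact s.elt_congr (LinearMap.id_comp α) _ _

theorem idem_elt (k j : κ) {α : (Q k).X →ₗ[K] (Q j).X} (hα : α ∈ FHom (Q k) (Q j)) :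
    s.idem k * s.elt k j α hα = s.elt k j α hα := by
  rw [idem, elt_mul]
  exact s.elt_congr (LinearMap.comp_id α) _ _

theorem idem_idem (j : κ) : s.idem j * s.idem j = s.idem j := s.elt_idem j j _

theorem idem_ne {j k : κ} (h : j ≠ k) : s.idem j * s.idem k = 0 := s.elt_mul_ne j j k k h _ _

theorem sum_idem : ∑ j, s.idem j = 1 := by
  apply walg_ext
  let U : WAlg P →+ Module.End K P.X :=
    { toFun := fun a => (a.unop : Module.End K P.X)
      map_zero' := rfl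
      map_add' := fun _ _ => rfl }
  change U _ = U 1
  rw [map_sum]
  refine LinearMap.ext fun x => ?_
  rw [LinearMap.sum_apply]
  have h1 : ∀ j, (U (s.idem j)) x = s.inc j (s.pr j x) := fun j => rfl
  simp only [h1, s.sum_inc]
  rfl

/-- the map `Win P (Q l) → R`, `φ ↦ inc l ∘ φ` -/
def toAlg (l : κ) : Win P (Q l) →ₗ[WAlg P] WAlg P where
  toFun φ := MulOpposite.op ⟨s.inc l ∘ₗ φ.toLin, FHom.comp (s.inc_mem l) φ.toLin_mem⟩
  map_add' φ ψ := by
    apply walg_ext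
    refine LinearMap.ext fun x => ?_
    exact map_add (s.inc l) (φ.toLin x) (ψ.toLin x)
  map_smul' a φ := by
    apply walg_ext
    rfl

/-- the universal element of `Win P (Q l)` -/
def univ (l : κ) : Win P (Q l) := Win.mk (s.pr l) (s.pr_mem l)

theorem idem_smul_univ (l : κ) : s.idem l • s.univ l = s.univ l := by
  apply Win.ext'
  refine LinearMap.ext fun x => ?_
  exact s.pr_inc l (s.pr l x)

/-- Every map `Win P (Q l) → C` is determined by the image of the universal element. -/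
theorem hom_ext_univ {C : Type*} [AddCommGroup C] [Module (WAlg P) C] {l : κ}
    {f g : Win P (Q l) →ₗ[WAlg P] C} (h : f (s.univ l) = g (s.univ l)) : f = g := by
  apply LinearMap.ext
  intro φ
  have h1 : φ = s.toAlg l φ • s.univ l := by
    apply Win.ext'
    refine LinearMap.ext fun x => ?_
    exact (s.pr_inc l (φ.toLin x)).symm
  rw [h1, map_smul, map_smul, h]

/-- Modules without maps from `Win P (Q l)` vanish at the vertex `l`. -/
theorem idem_smul_eq_zero {C : Type*} [AddCommGroup C] [Module (WAlg P) C] (l : κ)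
    (h : ∀ f : Win P (Q l) →ₗ[WAlg P] C, f = 0) (c : C) : s.idem l • c = 0 := by
  have h1 := h (LinearMap.toSpanSingleton (WAlg P) C c ∘ₗ s.toAlg l)
  exact LinearMap.congr_fun h1 (s.univ l)

/-- Modules vanishing at the vertex `l` have no maps from `Win P (Q l)`. -/
theorem hom_eq_zero {C : Type*} [AddCommGroup C] [Module (WAlg P) C] (l : κ)
    (h : ∀ c : C, s.idem l • c = 0) (f : Win P (Q l) →ₗ[WAlg P] C) : f = 0 := by
  apply s.hom_ext_univ
  rw [LinearMap.zero_apply, ← s.idem_smul_univ, map_smul, h]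


/-- The action on a module supported on the two vertices `a, b`. -/
theorem two_smul_eq {a b : κ} (hab : a ≠ b) {θ : (Q b).X →ₗ[K] (Q a).X}
    (hθ : θ ∈ FHom (Q b) (Q a))
    (haa : ∀ φ ∈ FHom (Q a) (Q a), ∃ c : K, φ = c • LinearMap.id)
    (hz : ∀ φ ∈ FHom (Q a) (Q b), φ = 0)
    (hbb : ∀ φ ∈ FHom (Q b) (Q b), ∃ c : K, ∃ l, l ≠ a ∧ l ≠ b ∧ ∃ α ∈ FHom (Q b) (Q l),
      ∃ β ∈ FHom (Q l) (Q b), φ = c • LinearMap.id + β ∘ₗ α)
    (hba : ∀ φ ∈ FHom (Q b) (Q a), ∃ c : K, ∃ l, l ≠ a ∧ l ≠ b ∧ ∃ α ∈ FHom (Q b) (Q l),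
      ∃ β ∈ FHom (Q l) (Q a), φ = c • θ + β ∘ₗ α)
    (r : WAlg P) :
    ∃ x y z : K, ∀ (C : Type u) [AddCommGroup C] [Module (WAlg P) C],
      (∀ l, l ≠ a → l ≠ b → ∀ c : C, s.idem l • c = 0) →
      ∀ c : C, r • c = (algebraMap K (WAlg P) x) • (s.idem a • c) +
        (algebraMap K (WAlg P) y) • (s.idem b • c) +
        (algebraMap K (WAlg P) z) • (s.elt b a θ hθ • c) := by
  obtain ⟨x, hx⟩ := haa _ (s.entry_mem r a a)
  obtain ⟨y, l, hla, hlb, α, hα, β, hβ, hy⟩ := hbb _ (s.entry_mem r b b)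
  obtain ⟨z, l', hla', hlb', α', hα', β', hβ', hz'⟩ := hba _ (s.entry_mem r b a)
  refine ⟨x, y, z, fun C _ _ hC c => ?_⟩
  have hr : ∀ (k j : κ) (φ : (Q k).X →ₗ[K] (Q j).X) (hφ : φ ∈ FHom (Q k) (Q j)),
      (j ≠ a → j ≠ b → s.elt k j φ hφ • c = 0) ∧
      (k ≠ a → k ≠ b → s.elt k j φ hφ • c = 0) := by
    intro k j φ hφ
    constructor
    · intro h1 h2
      rw [← s.elt_idem k j hφ, mul_smul, hC j h1 h2, smul_zero]
    · intro h1 h2
      rw [← s.idem_elt k j hφ, mul_smul, hC k h1 h2]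
  have hfac : ∀ (k l j : κ) (α : (Q k).X →ₗ[K] (Q l).X) (hα : α ∈ FHom (Q k) (Q l))
      (β : (Q l).X →ₗ[K] (Q j).X) (hβ : β ∈ FHom (Q l) (Q j)), l ≠ a → l ≠ b →
      s.elt k j (β ∘ₗ α) (FHom.comp hβ hα) • c = 0 := by
    intro k l j α hα β hβ h1 h2
    rw [← s.elt_mul k l j hα hβ, ← s.idem_elt l j hβ, mul_smul, mul_smul, hC l h1 h2,
      smul_zero]
  conv_lhs => rw [← s.sum_elt r]
  rw [Finset.sum_smul]
  simp only [Finset.sum_smul]
  have hk : ∀ k, ∑ j, s.elt k j (s.entry r k j) (s.entry_mem r k j) • c =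
      s.elt k a (s.entry r k a) (s.entry_mem r k a) • c +
      s.elt k b (s.entry r k b) (s.entry_mem r k b) • c := by
    intro k
    refine Finset.sum_eq_add a b hab (fun j _ hj => (hr k j _ _).1 hj.1 hj.2) ?_ ?_
    · intro h; exact absurd (Finset.mem_univ _) h
    · intro h; exact absurd (Finset.mem_univ _) h
  simp only [hk]
  rw [Finset.sum_eq_add a b hab (fun k _ hk' => by
    rw [(hr k a _ _).2 hk'.1 hk'.2, (hr k b _ _).2 hk'.1 hk'.2, add_zero])
    (fun h => absurd (Finset.mem_univ _) h) (fun h => absurd (Finset.mem_univ _) h)]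
  have e1 : s.elt a a (s.entry r a a) (s.entry_mem r a a) = x • s.idem a := by
    rw [idem, ← s.elt_smul]
    exact s.elt_congr hx _ _
  have e2 : s.elt a b (s.entry r a b) (s.entry_mem r a b) = 0 := by
    rw [← s.elt_zero a b]
    exact s.elt_congr (hz _ (s.entry_mem r a b)) _ _
  have e3 : s.elt b b (s.entry r b b) (s.entry_mem r b b) =
      y • s.idem b + s.elt b b (β ∘ₗ α) (FHom.comp hβ hα) := by
    rw [idem, ← s.elt_smul, ← s.elt_add]
    exact s.elt_congr hy _ _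
  have e4 : s.elt b a (s.entry r b a) (s.entry_mem r b a) =
      z • s.elt b a θ hθ + s.elt b a (β' ∘ₗ α') (FHom.comp hβ' hα') := by
    rw [← s.elt_smul, ← s.elt_add]
    exact s.elt_congr hz' _ _
  rw [e1, e2, e3, e4, zero_smul, add_zero, add_smul, add_smul, hfac _ _ _ _ hα _ hβ hla hlb,
    hfac _ _ _ _ hα' _ hβ' hla' hlb', add_zero, add_zero, Algebra.smul_def, Algebra.smul_def,
    Algebra.smul_def, mul_smul, mul_smul, mul_smul]
  abel

end SumData

end Vale.Agent.P195.Van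
end
end

section

section

/-!
# P195 (vanishing version), Step D: the class of `GM`'s with exact `κ`-complex

`Kappa A`: the complex `A(T₆) → A(T₁)² → A(G₀) → A(T₆)` is exact.  The class of `GM`'s with
finite-dimensional windows and exact `κ`-complex is closed under kernels of covers by finite sums
of the objects `T_j`, `j ≠ 6`.
-/

namespace Vale.Agent.P195.Van

universe u

variable {K : Type u} [Field K]

/-! ### Finite products and kernels of `GM`'s -/

/-- Products of families. -/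
@[reducible] def GM.pi {κ : Type} (Q : κ → GM K) : GM K where
  X := ∀ k, (Q k).X
  x i := LinearMap.pi fun k => (Q k).x i ∘ₗ LinearMap.proj k
  d i := LinearMap.pi fun k => (Q k).d i ∘ₗ LinearMap.proj k
  F w e := Submodule.pi Set.univ fun k => (Q k).F w e
  xx i j z := by ext k; simp [(Q k).xx i j]
  dd i j z := by ext k; simp [(Q k).dd i j]
  dx i j z := by
    ext k
    have h1 := (Q k).dx i j (z k)
    by_cases h : i = j
    · rw [if_pos h] at h1 ⊢
      exact h1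
    · rw [if_neg h] at h1 ⊢
      exact h1
  xF i w e z hz k hk := (Q k).xF i w e _ (hz k hk)
  dF i w e z hz k hk := (Q k).dF i w e _ (hz k hk)
  mono w e z hz k hk := (Q k).mono w e _ (hz k hk)

theorem GM.proj_isG {κ : Type} (Q : κ → GM K) (k : κ) :
    IsG (GM.pi Q) (Q k) (LinearMap.proj k) :=
  ⟨fun _ _ => rfl, fun _ _ => rfl, fun _ _ _ hz => hz k (Set.mem_univ _)⟩

theorem GM.single_isG {κ : Type} [DecidableEq κ] (Q : κ → GM K) (k : κ) :
    IsG (Q k) (GM.pi Q) (LinearMap.single K (fun k => (Q k).X) k) := by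
  refine ⟨fun i z => ?_, fun i z => ?_, fun w e z hz l _ => ?_⟩
  · ext l
    by_cases hl : l = k
    · subst hl; simp only [LinearMap.coe_single, Pi.single_eq_same, LinearMap.pi_apply, LinearMap.coe_comp, LinearMap.coe_proj, Function.comp_apply, Function.eval]
    · simp only [LinearMap.coe_single, ne_eq, hl, not_false_eq_true, Pi.single_eq_of_ne, LinearMap.pi_apply, LinearMap.coe_comp, LinearMap.coe_proj, Function.comp_apply, Function.eval, map_zero]
  · ext l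
    by_cases hl : l = k
    · subst hl; simp only [LinearMap.coe_single, Pi.single_eq_same, LinearMap.pi_apply, LinearMap.coe_comp, LinearMap.coe_proj, Function.comp_apply, Function.eval]
    · simp only [LinearMap.coe_single, ne_eq, hl, not_false_eq_true, Pi.single_eq_of_ne, LinearMap.pi_apply, LinearMap.coe_comp, LinearMap.coe_proj, Function.comp_apply, Function.eval, map_zero]
  · by_cases hl : l = k
    · subst hl; simpa using hz
    · simp [hl]

theorem IsG.sum {A B : GM K} {κ : Type*} (s : Finset κ) (φ : κ → A.X →ₗ[K] B.X)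
    (h : ∀ k, IsG A B (φ k)) : IsG A B (∑ k ∈ s, φ k) := by
  classical
  induction s using Finset.induction_on with
  | empty => simpa using IsG.zero A B
  | insert a s ha ih => rw [Finset.sum_insert ha]; exact (h a).add ih

/-- Kernel of a map. -/
@[reducible] def GM.ker {A B : GM K} (φ : A.X →ₗ[K] B.X) (h : IsG A B φ) : GM K where
  X := LinearMap.ker φ
  x i := (A.x i).restrict fun z hz => by
    rw [LinearMap.mem_ker] at hz ⊢
    rw [h.x, hz, map_zero]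
  d i := (A.d i).restrict fun z hz => by
    rw [LinearMap.mem_ker] at hz ⊢
    rw [h.d, hz, map_zero]
  F w e := (A.F w e).comap (LinearMap.ker φ).subtype
  xx i j z := Subtype.ext (A.xx i j z.1)
  dd i j z := Subtype.ext (A.dd i j z.1)
  dx i j z := by
    apply Subtype.ext
    have := A.dx i j z.1
    by_cases hij : i = j
    · simp only [hij, if_true] at this ⊢
      exact this
    · simp only [hij, if_false] at this ⊢
      exact this
  xF i w e z hz := A.xF i w e z.1 hz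
  dF i w e z hz := A.dF i w e z.1 hz
  mono w e z hz := A.mono w e z.1 hz

theorem GM.ker_subtype_isG {A B : GM K} (φ : A.X →ₗ[K] B.X) (h : IsG A B φ) :
    IsG (GM.ker φ h) A (LinearMap.ker φ).subtype :=
  ⟨fun _ _ => rfl, fun _ _ => rfl, fun _ _ _ hz => hz⟩

/-! ### The class -/

/-- The complex `A(T₆) → A(T₁)² → A(G₀) → A(T₆)` is exact. -/
abbrev Kappa (A : GM K) : Prop := Weyl.Kap A.x A.d A.F

/-- Surjectivity at the vertex `v`. -/
def SurjAt {A B : GM K} (φ : A.X →ₗ[K] B.X) (v : Fin 6) : Prop :=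
  ∀ z ∈ win B v, ∃ y ∈ win A v, φ y.1 = z.1 ∧ φ y.2 = z.2

theorem SurjAt.line {A B : GM K} {φ : A.X →ₗ[K] B.X} {v : Fin 6} (h : SurjAt φ v) {w e : ℤ}
    (hA : win A v = lineW A w e) (hB : win B v = lineW B w e) :
    ∀ z ∈ B.F w e, ∃ y ∈ A.F w e, φ y = z := by
  intro z hz
  obtain ⟨y, hy, h1, _⟩ := h (z, 0) (by rw [hB]; exact ⟨hz, rfl⟩)
  rw [hA] at hy
  exact ⟨y.1, hy.1, h1⟩

/-- The class is closed under kernels of surjections. -/
theorem Kappa.ker {P A : GM K} (φ : P.X →ₗ[K] A.X) (hφ : IsG P A φ) (hP : Kappa P)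
    (hA : Kappa A) (h1 : ∀ z ∈ A.F 0 (-1), ∃ y ∈ P.F 0 (-1), φ y = z)
    (h5 : ∀ z ∈ A.F 1 (-2), ∃ y ∈ P.F 1 (-2), φ y = z) : Kappa (GM.ker φ hφ) := by
  have hker : ∀ z : (GM.ker φ hφ).X, φ z.1 = 0 := fun z => z.2
  refine ⟨?_, ?_, ?_, ?_⟩
  · intro f hf h0 h0'
    exact Subtype.ext (hP.k0 f.1 hf (congrArg Subtype.val h0) (congrArg Subtype.val h0'))
  · intro g hg h hh hx0 hx1
    obtain ⟨f, hf, hfg, hfh⟩ := hP.k1 g.1 hg h.1 hh (congrArg Subtype.val hx0)
      (congrArg Subtype.val hx1)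
    have h2 : φ f = 0 := by
      refine hA.k0 _ (hφ.F _ _ _ hf) ?_ ?_
      · rw [← hφ.d, ← hfg, hker]
      · rw [← hφ.d, ← hfh, hker]
    exact ⟨⟨f, h2⟩, hf, Subtype.ext hfg, Subtype.ext hfh⟩
  · intro p hp q hq hpq
    obtain ⟨g, hg, h, hh, hgp, hgq⟩ := hP.k2 p.1 hp q.1 hq (congrArg Subtype.val hpq)
    obtain ⟨f', hf', hf0, hf1⟩ := hA.k1 (φ g) (hφ.F _ _ _ hg) (φ h) (hφ.F _ _ _ hh)
      (by rw [← hφ.d, ← hφ.d, ← map_sub, ← hφ.x, ← hgp, hker])
      (by rw [← hφ.d, ← hφ.d, ← map_sub, ← hφ.x, ← hgq, hker])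
    obtain ⟨f, hf, rfl⟩ := h5 f' hf'
    have hg' : g - P.d 0 f ∈ P.F 0 (-1) := by
      refine Submodule.sub_mem _ hg ?_
      have := P.dF 0 _ _ _ hf
      norm_num at this
      exact this
    have hh' : h - P.d 1 f ∈ P.F 0 (-1) := by
      refine Submodule.sub_mem _ hh ?_
      have := P.dF 1 _ _ _ hf
      norm_num at this
      exact this
    have e1 : P.d 1 (g - P.d 0 f) - P.d 0 (h - P.d 1 f) = P.d 1 g - P.d 0 h := by
      rw [map_sub, map_sub, P.dd 1 0 f]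
      abel
    refine ⟨⟨g - P.d 0 f, ?_⟩, hg', ⟨h - P.d 1 f, ?_⟩, hh', ?_, ?_⟩
    · rw [LinearMap.mem_ker, map_sub, hφ.d, hf0, sub_self]
    · rw [LinearMap.mem_ker, map_sub, hφ.d, hf1, sub_self]
    · apply Subtype.ext
      change p.1 = P.x 0 (P.d 1 (g - P.d 0 f) - P.d 0 (h - P.d 1 f))
      rw [e1, hgp]
    · apply Subtype.ext
      change q.1 = P.x 1 (P.d 1 (g - P.d 0 f) - P.d 0 (h - P.d 1 f))
      rw [e1, hgq]
  · intro f hf
    obtain ⟨p, hp, q, hq, hpq⟩ := hP.k3 f.1 hf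
    obtain ⟨g', hg', h', hh', hgp, hgq⟩ := hA.k2 (φ p) (hφ.F _ _ _ hp) (φ q) (hφ.F _ _ _ hq)
      (by
        have h2 : φ (P.x 1 p - P.x 0 q) = 0 := by rw [hpq, hker]
        rw [map_sub, hφ.x, hφ.x] at h2
        exact sub_eq_zero.mp h2)
    obtain ⟨g, hg, rfl⟩ := h1 g' hg'
    obtain ⟨h, hh, rfl⟩ := h1 h' hh'
    have hu : P.d 1 g - P.d 0 h ∈ P.F (-1) 0 := by
      refine Submodule.sub_mem _ ?_ ?_
      · have := P.dF 1 _ _ _ hg
        norm_num at this
        exact this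
      · have := P.dF 0 _ _ _ hh
        norm_num at this
        exact this
    have hx : ∀ i, P.x i (P.d 1 g - P.d 0 h) ∈ P.F 0 0 := by
      intro i
      have := P.xF i _ _ _ hu
      rwa [show (-1 : ℤ) + 1 = 0 by norm_num] at this
    refine ⟨⟨p - P.x 0 (P.d 1 g - P.d 0 h), ?_⟩, Submodule.sub_mem _ hp (hx 0),
      ⟨q - P.x 1 (P.d 1 g - P.d 0 h), ?_⟩, Submodule.sub_mem _ hq (hx 1), ?_⟩
    · rw [LinearMap.mem_ker, map_sub, hφ.x, map_sub, hφ.d, hφ.d, ← hgp, sub_self]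
    · rw [LinearMap.mem_ker, map_sub, hφ.x, map_sub, hφ.d, hφ.d, ← hgq, sub_self]
    · apply Subtype.ext
      change P.x 1 (p - P.x 0 (P.d 1 g - P.d 0 h)) - P.x 0 (q - P.x 1 (P.d 1 g - P.d 0 h)) = f.1
      rw [map_sub (P.x 1) p, map_sub (P.x 0) q, P.xx 1 0, ← hpq]
      abel

/-! ### Products -/

theorem Kappa.pi {κ : Type} {Q : κ → GM K} (h : ∀ k, Kappa (Q k)) : Kappa (GM.pi Q) := by
  refine ⟨?_, ?_, ?_, ?_⟩
  · intro f hf h0 h1
    ext k
    exact (h k).k0 _ (hf k (Set.mem_univ _)) (congrFun h0 k) (congrFun h1 k)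
  · intro g hg l hl hx0 hx1
    choose f hf hf0 hf1 using fun k => (h k).k1 (g k) (hg k (Set.mem_univ _)) (l k)
      (hl k (Set.mem_univ _)) (congrFun hx0 k) (congrFun hx1 k)
    exact ⟨f, fun k _ => hf k, funext hf0, funext hf1⟩
  · intro p hp q hq hpq
    choose g hg l hl hgp hgq using fun k => (h k).k2 (p k) (hp k (Set.mem_univ _)) (q k)
      (hq k (Set.mem_univ _)) (congrFun hpq k)
    exact ⟨g, fun k _ => hg k, l, fun k _ => hl k, funext hgp, funext hgq⟩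
  · intro f hf
    choose p hp q hq hpq using fun k => (h k).k3 (f k) (hf k (Set.mem_univ _))
    exact ⟨p, fun k _ => hp k, q, fun k _ => hq k, funext hpq⟩

/-! ### The canonical cover -/

/-- Universal elements for the six objects. -/
abbrev Reps (T : Fin 6 → GM K) (g : ∀ v, (T v).X × (T v).X) : Prop := ∀ v, Rep (T v) v (g v)

theorem IsG.win_mem {A B : GM K} {φ : A.X →ₗ[K] B.X} (h : IsG A B φ) {v : Fin 6}
    {z : A.X × A.X} (hz : z ∈ Van.win A v) : (φ z.1, φ z.2) ∈ Van.win B v := h.win v hz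

theorem exists_cover {T : Fin 6 → GM K} {g : ∀ v, (T v).X × (T v).X} (hT : Reps T g)
    (A : GM K) (hfin : ∀ v, Module.Finite K (win A v)) :
    ∃ (κ : Type) (_ : Fintype κ) (_ : DecidableEq κ) (j : κ → Fin 6)
      (φ : (GM.pi fun k => T (j k)).X →ₗ[K] A.X), (∀ k, j k ≠ 5) ∧
      IsG (GM.pi fun k => T (j k)) A φ ∧ ∀ v, v ≠ 5 → SurjAt φ v := by
  classical
  let b := fun v => Module.finBasis K (win A v)
  let κ := Σ v : {v : Fin 6 // v ≠ 5}, Fin (Module.finrank K (win A v.1))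
  choose f hf hf12 using fun k : κ => (hT k.1.1).ex A (b k.1.1 k.2).1 (b k.1.1 k.2).2
  have hf1 : ∀ k, f k (g k.1.1).1 = (b k.1.1 k.2).1.1 := fun k => congrArg Prod.fst (hf12 k)
  have hf2 : ∀ k, f k (g k.1.1).2 = (b k.1.1 k.2).1.2 := fun k => congrArg Prod.snd (hf12 k)
  refine ⟨κ, inferInstance, inferInstance, fun k => k.1.1,
    ∑ k, f k ∘ₗ (LinearMap.proj k : (∀ k : κ, (T k.1.1).X) →ₗ[K] (T k.1.1).X),
    fun k => k.1.2, ?_, ?_⟩
  · exact IsG.sum _ _ fun k => (hf k).comp (GM.proj_isG (fun k : κ => T k.1.1) k)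
  · intro v hv z hz
    let s := fun i : Fin (Module.finrank K (win A v)) => (⟨⟨v, hv⟩, i⟩ : κ)
    let y : Fin (Module.finrank K (win A v)) → (∀ k : κ, (T k.1.1).X) × (∀ k : κ, (T k.1.1).X) :=
      fun i => (LinearMap.single K (fun k : κ => (T k.1.1).X) (s i) (g v).1,
        LinearMap.single K (fun k : κ => (T k.1.1).X) (s i) (g v).2)
    have hy : ∀ i, y i ∈ win (GM.pi fun k : κ => T k.1.1) v := fun i =>
      (GM.single_isG (fun k : κ => T k.1.1) (s i)).win_mem (hT v).mem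
    have hφ : ∀ (i : Fin (Module.finrank K (win A v))) (u : (T v).X),
        (∑ k, f k ∘ₗ (LinearMap.proj k : (∀ k : κ, (T k.1.1).X) →ₗ[K] (T k.1.1).X))
          (LinearMap.single K (fun k : κ => (T k.1.1).X) (s i) u) = f (s i) u := by
      intro i u
      rw [LinearMap.sum_apply, Finset.sum_eq_single (s i)]
      · simp only [Fin.isValue, ne_eq, LinearMap.coe_single, LinearMap.coe_comp, LinearMap.coe_proj, Function.comp_apply, Function.eval, Pi.single_eq_same]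
      · intro k _ hk
        simp only [Fin.isValue, ne_eq, LinearMap.coe_single, LinearMap.coe_comp, LinearMap.coe_proj, Function.comp_apply, Function.eval, Pi.single_eq_of_ne hk, map_zero]
      · simp only [Fin.isValue, ne_eq, Finset.mem_univ, not_true_eq_false, LinearMap.coe_single, LinearMap.coe_comp, LinearMap.coe_proj, Function.comp_apply, Function.eval, Pi.single_eq_same, IsEmpty.forall_iff]
    refine ⟨∑ i, (b v).repr ⟨z, hz⟩ i • y i, Submodule.sum_mem _ fun i _ =>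
      Submodule.smul_mem _ _ (hy i), ?_, ?_⟩
    · have h1 := congrArg (fun u : win A v => u.1.1) ((b v).sum_repr ⟨z, hz⟩)
      rw [Prod.fst_sum, map_sum, ← h1]
      simp only [Prod.smul_fst, map_smul, Submodule.coe_sum, Submodule.coe_smul, Prod.fst_sum]
      refine Finset.sum_congr rfl fun i _ => ?_
      rw [hφ, hf1]
    · have h1 := congrArg (fun u : win A v => u.1.2) ((b v).sum_repr ⟨z, hz⟩)
      rw [Prod.snd_sum, map_sum, ← h1]
      simp only [Submodule.coe_sum, Prod.snd_sum, Submodule.coe_smul, Prod.smul_snd, map_smul]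
      refine Finset.sum_congr rfl fun i _ => ?_
      rw [hφ, hf2]

theorem surjAt_five {P A : GM K} {φ : P.X →ₗ[K] A.X} (hφ : IsG P A φ) (hA : Kappa A)
    (h3 : SurjAt φ 3) : SurjAt φ 5 := by
  intro z hz
  obtain ⟨z1, z2⟩ := z
  obtain ⟨hz1, hz2⟩ : z1 ∈ A.F 1 (-2) ∧ z2 ∈ (⊥ : Submodule K A.X) := hz
  obtain ⟨p, hp, q, hq, hpq⟩ := hA.k3 z1 hz1
  obtain ⟨y, hy, hy1, hy2⟩ := h3 (p, q) ⟨by simpa using hp, by simpa using hq, by
    rw [hpq]; exact hz1⟩
  refine ⟨(P.x 1 y.1 - P.x 0 y.2, 0), ⟨hy.2.2, rfl⟩, ?_, ?_⟩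
  · rw [map_sub, hφ.x, hφ.x, hy1, hy2]
    exact hpq
  · rw [map_zero]
    exact hz2.symm

/-! ### Windows of products and kernels -/

theorem win_ker_exact {P A : GM K} {φ : P.X →ₗ[K] A.X} (hφ : IsG P A φ) (v : Fin 6)
    (z : P.X × P.X) (hz : z ∈ win P v) (h1 : φ z.1 = 0) (h2 : φ z.2 = 0) :
    ((⟨z.1, h1⟩, ⟨z.2, h2⟩) : (GM.ker φ hφ).X × (GM.ker φ hφ).X) ∈ win (GM.ker φ hφ) v := by
  have hl : ∀ w e, z ∈ lineW P w e →
      ((⟨z.1, h1⟩, ⟨z.2, h2⟩) : (GM.ker φ hφ).X × (GM.ker φ hφ).X) ∈ lineW (GM.ker φ hφ) w e :=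
    fun w e hz => ⟨hz.1, Subtype.ext hz.2⟩
  have hgw : ∀ b, z ∈ gW P b →
      ((⟨z.1, h1⟩, ⟨z.2, h2⟩) : (GM.ker φ hφ).X × (GM.ker φ hφ).X) ∈ gW (GM.ker φ hφ) b :=
    fun b hz => ⟨hz.1, hz.2.1, hz.2.2⟩
  fin_cases v
  · exact hl _ _ hz
  · exact hl _ _ hz
  · exact hl _ _ hz
  · exact hgw _ hz
  · exact hgw _ hz
  · exact hl _ _ hz

theorem win_finite_of_injective {A B : GM K} {f : A.X →ₗ[K] B.X} (hf : IsG A B f)
    (hinj : Function.Injective f) (v : Fin 6) (h : Module.Finite K (win B v)) :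
    Module.Finite K (win A v) := by
  let F : win A v →ₗ[K] win B v :=
    { toFun := fun z => ⟨(f z.1.1, f z.1.2), hf.win_mem z.2⟩
      map_add' := fun z y => Subtype.ext (Prod.ext (map_add f _ _) (map_add f _ _))
      map_smul' := fun c z => Subtype.ext (Prod.ext (map_smul f _ _) (map_smul f _ _)) }
  refine Module.Finite.of_injective F fun z y h => ?_
  have h1 := congrArg (fun u : win B v => u.1.1) h
  have h2 := congrArg (fun u : win B v => u.1.2) h
  exact Subtype.ext (Prod.ext (hinj h1) (hinj h2))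

theorem win_pi_finite {κ : Type} [Fintype κ] {Q : κ → GM K} (v : Fin 6)
    (h : ∀ k, Module.Finite K (win (Q k) v)) : Module.Finite K (win (GM.pi Q) v) := by
  let F : win (GM.pi Q) v →ₗ[K] (∀ k, win (Q k) v) :=
    { toFun := fun z k => ⟨(z.1.1 k, z.1.2 k), (GM.proj_isG Q k).win_mem z.2⟩
      map_add' := fun z y => rfl
      map_smul' := fun c z => rfl }
  refine Module.Finite.of_injective F fun z y h => ?_
  refine Subtype.ext (Prod.ext (funext fun k => ?_) (funext fun k => ?_))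
  · exact congrArg (fun u : win (Q k) v => u.1.1) (congrFun h k)
  · exact congrArg (fun u : win (Q k) v => u.1.2) (congrFun h k)

/-- The inductive step for the class of `GM`'s with exact `κ`-complex and finite windows. -/
theorem kappa_cover {T : Fin 6 → GM K} {g : ∀ v, (T v).X × (T v).X} (hT : Reps T g)
    (hTk : ∀ v, v ≠ 5 → Kappa (T v)) (hTfin : ∀ v u, Module.Finite K (win (T v) u))
    (A : GM K) (hA : Kappa A) (hfin : ∀ v, Module.Finite K (win A v)) :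
    ∃ (κ : Type) (_ : Fintype κ) (_ : DecidableEq κ) (j : κ → Fin 6)
      (φ : (GM.pi fun k => T (j k)).X →ₗ[K] A.X) (hφ : IsG (GM.pi fun k => T (j k)) A φ),
      (∀ k, j k ≠ 5) ∧
      GSES (GM.ker φ hφ) (GM.pi fun k => T (j k)) A (LinearMap.ker φ).subtype φ ∧
      Kappa (GM.ker φ hφ) ∧ ∀ v, Module.Finite K (win (GM.ker φ hφ) v) := by
  obtain ⟨κ, i1, i2, j, φ, hj, hφ, hs⟩ := exists_cover hT A hfin
  have hs5 : SurjAt φ 5 := surjAt_five hφ hA (hs 3 (by decide))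
  have hs' : ∀ v, SurjAt φ v := fun v => by
    by_cases hv : v = 5
    · subst hv; exact hs5
    · exact hs v hv
  have hPk : Kappa (GM.pi fun k => T (j k)) := Kappa.pi fun k => hTk _ (hj k)
  refine ⟨κ, i1, i2, j, φ, hφ, hj, ⟨GM.ker_subtype_isG φ hφ, hφ, fun z => z.2, ?_, ?_, ?_⟩,
    Kappa.ker φ hφ hPk hA ((hs' 1).line rfl rfl) ((hs' 5).line rfl rfl), fun v => ?_⟩
  · intro v z _ h
    exact Prod.ext (Subtype.ext (congrArg Prod.fst h)) (Subtype.ext (congrArg Prod.snd h))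
  · intro v z hz h
    have h1 : φ z.1 = 0 := congrArg Prod.fst h
    have h2 : φ z.2 = 0 := congrArg Prod.snd h
    exact ⟨(⟨z.1, h1⟩, ⟨z.2, h2⟩), win_ker_exact hφ v z hz h1 h2, rfl⟩
  · intro v z hz
    obtain ⟨y, hy, h1, h2⟩ := hs' v z hz
    exact ⟨y, hy, Prod.ext h1 h2⟩
  · exact win_finite_of_injective (GM.ker_subtype_isG φ hφ)
      (Submodule.injective_subtype _) v (win_pi_finite v fun k => hTfin _ _)

/-! ### Orthogonality -/

section orth

variable {P : FMod K EOp (Bool × ℤ × ℤ)} {N : Type u} [AddCommGroup N] [Module (WAlg P) N]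

/-- `[⊕ Q_k]` is orthogonal to `N` if all `[Q_k]` are. -/
theorem orth_br_pi {κ : Type} [Fintype κ] [DecidableEq κ] {Q : κ → GM K}
    (h : ∀ k, Orth (WAlg P) (Win P (EM.br (Q k)).toF) N) :
    Orth (WAlg P) (Win P (EM.br (GM.pi Q)).toF) N := by
  refine Orth.of_retract_sum (Finset.univ : Finset κ) (fun k => Win P (EM.br (Q k)).toF)
    (fun k => (GM.proj_isG Q k).br.map P) (fun k => (GM.single_isG Q k).br.map P) ?_ h
  apply LinearMap.ext
  intro φ
  apply Win.ext'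
  rw [LinearMap.sum_apply, Win.toLin_sum]
  apply LinearMap.ext
  intro x
  rw [LinearMap.sum_apply]
  refine Prod.ext ?_ (Subsingleton.elim _ _)
  rw [Prod.fst_sum]
  exact LinearMap.sum_single_apply (fun k => (Q k).X) (φ.toLin x).1

/-- If `N` is right orthogonal to the `[T_j]`, `j ≠ 5`, then it is right orthogonal to all `[A]`
with exact `κ`-complex and finite windows. -/
theorem orth_br_of_kappa (hP : IsBase P) {T : Fin 6 → GM K} {g : ∀ v, (T v).X × (T v).X}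
    (hT : Reps T g) (hTk : ∀ v, v ≠ 5 → Kappa (T v))
    (hTfin : ∀ v u, Module.Finite K (win (T v) u))
    (hN : ∀ v, v ≠ 5 → Orth (WAlg P) (Win P (EM.br (T v)).toF) N)
    (A : GM K) (hA : Kappa A) (hfin : ∀ v, Module.Finite K (win A v)) :
    Orth (WAlg P) (Win P (EM.br A).toF) N := by
  refine orth_of_class (fun X _ _ => ∃ A : GM K, Kappa A ∧ (∀ v, Module.Finite K (win A v)) ∧
    Nonempty (X ≃ₗ[WAlg P] Win P (EM.br A).toF)) ?_ ⟨A, hA, hfin, ⟨LinearEquiv.refl _ _⟩⟩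
  rintro X _ _ ⟨A, hA, hfin, ⟨e⟩⟩
  obtain ⟨κ, i1, i2, j, φ, hφ, hj, hs, hk, hf⟩ := kappa_cover hT hTk hTfin A hA hfin
  have hses := hs.br.ses hP
  refine ⟨Win P (EM.br (GM.ker φ hφ)).toF, inferInstance, inferInstance,
    Win P (EM.br (GM.pi fun k => T (j k))).toF, inferInstance, inferInstance,
    hs.br.e.map P, e.symm.toLinearMap ∘ₗ hs.br.e'.map P, ⟨hses.inj, ?_, ?_⟩,
    orth_br_pi fun k => hN _ (hj k), ⟨_, hk, hf, ⟨LinearEquiv.refl _ _⟩⟩⟩
  · intro y
    rw [← hses.exact y]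
    simp
  · exact e.symm.surjective.comp hses.surj

end orth

end Vale.Agent.P195.Van
end
end

section

section

/-!
# P195 (vanishing version), Step D: orthogonality to `S' = [C_{-1}]'`
-/

open Vale.Agent.P195.Weyl

namespace Vale.Agent.P195.Van

universe u

variable {K : Type u} [Field K]

/-! ### The class contains the objects `T_j`, `j ≠ 5`, and `C_n`, `n ≥ 0` -/

theorem kappa_OO (b : ℤ) : Kappa (OO K 0 b) := by
  have h : (OO K 0 b).F = fun w e => V K w (b + e) := by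
    funext w e
    simp
  change Kap (OO K 0 b).x (OO K 0 b).d (OO K 0 b).F
  rw [h]
  exact kap_O b

theorem kappa_TT (v : Fin 6) (hv : v ≠ 5) : Kappa (TT K v) := by
  fin_cases v
  · exact kappa_OO 0
  · exact kappa_OO 1
  · exact kappa_OO 2
  · exact kap_GG le_rfl (by norm_num)
  · exact kap_GG (by norm_num) le_rfl
  · exact absurd rfl hv

theorem kappa_CC [CharZero K] {n : ℤ} (hn : 0 ≤ n) : Kappa (CC K n) := kap_C hn

/-! ### Finiteness of windows -/

theorem win_finite (A : GM K) (h0 : ∀ e, Module.Finite K (A.F 0 e))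
    (h1 : Module.Finite K (A.F 1 (-2))) (v : Fin 6) : Module.Finite K (win A v) := by
  have hl : ∀ w e, Module.Finite K (A.F w e) → Module.Finite K (lineW A w e) := by
    intro w e h
    let F : lineW A w e →ₗ[K] A.F w e :=
      { toFun := fun z => ⟨z.1.1, z.2.1⟩
        map_add' := fun _ _ => rfl
        map_smul' := fun _ _ => rfl }
    refine Module.Finite.of_injective F fun z y hzy => ?_
    have e1 : z.1.1 = y.1.1 := congrArg Subtype.val hzy
    have e2 : z.1.2 = 0 := z.2.2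
    have e3 : y.1.2 = 0 := y.2.2
    exact Subtype.ext (Prod.ext e1 (e2.trans e3.symm))
  have hg : ∀ b, Module.Finite K (gW A b) := by
    intro b
    have := h0 (-b)
    let F : gW A b →ₗ[K] A.F 0 (-b) × A.F 0 (-b) :=
      { toFun := fun z => (⟨z.1.1, z.2.1⟩, ⟨z.1.2, z.2.2.1⟩)
        map_add' := fun _ _ => rfl
        map_smul' := fun _ _ => rfl }
    refine Module.Finite.of_injective F fun z y hzy => ?_
    have e1 : z.1.1 = y.1.1 := congrArg (fun p => (p.1 : A.X)) hzy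
    have e2 : z.1.2 = y.1.2 := congrArg (fun p => (p.2 : A.X)) hzy
    exact Subtype.ext (Prod.ext e1 e2)
  fin_cases v
  · exact hl _ _ (h0 _)
  · exact hl _ _ (h0 _)
  · exact hl _ _ (h0 _)
  · exact hg _
  · exact hg _
  · exact hl _ _ h1

theorem OO_finite (a b w e : ℤ) : Module.Finite K ((OO K a b).F w e) := V_finite _ _

theorem GG_finite (b w e : ℤ) : Module.Finite K ((GG K b).F w e) := by
  have h1 := V_finite (K := K) w (e + 2)
  let F : (GG K b).F w e →ₗ[K] V K w (e + 2) × V K w (e + 2) :=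
    { toFun := fun z => (⟨z.1.1, z.2.1.1⟩, ⟨z.1.2, z.2.1.2⟩)
      map_add' := fun _ _ => rfl
      map_smul' := fun _ _ => rfl }
  refine Module.Finite.of_injective F fun z y hzy => ?_
  have e1 : z.1.1 = y.1.1 := congrArg (fun p => (p.1 : D K)) hzy
  have e2 : z.1.2 = y.1.2 := congrArg (fun p => (p.2 : D K)) hzy
  exact Subtype.ext (Prod.ext e1 e2)

theorem S_finite (w : ℤ) : Module.Finite K (S K w) := by
  have h1 := V_finite (K := K) w 0
  let F : V K w 0 →ₗ[K] S K w :=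
    { toFun := fun z => ⟨ev z.1, ev_mem z.2⟩
      map_add' := fun _ _ => Subtype.ext (map_add _ _ _)
      map_smul' := fun _ _ => Subtype.ext (map_smul _ _ _) }
  refine Module.Finite.of_surjective F fun z => ?_
  obtain ⟨f, hf, hfz⟩ := ev_surj (K := K) (w := w) (d := 0) le_rfl z.2
  exact ⟨⟨f, hf⟩, Subtype.ext hfz⟩

theorem CC_finite (n w e : ℤ) : Module.Finite K ((CC K n).F w e) := by
  by_cases h : -2 ≤ e
  · have h1 : (CC K n).F w e = S K (n + w) := CF_of_le h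
    rw [h1]
    exact S_finite _
  · have h1 : (CC K n).F w e = ⊥ := if_neg h
    rw [h1]
    infer_instance

theorem TT_win_finite (i v : Fin 6) : Module.Finite K (win (TT K i) v) := by
  fin_cases i
  · exact win_finite _ (fun _ => OO_finite _ _ _ _) (OO_finite _ _ _ _) v
  · exact win_finite _ (fun _ => OO_finite _ _ _ _) (OO_finite _ _ _ _) v
  · exact win_finite _ (fun _ => OO_finite _ _ _ _) (OO_finite _ _ _ _) v
  · exact win_finite _ (fun _ => GG_finite _ _ _) (GG_finite _ _ _) v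
  · exact win_finite _ (fun _ => GG_finite _ _ _) (GG_finite _ _ _) v
  · exact win_finite _ (fun _ => OO_finite _ _ _ _) (OO_finite _ _ _ _) v

theorem CC_win_finite (n : ℤ) (v : Fin 6) : Module.Finite K (win (CC K n) v) :=
  win_finite _ (fun _ => CC_finite _ _ _) (CC_finite _ _ _) v

/-- The windows of `C_{-1}` at the vertices `≠ 5` vanish. -/
theorem CC_win_zero {v : Fin 6} (hv : v ≠ 5) {z : (CC K (-1)).X × (CC K (-1)).X}
    (hz : z ∈ win (CC K (-1)) v) : z = 0 := by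
  have h0 : ∀ e, ∀ y ∈ (CC K (-1)).F 0 e, y = 0 := by
    intro e y hy
    have hy' : y ∈ CF K (-1) 0 e := hy
    unfold CF at hy'
    split_ifs at hy' with h
    · rw [S_neg (by norm_num)] at hy'
      exact (Submodule.mem_bot K).1 hy'
    · exact (Submodule.mem_bot K).1 hy'
  have hl : ∀ e, z ∈ lineW (CC K (-1)) 0 e → z = 0 := fun e hz =>
    Prod.ext (h0 _ _ hz.1) hz.2
  have hg : ∀ b, z ∈ gW (CC K (-1)) b → z = 0 := fun b hz =>
    Prod.ext (h0 _ _ hz.1) (h0 _ _ hz.2.1)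
  fin_cases v
  · exact hl _ hz
  · exact hl _ hz
  · exact hl _ hz
  · exact hg _ hz
  · exact hg _ hz
  · exact absurd rfl hv

/-! ### Maps into `S'` -/

section maps

variable {P : FMod K EOp (Bool × ℤ × ℤ)} {T : Fin 6 → GM K} {g : ∀ v, (T v).X × (T v).X}

/-- there are no maps from `J T` to an object with zero first component -/
theorem hom_J_zero (hP : ∀ v, IsRetract P (EM.J (T v)).toF) (hT : Reps T g) (v : Fin 6)
    {M : EM K} (hM : ∀ z ∈ win M.A v, z = 0)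
    (f : Win P (EM.J (T v)).toF →ₗ[WAlg P] Win P M.toF) : f = 0 := by
  obtain ⟨φ, hφ, rfl⟩ := (hP v).exists_map f
  obtain ⟨a, b, hab, rfl⟩ := exists_isE_of_mem hφ
  have h4 : IsE (EM.J (T v)) M 0 0 :=
    ⟨IsG.zero _ _, IsG.zero _ _, fun z => by simp only [indR_apply, LinearMap.zero_apply, map_zero], fun z => by simp⟩
  have h3 : a.prodMap a (g v) = 0 := hM _ (hab.gA.win v (hT v).mem)
  obtain ⟨h5, h6⟩ := (hT v).J_uniq hab h4 (by rw [h3]; simp only [LinearMap.prodMap_zero, LinearMap.zero_apply])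
  subst h5 h6
  apply LinearMap.ext
  intro φ
  apply Win.ext'
  ext x <;> rfl

/-- there are no maps from `J' T` to an object with zero window -/
theorem hom_J'_zero (hP : ∀ v, IsRetract P (EM.J' (T v)).toF) (hT : Reps T g) (v : Fin 6)
    {M : EM K} (hM : ∀ z ∈ win M.B v, z = 0)
    (f : Win P (EM.J' (T v)).toF →ₗ[WAlg P] Win P M.toF) : f = 0 := by
  obtain ⟨φ, hφ, rfl⟩ := (hP v).exists_map f
  obtain ⟨a, b, hab, rfl⟩ := exists_isE_of_mem hφ
  have h4 : IsE (EM.J' (T v)) M 0 0 :=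
    ⟨IsG.zero _ _, IsG.zero _ _, fun z => by simp, fun z => by simp only [LinearMap.zero_apply, map_zero]⟩
  have h3 := hM _ ((hT v).J'_mem hab)
  obtain ⟨h5, h6⟩ := (hT v).J'_uniq hab h4 (by rw [h3]; rfl)
  subst h5 h6
  apply LinearMap.ext
  intro φ
  apply Win.ext'
  ext x <;> rfl

/-- `J T_v` is orthogonal to `S'`. -/
theorem orth_J_S' (hP : ∀ v, IsRetract P (EM.J (T v)).toF) (hT : Reps T g) (v : Fin 6)
    (C : GM K) : Orth (WAlg P) (Win P (EM.J (T v)).toF) (Win P (EM.br' C).toF) := by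
  have := (hP v).projective
  exact orth_of_projective fun f => hom_J_zero hP hT v (fun z _ => Subsingleton.elim _ _) f

/-- `[T_v]` is orthogonal to `S' = [C]'` if the window of `C` at `v` vanishes. -/
theorem orth_br_S' (hB : IsBase P) (hP : ∀ v, IsRetract P (EM.J (T v)).toF)
    (hP' : ∀ v, IsRetract P (EM.J' (T v)).toF) (hT : Reps T g) (v : Fin 6)
    {C : GM K} (hC : ∀ z ∈ win C v, z = 0) :
    Orth (WAlg P) (Win P (EM.br (T v)).toF) (Win P (EM.br' C).toF) := by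
  have := (hP' v).projective
  refine ((ESES.J'_J_br (T v)).ses hB).orth_left₃ ?_ (orth_J_S' hP hT v C)
  exact orth_of_projective fun f => hom_J'_zero hP' hT v hC f

end maps

/-! ### Step D -/

section stepD

variable {P : FMod K EOp (Bool × ℤ × ℤ)} {N : Type u} [AddCommGroup N] [Module (WAlg P) N]

/-- `[C_n]` is orthogonal to every `N` which is orthogonal to the `[T_j]`, `j ≠ 5`. -/
theorem orth_br_CC [CharZero K] (hB : IsBase P) {g : ∀ v, (TT K v).X × (TT K v).X}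
    (hT : Reps (TT K) g) (hN : ∀ v, v ≠ 5 → Orth (WAlg P) (Win P (EM.br (TT K v)).toF) N)
    {n : ℤ} (hn : 0 ≤ n) : Orth (WAlg P) (Win P (EM.br (CC K n)).toF) N :=
  orth_br_of_kappa hB hT kappa_TT TT_win_finite hN _ (kappa_CC hn) (CC_win_finite n)

/-- **Step D**, relative to the orthogonality of `J C_n`. -/
theorem orth_De_of_J [CharZero K] (hB : IsBase P) {g : ∀ v, (TT K v).X × (TT K v).X}
    (hT : Reps (TT K) g) (hN : ∀ v, v ≠ 5 → Orth (WAlg P) (Win P (EM.br (TT K v)).toF) N)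
    (hJ : ∀ n : ℤ, -1 ≤ n → Orth (WAlg P) (Win P (EM.J (CC K n)).toF) N)
    {n : ℤ} (hn : -1 ≤ n) : Orth (WAlg P) (Win P (EM.De (CC K n)).toF) N := by
  have hW : ∀ n : ℤ, -1 ≤ n → Orth (WAlg P) (Win P (EM.W (CC K n)).toF) N := by
    intro n hn
    have h1 := (ESES.J_W_br (CC K n)).ses hB
    refine h1.orth_left₂ (hJ n hn) ?_
    rw [CC_tau]
    exact orth_br_CC hB hT hN (by omega)
  have key : ∀ (i : ℕ) (n : ℤ), -1 ≤ n → EZ (WAlg P) i (Win P (EM.De (CC K n)).toF) N := by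
    intro i
    induction i with
    | zero =>
      intro n hn
      rw [ez_zero_iff]
      intro f
      have h1 := (ESES.De_W_De (CC K n)).ses hB
      have h2 := (hW n hn).hom (f ∘ₗ (ESES.De_W_De (CC K n)).e'.map P)
      apply LinearMap.ext
      intro x
      obtain ⟨y, rfl⟩ := h1.surj x
      exact LinearMap.congr_fun h2 y
    | succ i ih =>
      intro n hn
      have h1 := (ESES.De_W_De (CC K n)).ses hB
      have h2 := ih (n + 1) (by omega)
      rw [← CC_tau] at h2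
      exact h1.ez_right h2 (hW n hn (i + 1))
  exact fun i => key i n hn

end stepD

end Vale.Agent.P195.Van
end
end

section

section

/-!
# P195 (vanishing version), Step C: orthogonality of `Q = Δ C_{-1}` to `[T_w]`, `w ≠ 5`
-/

open Vale.Agent.P195.Weyl Function

namespace Vale.Agent.P195.Van

universe u

/-! ### Splicing three short exact sequences -/

section splice

variable {R : Type u} [Ring R] {A3 A2 A1 A0 B1 B0 Q N : Type u}
  [AddCommGroup A3] [Module R A3] [AddCommGroup A2] [Module R A2] [AddCommGroup A1] [Module R A1]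
  [AddCommGroup A0] [Module R A0] [AddCommGroup B1] [Module R B1] [AddCommGroup B0] [Module R B0]
  [AddCommGroup Q] [Module R Q] [AddCommGroup N] [Module R N]

theorem exact_splice {A B C D : Type*} [AddCommGroup A] [AddCommGroup B] [AddCommGroup C]
    [AddCommGroup D] [Module R A] [Module R B] [Module R C] [Module R D] {f : A →ₗ[R] B}
    {g : B →ₗ[R] C} {h : C →ₗ[R] D} (hfg : Exact f g) (hh : Injective h) :
    Exact f (h ∘ₗ g) := by
  intro x
  rw [← hfg x, LinearMap.comp_apply]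
  exact map_eq_zero_iff h hh

theorem exact_splice' {A B C D : Type*} [AddCommGroup A] [AddCommGroup B] [AddCommGroup C]
    [AddCommGroup D] [Module R A] [Module R B] [Module R C] [Module R D] {f : A →ₗ[R] B}
    {g : B →ₗ[R] C} {h : C →ₗ[R] D} (hf : Surjective f) (hgh : Exact g h) :
    Exact (g ∘ₗ f) h := by
  intro x
  rw [hgh x]
  constructor
  · rintro ⟨y, rfl⟩
    obtain ⟨z, rfl⟩ := hf y
    exact ⟨z, rfl⟩
  · rintro ⟨z, rfl⟩
    exact ⟨f z, rfl⟩

/-- Orthogonality from a spliced resolution of length three. -/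
theorem orth_of_splice3 [Module.Projective R A0] [Module.Projective R A1]
    [Module.Projective R A2] [Module.Projective R A3] {f3 : A3 →ₗ[R] A2} {g2 : A2 →ₗ[R] B1}
    {f2 : B1 →ₗ[R] A1} {g1 : A1 →ₗ[R] B0} {f1 : B0 →ₗ[R] A0} {g0 : A0 →ₗ[R] Q}
    (s3 : SES f3 g2) (s2 : SES f2 g1) (s1 : SES f1 g0)
    (h0 : ∀ f : A0 →ₗ[R] N, f ∘ₗ (f1 ∘ₗ g1) = 0 → f = 0)
    (h1 : ∀ f : A1 →ₗ[R] N, f ∘ₗ (f2 ∘ₗ g2) = 0 → ∃ g : A0 →ₗ[R] N, g ∘ₗ (f1 ∘ₗ g1) = f)
    (h2 : ∀ f : A2 →ₗ[R] N, f ∘ₗ f3 = 0 → ∃ g : A1 →ₗ[R] N, g ∘ₗ (f2 ∘ₗ g2) = f)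
    (h3 : ∀ f : A3 →ₗ[R] N, ∃ g : A2 →ₗ[R] N, g ∘ₗ f3 = f) : Orth R Q N :=
  orth_of_res3 g0 (f1 ∘ₗ g1) (f2 ∘ₗ g2) f3 s1.surj (exact_splice' s2.surj s1.exact)
    (exact_splice' s3.surj (exact_splice s2.exact s1.inj)) (exact_splice s3.exact s2.inj)
    s3.inj h0 h1 h2 h3

end splice

variable {K : Type u} [Field K]

/-! ### Maps `J Z → [F]` -/

theorem IsG.Jbr {Z F : GM K} {a : Z.X →ₗ[K] F.X} (h : IsG Z F a) :
    IsE (EM.J Z) (EM.br F) a 0 :=
  ⟨h, IsG.zero _ _, fun _ => rfl, fun _ => rfl⟩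

theorem exists_Jbr {Z F : GM K} (hZ : PRet (EM.J Z)) (φ : Md (EM.J Z) →ₗ[RR K] Md (EM.br F)) :
    ∃ a, ∃ h : IsG Z F a, φ = Md.map h.Jbr := by
  obtain ⟨a, b, e, rfl⟩ := hZ.exists_map φ
  exact ⟨a, e.gA, Md.map_congr e _ rfl (LinearMap.ext fun _ => Subsingleton.elim _ _)⟩

theorem Jbr_comp {Z Z' F : GM K} {a : Z.X →ₗ[K] F.X} (h : IsG Z F a) {f : Z'.X →ₗ[K] Z.X}
    (hf : IsG Z' Z f) : Md.map h.Jbr ∘ₗ Md.map hf.J = Md.map (h.comp hf).Jbr :=
  (Md.map_comp hf.J h.Jbr).trans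
    (Md.map_congr _ _ rfl (LinearMap.ext fun _ => Subsingleton.elim _ _))

theorem Jbr_eq_zero {Z F : GM K} (hZ : PRet (EM.J Z)) {a : Z.X →ₗ[K] F.X} (h : IsG Z F a)
    (h0 : Md.map h.Jbr = 0) : a = 0 := (hZ.map_eq_zero h.Jbr h0).1

theorem Jbr_congr {Z F : GM K} {a a' : Z.X →ₗ[K] F.X} (h : IsG Z F a) (h' : IsG Z F a')
    (e : a = a') : Md.map h.Jbr = Md.map h'.Jbr := Md.map_congr _ _ e rfl

theorem Jbr_zero {Z F : GM K} {a : Z.X →ₗ[K] F.X} (h : IsG Z F a) (e : a = 0) :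
    Md.map h.Jbr = 0 := Md.map_eq_zero' _ e rfl

/-! ### The four Hom conditions -/

section kappa

variable {F : GM K}

/-- maps out of `T_6` -/
theorem T6_val {a : D K →ₗ[K] F.X} (h : IsG (OO K (-1) 2) F a) : a 1 ∈ F.F 1 (-2) :=
  (IsG.win (A := TT K 5) h 5 (TT_rep 5).mem).1

theorem T6_ex {z : F.X} (hz : z ∈ F.F 1 (-2)) :
    ∃ a : D K →ₗ[K] F.X, IsG (OO K (-1) 2) F a ∧ a 1 = z := by
  obtain ⟨a, ha, h⟩ := (TT_rep (K := K) 5).ex F (z, 0) ⟨hz, rfl⟩
  exact ⟨a, ha, congrArg Prod.fst h⟩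

theorem T6_uniq {a a' : D K →ₗ[K] F.X} (h : IsG (OO K (-1) 2) F a)
    (h' : IsG (OO K (-1) 2) F a') (e : a 1 = a' 1) : a = a' := by
  refine (TT_rep (K := K) 5).uniq F a a' h h' ?_
  exact Prod.ext e (by change a 0 = a' 0; rw [map_zero, map_zero])

/-- maps out of `O(0,1)` -/
theorem O1_val {a : D K →ₗ[K] F.X} (h : IsG (OO K 0 1) F a) : a 1 ∈ F.F 0 (-1) :=
  (IsG.win (A := TT K 1) h 1 (TT_rep 1).mem).1

theorem O1_ex {z : F.X} (hz : z ∈ F.F 0 (-1)) :
    ∃ a : D K →ₗ[K] F.X, IsG (OO K 0 1) F a ∧ a 1 = z := by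
  obtain ⟨a, ha, h⟩ := (TT_rep (K := K) 1).ex F (z, 0) ⟨hz, rfl⟩
  exact ⟨a, ha, congrArg Prod.fst h⟩

theorem O1_uniq {a a' : D K →ₗ[K] F.X} (h : IsG (OO K 0 1) F a)
    (h' : IsG (OO K 0 1) F a') (e : a 1 = a' 1) : a = a' := by
  refine (TT_rep (K := K) 1).uniq F a a' h h' ?_
  exact Prod.ext e (by change a 0 = a' 0; rw [map_zero, map_zero])

/-- maps out of `G_0` -/
theorem G0_val {a : (D K × D K) →ₗ[K] F.X} (h : IsG (GG K 0) F a) :
    a (1, 0) ∈ F.F 0 0 ∧ a (0, 1) ∈ F.F 0 0 ∧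
      F.x 1 (a (1, 0)) - F.x 0 (a (0, 1)) ∈ F.F 1 (-2) := by
  have h1 := IsG.win (A := TT K 3) h 3 (TT_rep 3).mem
  obtain ⟨h1, h2, h3⟩ := h1
  rw [neg_zero] at h1 h2
  exact ⟨h1, h2, h3⟩

theorem G0_ex {p q : F.X} (hp : p ∈ F.F 0 0) (hq : q ∈ F.F 0 0)
    (hpq : F.x 1 p - F.x 0 q ∈ F.F 1 (-2)) :
    ∃ a : (D K × D K) →ₗ[K] F.X, IsG (GG K 0) F a ∧ a (1, 0) = p ∧ a (0, 1) = q := by
  obtain ⟨a, ha, h⟩ := (TT_rep (K := K) 3).ex F (p, q) (by
    refine ⟨?_, ?_, hpq⟩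
    · rw [neg_zero]; exact hp
    · rw [neg_zero]; exact hq)
  exact ⟨a, ha, congrArg Prod.fst h, congrArg Prod.snd h⟩

theorem G0_uniq {a a' : (D K × D K) →ₗ[K] F.X} (h : IsG (GG K 0) F a)
    (h' : IsG (GG K 0) F a') (e1 : a (1, 0) = a' (1, 0)) (e2 : a (0, 1) = a' (0, 1)) : a = a' :=
  (TT_rep (K := K) 3).uniq F a a' h h' (Prod.ext e1 e2)

/-! values of the maps on generators -/

theorem nu_left : inc K (nu (K := K) (1, 0)) = Ld 0 1 := by
  change Rd 0 (1 : D K) + Rd 1 (0 : D K) = Ld 0 1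
  rw [map_zero, add_zero, Rd_one, Ld_one]

theorem nu_right : inc K (nu (K := K) (0, 1)) = Ld 1 1 := by
  change Rd 0 (0 : D K) + Rd 1 (1 : D K) = Ld 1 1
  rw [map_zero, zero_add, Rd_one, Ld_one]

theorem Rd_Rx_one (i j : Fin 2) : Rd i (Rx j (1 : D K)) = Lx j (Ld i 1) := by
  rw [Rx_one, ← Lx_one, ← Lx_Rd, Rd_one, Ld_one]

theorem kk_mu_left : kk (mu (K := K) (1, 0)) = (Lx 0 (Ld 1 1), - Lx 0 (Ld 0 1)) := by
  rw [mu_apply, map_zero, add_zero, kk_apply, Rd_Rx_one, Rd_Rx_one]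

theorem kk_mu_right : kk (mu (K := K) (0, 1)) = (Lx 1 (Ld 1 1), - Lx 1 (Ld 0 1)) := by
  rw [mu_apply, map_zero, zero_add, kk_apply, Rd_Rx_one, Rd_Rx_one]

theorem jj_one : jj (1 : D K) = Lx2 1 (1, 0) - Lx2 0 (0, 1) := by
  rw [jj_apply, Lx2_apply, Lx2_apply, map_zero, map_zero, Rx_one, Rx_one, Lx_one, Lx_one]
  ext1 <;> simp only [Fin.isValue, Prod.mk_sub_mk, sub_zero, zero_sub]

theorem kk_aux (i : Fin 2) : ((Lx i (Ld 1 1), - Lx i (Ld 0 1)) : D K × D K) =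
    ((Lx i).prodMap (Lx i)) (((Ld 1).prodMap (Ld 1)) (1, 0) - ((Ld 0).prodMap (Ld 0)) (0, 1)) := by
  refine Prod.ext ?_ ?_
  · simp only [LinearMap.prodMap_apply, map_zero, Prod.fst_sub, sub_zero]
  · simp only [LinearMap.prodMap_apply, Prod.snd_sub, map_zero, zero_sub, map_neg]

/-- the value of `a ∘ kk ∘ mu` on the generators -/
theorem kk_mu_val {a : (D K × D K) →ₗ[K] F.X} (h : IsG ((OO K 0 1).prod (OO K 0 1)) F a)
    (i : Fin 2) : a (Lx i (Ld 1 1), - Lx i (Ld 0 1)) =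
      F.x i (F.d 1 (a (1, 0)) - F.d 0 (a (0, 1))) := by
  rw [kk_aux]
  refine (h.x i _).trans (congrArg (F.x i) ?_)
  rw [map_sub]
  congr 1
  · exact h.d 1 (1, 0)
  · exact h.d 0 (0, 1)

/-- the four Hom conditions for `F` with exact `κ(F)` -/
theorem cond0 (hF : Kappa F) {a : D K →ₗ[K] F.X} (h : IsG (OO K (-1) 2) F a)
    (h0 : a ∘ₗ (inc K ∘ₗ nu) = 0) : a = 0 := by
  refine T6_uniq h (IsG.zero _ _) ?_
  rw [LinearMap.zero_apply]
  refine hF.k0 _ (T6_val h) ?_ ?_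
  · have h1 : a (inc K (nu (1, 0))) = 0 := LinearMap.congr_fun h0 (1, 0)
    rw [nu_left] at h1
    exact (h.d 0 1).symm.trans h1
  · have h1 : a (inc K (nu (0, 1))) = 0 := LinearMap.congr_fun h0 (0, 1)
    rw [nu_right] at h1
    exact (h.d 1 1).symm.trans h1

theorem prod_ext' {Y : Type*} [AddCommGroup Y] [Module K Y] {a a' : (D K × D K) →ₗ[K] Y}
    (h1 : a ∘ₗ LinearMap.inl K (D K) (D K) = a' ∘ₗ LinearMap.inl K (D K) (D K))
    (h2 : a ∘ₗ LinearMap.inr K (D K) (D K) = a' ∘ₗ LinearMap.inr K (D K) (D K)) : a = a' :=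
  LinearMap.prod_ext h1 h2

/-- maps out of `O(0,1)²` agree if they agree on the generators -/
theorem O1sq_uniq {a a' : (D K × D K) →ₗ[K] F.X} (h : IsG ((OO K 0 1).prod (OO K 0 1)) F a)
    (h' : IsG ((OO K 0 1).prod (OO K 0 1)) F a') (e1 : a (1, 0) = a' (1, 0))
    (e2 : a (0, 1) = a' (0, 1)) : a = a' := by
  refine prod_ext' ?_ ?_
  · exact O1_uniq (h.comp (isG_inl _ _)) (h'.comp (isG_inl _ _)) e1
  · exact O1_uniq (h.comp (isG_inr _ _)) (h'.comp (isG_inr _ _)) e2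

theorem O1sq_val {a : (D K × D K) →ₗ[K] F.X} (h : IsG ((OO K 0 1).prod (OO K 0 1)) F a) :
    a (1, 0) ∈ F.F 0 (-1) ∧ a (0, 1) ∈ F.F 0 (-1) :=
  ⟨O1_val (h.comp (isG_inl (OO K 0 1) (OO K 0 1))),
    O1_val (h.comp (isG_inr (OO K 0 1) (OO K 0 1)))⟩

theorem O1sq_ex {p q : F.X} (hp : p ∈ F.F 0 (-1)) (hq : q ∈ F.F 0 (-1)) :
    ∃ a : (D K × D K) →ₗ[K] F.X, IsG ((OO K 0 1).prod (OO K 0 1)) F a ∧ a (1, 0) = p ∧
      a (0, 1) = q := by
  obtain ⟨a, ha, h1⟩ := O1_ex hp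
  obtain ⟨b, hb, h2⟩ := O1_ex hq
  refine ⟨a.coprod b, ha.coprod hb, ?_, ?_⟩
  · change a 1 + b 0 = p
    rw [map_zero, add_zero, h1]
  · change a 0 + b 1 = q
    rw [map_zero, zero_add, h2]

theorem isG_d1 : IsG ((OO K 0 1).prod (OO K 0 1)) (OO K (-1) 2) (inc K ∘ₗ nu) :=
  (isG_inc (-1)).comp (isG_nu (-1) 0 (by norm_num))

theorem isG_d2 : IsG (GG K 0) ((OO K 0 1).prod (OO K 0 1)) (kk ∘ₗ mu) :=
  (isG_kk 1 0 0 1 (by norm_num) (by norm_num)).comp (isG_muG 0)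

theorem cond1 (hF : Kappa F) {a : (D K × D K) →ₗ[K] F.X}
    (h : IsG ((OO K 0 1).prod (OO K 0 1)) F a) (h0 : a ∘ₗ (kk ∘ₗ mu) = 0) :
    ∃ a' : D K →ₗ[K] F.X, IsG (OO K (-1) 2) F a' ∧ a' ∘ₗ (inc K ∘ₗ nu) = a := by
  have e1 : a (kk (mu (1, 0))) = 0 := LinearMap.congr_fun h0 (1, 0)
  have e2 : a (kk (mu (0, 1))) = 0 := LinearMap.congr_fun h0 (0, 1)
  rw [kk_mu_left, kk_mu_val h] at e1
  rw [kk_mu_right, kk_mu_val h] at e2
  obtain ⟨f, hf, h1, h2⟩ := hF.k1 _ (O1sq_val h).1 _ (O1sq_val h).2 e1 e2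
  obtain ⟨a', ha', h3⟩ := T6_ex hf
  refine ⟨a', ha', O1sq_uniq (ha'.comp isG_d1) h ?_ ?_⟩
  · change a' (inc K (nu (1, 0))) = a (1, 0)
    rw [nu_left, h1, ← h3]
    exact ha'.d 0 1
  · change a' (inc K (nu (0, 1))) = a (0, 1)
    rw [nu_right, h2, ← h3]
    exact ha'.d 1 1

theorem cond2 (hF : Kappa F) {a : (D K × D K) →ₗ[K] F.X} (h : IsG (GG K 0) F a)
    (h0 : a ∘ₗ jj = 0) : ∃ a' : (D K × D K) →ₗ[K] F.X,
      IsG ((OO K 0 1).prod (OO K 0 1)) F a' ∧ a' ∘ₗ (kk ∘ₗ mu) = a := by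
  have e1 : a (jj 1) = 0 := LinearMap.congr_fun h0 1
  have e2 : F.x 1 (a (1, 0)) = F.x 0 (a (0, 1)) := by
    rw [jj_one, map_sub] at e1
    have e3 := sub_eq_zero.1 e1
    exact (h.x 1 (1, 0)).symm.trans (e3.trans (h.x 0 (0, 1)))
  obtain ⟨g, hg, g', hg', h1, h2⟩ := hF.k2 _ (G0_val h).1 _ (G0_val h).2.1 e2
  obtain ⟨a', ha', h3, h4⟩ := O1sq_ex hg hg'
  refine ⟨a', ha', G0_uniq (ha'.comp isG_d2) h ?_ ?_⟩
  · change a' (kk (mu (1, 0))) = a (1, 0)
    rw [kk_mu_left, kk_mu_val ha', h3, h4, h1]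
  · change a' (kk (mu (0, 1))) = a (0, 1)
    rw [kk_mu_right, kk_mu_val ha', h3, h4, h2]

theorem cond3 (hF : Kappa F) {a : D K →ₗ[K] F.X} (h : IsG (OO K (-1) 2) F a) :
    ∃ a' : (D K × D K) →ₗ[K] F.X, IsG (GG K 0) F a' ∧ a' ∘ₗ jj = a := by
  obtain ⟨p, hp, q, hq, h1⟩ := hF.k3 _ (T6_val h)
  obtain ⟨a', ha', h2, h3⟩ := G0_ex hp hq (by rw [h1]; exact T6_val h)
  refine ⟨a', ha', T6_uniq (ha'.comp (isG_jjG 0)) h ?_⟩
  change a' (jj 1) = a 1
  rw [jj_one, map_sub, ← h1, ← h2, ← h3]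
  congr 1
  · exact ha'.x 1 (1, 0)
  · exact ha'.x 0 (0, 1)

end kappa

/-! ### `Orth (J C_{-1}) [F]` -/

theorem orth_J_CC_br {F : GM K} (hF : Kappa F) :
    Orth (RR K) (Md (EM.J (CC K (-1)))) (Md (EM.br F)) := by
  have hT : RepT K := TT_rep
  have p5 : PRet (EM.J (OO K (-1) 2)) := (SumT.t (K := K) 5).J
  have p3 : PRet (EM.J (GG K 0)) := (SumT.t (K := K) 3).J
  have p1 : PRet (EM.J ((OO K 0 1).prod (OO K 0 1))) :=
    (SumT.prod (TT K 1) (TT K 1) (SumT.t 1) (SumT.t 1)).J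
  have q5 := p5.projective
  have q3 := p3.projective
  have q1 := p1.projective
  have s3 := ((gses_s1 (K := K) (b := 0) (by norm_num)).J
    (gses_s1_tau (K := K) (b := 0) (by norm_num))).md hT
  have s2 := ((gses_s3 (K := K) (a := 1) (n := -1) (n' := 0) (by norm_num) (by norm_num)
    (by norm_num)).J (gses_s3_tau (K := K) (a := 1) (n := -1) (n' := 0) (by norm_num)
    (by norm_num) (by norm_num))).md hT
  have s1 := ((gses_s4 (K := K) (n := -1) (by norm_num)).J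
    (gses_s4_tau (K := K) (n := -1) (by norm_num))).md hT
  refine orth_of_splice3 s3 s2 s1 ?_ ?_ ?_ ?_
  · intro f hf
    obtain ⟨a, ha, rfl⟩ := exists_Jbr p5 f
    have h1 : Md.map (ha.comp isG_d1).Jbr = 0 := (Jbr_comp ha isG_d1).symm.trans hf
    exact Jbr_zero ha (cond0 hF ha (Jbr_eq_zero p1 (ha.comp isG_d1) h1))
  · intro f hf
    obtain ⟨a, ha, rfl⟩ := exists_Jbr p1 f
    have h1 : Md.map (ha.comp isG_d2).Jbr = 0 := (Jbr_comp ha isG_d2).symm.trans hf
    obtain ⟨a', ha', h2⟩ := cond1 hF ha (Jbr_eq_zero p3 (ha.comp isG_d2) h1)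
    exact ⟨Md.map ha'.Jbr, (Jbr_comp ha' isG_d1).trans (Jbr_congr (ha'.comp isG_d1) ha h2)⟩
  · intro f hf
    obtain ⟨a, ha, rfl⟩ := exists_Jbr p3 f
    have h1 : Md.map (ha.comp (isG_jjG 0)).Jbr = 0 := (Jbr_comp ha (isG_jjG 0)).symm.trans hf
    obtain ⟨a', ha', h2⟩ := cond2 hF ha (Jbr_eq_zero p5 (ha.comp (isG_jjG 0)) h1)
    exact ⟨Md.map ha'.Jbr, (Jbr_comp ha' isG_d2).trans (Jbr_congr (ha'.comp isG_d2) ha h2)⟩
  · intro f
    obtain ⟨a, ha, rfl⟩ := exists_Jbr p5 f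
    obtain ⟨a', ha', h2⟩ := cond3 hF ha
    exact ⟨Md.map ha'.Jbr,
      (Jbr_comp ha' (isG_jjG 0)).trans (Jbr_congr (ha'.comp (isG_jjG 0)) ha h2)⟩

end Vale.Agent.P195.Van
end
end

section

section

/-!
# P195 (vanishing version): projectivity of the twelve modules, and `P_{K6}` is not a summand
of a power of the sum of the ten others
-/

open Vale.Agent.P195.Weyl MvPolynomial

namespace Vale.Agent.P195.Van

universe u

variable {K : Type u} [Field K]

theorem PRet_PE (v : Bool × Fin 6) : PRet (PE K v) :=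
  FMod.isRetract_factor (fun v : Bool × Fin 6 => (PE K v).toF) v

theorem projective_PE (v : Bool × Fin 6) : Module.Projective (RR K) (Md (PE K v)) :=
  (PRet_PE v).projective

theorem finite_PE (v : Bool × Fin 6) : Module.Finite (RR K) (Md (PE K v)) := (PRet_PE v).finite

variable (K) in
/-- the constant coefficient -/
noncomputable def eps : D K →ₗ[K] K :=
  (aeval (fun _ => (0 : K)) : D K →ₐ[K] K).toLinearMap

theorem eps_Lx (i : Fin 2) (f : D K) : eps K (Lx i f) = 0 := by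
  simp [eps, Lx_apply]

theorem eps_one : eps K (1 : D K) = 1 := by simp only [eps, AlgHom.toLinearMap_apply, aeval_zero', Algebra.algebraMap_self, map_one, RingHom.id_apply]

/-- elements of weight `1` and order `-2` come from weight `0`, away from the sixth vertex -/
theorem gen_PE {v : Bool × Fin 6} (hv : v.2 ≠ 5) {f : (PE K v).A.X}
    (hf : f ∈ (PE K v).A.F 1 (-2)) :
    ∃ p q, f = (PE K v).A.x 1 p - (PE K v).A.x 0 q := by
  obtain ⟨b, i⟩ := v
  cases b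
  · exact ⟨0, 0, Subsingleton.elim (α := PUnit) _ _⟩
  · obtain ⟨p, _, q, _, h⟩ := (kappa_TT i hv).k3 f hf
    exact ⟨p, q, h.symm⟩

variable (K) in
/-- the universal element of `Md (PE K v)` -/
noncomputable def uPE (v : Bool × Fin 6) : Md (PE K v) :=
  Win.mk (LinearMap.proj v) (FMod.proj_mem (fun v : Bool × Fin 6 => (PE K v).toF) v)

variable (K) in
/-- the generator of `P_{K6}` as an element of the sum of the twelve objects -/
noncomputable def e5 : (PP K).X :=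
  LinearMap.single K (fun v : Bool × Fin 6 => (PE K v).toF.X) (true, 5)
    (((1 : D K), (0 : D K × D K)) : D K × (D K × D K))

variable (K) in
/-- the constant coefficient of the value at the generator -/
noncomputable def epsM : Md (PE K (true, 5)) →+ K where
  toFun φ := eps K (Win.toLin (P := PP K) (X := (PE K (true, 5)).toF) φ (e5 K)).1
  map_zero' := by
    show eps K (0 : D K × (D K × D K)).1 = 0
    simp
  map_add' φ ψ := map_add (eps K) _ _

theorem epsM_u : epsM K (uPE K (true, 5)) = 1 := by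
  show eps K (LinearMap.proj (R := K) (φ := fun v : Bool × Fin 6 => (PE K v).toF.X) (true, 5)
    (e5 K)).1 = 1
  unfold e5
  rw [LinearMap.proj_apply, LinearMap.single_apply, Pi.single_eq_same]
  exact eps_one

theorem epsM_comp {v : Bool × Fin 6} (hv : v.2 ≠ 5)
    (p : Md (PE K (true, 5)) →ₗ[RR K] Md (PE K v)) (q : Md (PE K v) →ₗ[RR K] Md (PE K (true, 5))) :
    epsM K (q (p (uPE K (true, 5)))) = 0 := by
  obtain ⟨a, b, e, rfl⟩ := (PRet_PE (K := K) (true, 5)).exists_map p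
  obtain ⟨a', b', e', rfl⟩ := (PRet_PE (K := K) v).exists_map q
  have h1 : epsM K (Md.map e' (Md.map e (uPE K (true, 5)))) = eps K (a' (a (1 : D K))) := by
    show eps K (a' (a ((e5 K) (true, 5)).1)) = _
    unfold e5
    rw [LinearMap.single_apply, Pi.single_eq_same]
  rw [h1]
  have h2 : a (1 : D K) ∈ (PE K v).A.F 1 (-2) := e.gA.F 1 (-2) _ (by
    show (1 : D K) ∈ V K (-1 + 1) (2 + -2)
    exact cV one_mem_V (by ring) (by ring))
  obtain ⟨r, s, hrs⟩ := gen_PE hv h2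
  rw [hrs, map_sub, e'.gA.x, e'.gA.x, map_sub]
  show eps K (Lx 1 (a' r)) - eps K (Lx 0 (a' s)) = 0
  rw [eps_Lx, eps_Lx, sub_zero]

theorem eps_pi_zero {R : Type*} [Ring R] {A : Type*} [AddCommGroup A] [Module R A] {L : Type*}
    [AddCommGroup L] {T : Type*} [Fintype T] [DecidableEq T] (F : T → Type*)
    [∀ v, AddCommGroup (F v)] [∀ v, Module R (F v)] (ε : A →+ L) (u : A)
    (h : ∀ v (p : A →ₗ[R] F v) (q : F v →ₗ[R] A), ε (q (p u)) = 0) (k : ℕ)
    (p : A →ₗ[R] (Fin k → ∀ v, F v)) (q : (Fin k → ∀ v, F v) →ₗ[R] A) : ε (q (p u)) = 0 := by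
  have h2 : ∀ y : Fin k → ∀ v, F v, y = ∑ j, ∑ v, LinearMap.single R (fun _ => ∀ v, F v) j
        (LinearMap.single R F v (y j v)) := by
    intro y
    have e1 : ∀ j, ∑ v, LinearMap.single R (fun _ : Fin k => ∀ v, F v) j
        (LinearMap.single R F v (y j v)) = LinearMap.single R (fun _ => ∀ v, F v) j (y j) := by
      intro j
      rw [← map_sum]
      congr 1
      exact LinearMap.sum_single_apply F (y j)
    rw [Finset.sum_congr rfl fun j _ => e1 j]
    exact (LinearMap.sum_single_apply (fun _ : Fin k => ∀ v, F v) y).symm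
  rw [h2 (p u), map_sum, map_sum]
  refine Finset.sum_eq_zero fun j _ => ?_
  rw [map_sum, map_sum]
  refine Finset.sum_eq_zero fun v _ => ?_
  exact h v (LinearMap.proj v ∘ₗ LinearMap.proj j ∘ₗ p)
      (q ∘ₗ LinearMap.single R (fun _ : Fin k => ∀ v, F v) j ∘ₗ LinearMap.single R F v)

/-- the identity of `P_{K6}` does not factor through a power of the sum of the ten others -/
theorem k0' : ¬ ∃ (k : ℕ)
    (p : Md (PE K (true, 5)) →ₗ[RR K]
      (Fin k → ∀ v : {v : Bool × Fin 6 // v.2 ≠ 5}, Md (PE K v.1)))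
    (q : (Fin k → ∀ v : {v : Bool × Fin 6 // v.2 ≠ 5}, Md (PE K v.1)) →ₗ[RR K]
      Md (PE K (true, 5))),
      q ∘ₗ p = LinearMap.id := by
  rintro ⟨k, p, q, h⟩
  have h1 : epsM K (q (p (uPE K (true, 5)))) = 1 := by
    have := LinearMap.congr_fun h (uPE K (true, 5))
    rw [LinearMap.comp_apply, LinearMap.id_apply] at this
    rw [this, epsM_u]
  have h2 := eps_pi_zero (R := RR K) (fun v : {v : Bool × Fin 6 // v.2 ≠ 5} => Md (PE K v.1))
    (epsM K) (uPE K (true, 5)) (fun v p q => epsM_comp v.2 p q) k p q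
  rw [h2] at h1
  exact zero_ne_one h1

end Vale.Agent.P195.Van
end
end

section

section

/-!
# P195 (vanishing version), Step C: `Q = Δ C_{-1}` is orthogonal to `[F]`
-/

open Vale.Agent.P195.Weyl Function

namespace Vale.Agent.P195.Van

universe u

variable {K : Type u} [Field K]

/-! ### Finiteness of `Md M` -/

/-- `Md M` is finite-dimensional if all windows are. -/
theorem Md.finite_of_win {M : EM K} (hA : ∀ i, Module.Finite K (win M.A i))
    (hB : ∀ i, Module.Finite K (win M.B i)) : Module.Finite K (Md M) := by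
  have key : ∀ v : Bool × Fin 6, Module.Finite K (FHom (PE K v).toF M.toF) := by
    rintro ⟨b, i⟩
    have hT := TT_rep (K := K) i
    cases b
    · have := hB i
      let F : FHom (PE K (false, i)).toF M.toF →ₗ[K] win M.B i :=
        { toFun := fun φ => ⟨((φ.1 (0, ((gen K i).1, 0))).2, (φ.1 (0, ((gen K i).2, 0))).2), by
            obtain ⟨a, b, hab, h⟩ := exists_isE_of_mem φ.2
            have h1 := hT.J'_mem hab
            rw [h]
            exact h1⟩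
          map_add' := fun _ _ => rfl
          map_smul' := fun _ _ => rfl }
      refine Module.Finite.of_injective F fun φ ψ hφψ => Subtype.ext ?_
      obtain ⟨a, b, hab, h⟩ := exists_isE_of_mem φ.2
      obtain ⟨a', b', hab', h'⟩ := exists_isE_of_mem ψ.2
      have h1 := congrArg Subtype.val hφψ
      change ((φ.1 (0, ((gen K i).1, 0))).2, (φ.1 (0, ((gen K i).2, 0))).2) =
        ((ψ.1 (0, ((gen K i).1, 0))).2, (ψ.1 (0, ((gen K i).2, 0))).2) at h1
      rw [h, h'] at h1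
      obtain ⟨h2, h3⟩ := hT.J'_uniq hab hab' h1
      rw [h, h', h2, h3]
    · have := hA i
      let F : FHom (PE K (true, i)).toF M.toF →ₗ[K] win M.A i :=
        { toFun := fun φ => ⟨((φ.1 ((gen K i).1, 0)).1, (φ.1 ((gen K i).2, 0)).1), by
            obtain ⟨a, b, hab, h⟩ := exists_isE_of_mem φ.2
            have h1 := hab.gA.win i hT.mem
            rw [h]
            exact h1⟩
          map_add' := fun _ _ => rfl
          map_smul' := fun _ _ => rfl }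
      refine Module.Finite.of_injective F fun φ ψ hφψ => Subtype.ext ?_
      obtain ⟨a, b, hab, h⟩ := exists_isE_of_mem φ.2
      obtain ⟨a', b', hab', h'⟩ := exists_isE_of_mem ψ.2
      have h1 := congrArg Subtype.val hφψ
      change ((φ.1 ((gen K i).1, 0)).1, (φ.1 ((gen K i).2, 0)).1) =
        ((ψ.1 ((gen K i).1, 0)).1, (ψ.1 ((gen K i).2, 0)).1) at h1
      rw [h, h'] at h1
      obtain ⟨h2, h3⟩ := hT.J_uniq hab hab' h1
      rw [h, h', h2, h3]
  exact Win.finite key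

theorem Md.finite_RR_of_win {M : EM K} (hA : ∀ i, Module.Finite K (win M.A i))
    (hB : ∀ i, Module.Finite K (win M.B i)) : Module.Finite (RR K) (Md M) := by
  have := Md.finite_of_win hA hB
  exact Module.Finite.of_restrictScalars_finite K (RR K) (Md M)

theorem zero_win_finite (i : Fin 6) : Module.Finite K (win (GM.zero K) i) :=
  Module.Finite.of_injective (0 : win (GM.zero K) i →ₗ[K] K) fun _ _ _ =>
    Subtype.ext (Subsingleton.elim _ _)

/-! ### The two halves of the ring -/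

/-- the sum of the `J T_i` -/
abbrev PKm (K : Type u) [Field K] : Type u := ∀ i : Fin 6, Md (PE K (true, i))
/-- the sum of the `J' T_i` -/
abbrev PLm (K : Type u) [Field K] : Type u := ∀ i : Fin 6, Md (PE K (false, i))

/-- the sum data of `PP K` -/
noncomputable def sumPP (K : Type u) [Field K] :
    SumData (PP K) (fun v : Bool × Fin 6 => (PE K v).toF) :=
  SumData.pi fun v : Bool × Fin 6 => (PE K v).toF

/-- `Md (PE v) → R` -/
noncomputable def toRR (v : Bool × Fin 6) : Md (PE K v) →ₗ[RR K] RR K := (sumPP K).toAlg v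

/-- the universal element of `Md (PE v)` -/
noncomputable def unv (v : Bool × Fin 6) : Md (PE K v) := (sumPP K).univ v

theorem sum_toRR_unv : ∑ v : Bool × Fin 6, toRR v (unv (K := K) v) = 1 :=
  (sumPP K).sum_idem

theorem genPair (K : Type u) [Field K] : GenPair (RR K) (PKm K) (PLm K) := by
  refine ⟨LinearMap.pi fun i => LinearMap.toSpanSingleton (RR K) _ (unv (true, i)),
    ∑ i, toRR (true, i) ∘ₗ LinearMap.proj i,
    LinearMap.pi fun i => LinearMap.toSpanSingleton (RR K) _ (unv (false, i)),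
    ∑ i, toRR (false, i) ∘ₗ LinearMap.proj i, ?_⟩
  refine LinearMap.ext_ring ?_
  have h := sum_toRR_unv (K := K)
  rw [Fintype.sum_prod_type, Fintype.sum_bool] at h
  simp only [LinearMap.add_apply, LinearMap.comp_apply, LinearMap.sum_apply,
    LinearMap.proj_apply, LinearMap.pi_apply, LinearMap.toSpanSingleton_apply, one_smul,
    LinearMap.id_apply]
  exact h

/-- no maps from `J T_i` to modules with zero first component -/
theorem hom_J_Md {M : EM K} (hM : ∀ i, ∀ z ∈ win M.A i, z = 0) (i : Fin 6)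
    (f : Md (PE K (true, i)) →ₗ[RR K] Md M) : f = 0 :=
  hom_J_zero (P := PP K) (T := TT K) (g := gen K) (fun v => (SumT.t v).J) TT_rep i (hM i) f

/-- no maps from `J' T_i` to modules with zero second component -/
theorem hom_J'_Md {M : EM K} (hM : ∀ i, ∀ z ∈ win M.B i, z = 0) (i : Fin 6)
    (f : Md (PE K (false, i)) →ₗ[RR K] Md M) : f = 0 :=
  hom_J'_zero (P := PP K) (T := TT K) (g := gen K) (fun v => (SumT.t v).J') TT_rep i (hM i) f

theorem hom_pi_zero {R : Type u} [Ring R] {ι : Type} [Fintype ι] [DecidableEq ι]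
    {A : ι → Type u} [∀ i, AddCommGroup (A i)] [∀ i, Module R (A i)] {N : Type u}
    [AddCommGroup N] [Module R N] (h : ∀ i, ∀ f : A i →ₗ[R] N, f = 0)
    (f : (∀ i, A i) →ₗ[R] N) : f = 0 := by
  apply LinearMap.pi_ext'
  intro i
  rw [h i (f ∘ₗ _)]
  rfl

/-- Modules of type `L` are orthogonal to modules of type `K`. -/
theorem orth_LK_Md [hR : IsNoetherianRing (RR K)] {M N : EM K}
    (hM : ∀ i, ∀ z ∈ win M.A i, z = 0) (hN : ∀ i, ∀ z ∈ win N.B i, z = 0)
    (hfin : Module.Finite (RR K) (Md M)) : Orth (RR K) (Md M) (Md N) := by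
  have h1 := fun i => finite_PE (K := K) (false, i)
  have h2 := fun i => projective_PE (K := K) (false, i)
  have h3 : Module.Finite (RR K) (PLm K) := inferInstance
  have h4 : Module.Projective (RR K) (PLm K) := Module.Projective.of_equiv
    (DirectSum.linearEquivFunOnFintype (RR K) (Fin 6) fun i => Md (PE K (false, i)))
  refine orth_LK (genPair K) ?_ ?_ ?_
  · intro f
    apply LinearMap.ext
    intro x
    funext j
    have h5 : LinearMap.proj j ∘ₗ f = 0 := hom_pi_zero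
      (fun i g => hom_J_Md (M := PE K (false, j)) (fun _ _ _ => Subsingleton.elim _ _) i g) _
    exact LinearMap.congr_fun h5 x
  · exact hom_pi_zero fun i g => hom_J_Md hM i g
  · exact hom_pi_zero fun i g => hom_J'_Md hN i g

theorem win_zero_zero (i : Fin 6) (z : (GM.zero K).X × (GM.zero K).X)
    (_ : z ∈ win (GM.zero K) i) : z = 0 := Subsingleton.elim _ _

theorem finite_br' {C : GM K} (hC : ∀ i, Module.Finite K (win C i)) :
    Module.Finite (RR K) (Md (EM.br' C)) :=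
  Md.finite_RR_of_win (M := EM.br' C) zero_win_finite hC

/-- `[C]'` is orthogonal to `[F]`. -/
theorem orth_br'_br [hR : IsNoetherianRing (RR K)] {C F : GM K}
    (hC : ∀ i, Module.Finite K (win C i)) :
    Orth (RR K) (Md (EM.br' C)) (Md (EM.br F)) :=
  orth_LK_Md (M := EM.br' C) (N := EM.br F) win_zero_zero win_zero_zero (finite_br' hC)

theorem CC_tau_win_finite (n : ℤ) (v : Fin 6) : Module.Finite K (win (CC K n).tau v) := by
  rw [CC_tau]
  exact CC_win_finite _ v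

theorem orth_De_br_of {Z F : GM K} (h1 : Orth (RR K) (Md (EM.br' Z.tau)) (Md (EM.br F)))
    (h2 : Orth (RR K) (Md (EM.J Z)) (Md (EM.br F))) :
    Orth (RR K) (Md (EM.De Z)) (Md (EM.br F)) := by
  have h0 := (ESES.br'_J_De Z).md TT_rep
  exact h0.orth_left₃ h1 h2

/-- **Step C.** -/
theorem orth_Q_br [hR : IsNoetherianRing (RR K)] {F : GM K} (hF : Kappa F) :
    Orth (RR K) (Md (EM.De (CC K (-1)))) (Md (EM.br F)) :=
  orth_De_br_of (orth_br'_br (CC_tau_win_finite (-1))) (orth_J_CC_br hF)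

/-- `Q` is orthogonal to `J' F` if it is orthogonal to `J F` and `κ(F)` is exact. -/
theorem orth_Q_J' [hR : IsNoetherianRing (RR K)] {F : GM K} (hF : Kappa F)
    (hJ : Orth (RR K) (Md (EM.De (CC K (-1)))) (Md (EM.J F))) :
    Orth (RR K) (Md (EM.De (CC K (-1)))) (Md (EM.J' F)) :=
  ((ESES.J'_J_br F).md TT_rep).orth_right₁ hJ (orth_Q_br hF)

/-! ### Step B -/

/-- **Step B.** -/
theorem orth_De_of_W {N : Type u} [AddCommGroup N] [Module (RR K) N]
    (hW : ∀ n : ℤ, -1 ≤ n → Orth (RR K) (Md (EM.W (CC K n))) N) {n : ℤ} (hn : -1 ≤ n) :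
    Orth (RR K) (Md (EM.De (CC K n))) N := by
  have hT : RepT K := TT_rep
  have key : ∀ (i : ℕ) (n : ℤ), -1 ≤ n → EZ (RR K) i (Md (EM.De (CC K n))) N := by
    intro i
    induction i with
    | zero =>
      intro n hn
      rw [ez_zero_iff]
      intro f
      have h1 := (ESES.De_W_De (CC K n)).md hT
      have h2 := (hW n hn).hom (f ∘ₗ Md.map (ESES.De_W_De (CC K n)).e')
      apply LinearMap.ext
      intro x
      obtain ⟨y, rfl⟩ := h1.surj x
      exact LinearMap.congr_fun h2 y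
    | succ i ih =>
      intro n hn
      have h1 := (ESES.De_W_De (CC K n)).md hT
      have h2 := ih (n + 1) (by omega)
      rw [← CC_tau] at h2
      exact h1.ez_right h2 (hW n hn (i + 1))
  exact fun i => key i n hn

/-- Steps B and C. -/
theorem orth_Q_PE_of_W [hR : IsNoetherianRing (RR K)]
    (hW : ∀ w : Fin 6, ∀ n : ℤ, -1 ≤ n →
      Orth (RR K) (Md (EM.W (CC K n))) (Md (EM.J (TT K w))))
    (v : Bool × Fin 6) (hv : v ≠ (false, 5)) :
    Orth (RR K) (Md (EM.De (CC K (-1)))) (Md (PE K v)) := by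
  obtain ⟨b, w⟩ := v
  have hJ : Orth (RR K) (Md (EM.De (CC K (-1)))) (Md (EM.J (TT K w))) :=
    orth_De_of_W (hW w) le_rfl
  cases b
  · exact orth_Q_J' (kappa_TT w fun h => hv (by rw [h])) hJ
  · exact hJ

end Vale.Agent.P195.Van
end
end

section

section

/-!
# P195 (vanishing version): devissage

A property of `GM`'s which holds for the six objects `T_i` and is closed under products and
quotients (of sequences exact at the windows, together with their `τ`-shifts) holds for all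
`O(m,b)`, `m ≥ 0`, `0 ≤ b ≤ 2`, and for all `C_n`, `n ≥ -1`.
-/

namespace Vale.Agent.P195.Van

open Vale.Agent.P195.Weyl

universe u

variable {K : Type u} [Field K]

/-- The closure properties used in the devissage. -/
structure Devi (G : GM K → Prop) : Prop where
  base : ∀ i, G (TT K i)
  prod : ∀ A B, G A → G B → G (A.prod B)
  quot : ∀ (A B C : GM K) (f : A.X →ₗ[K] B.X) (g : B.X →ₗ[K] C.X), GSES A B C f g →
    GSES A.tau B.tau C.tau f g → G A → G B → G C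

variable {G : GM K → Prop}

theorem Devi.OO_zero (h : Devi G) {b : ℤ} (h0 : 0 ≤ b) (h2 : b ≤ 2) : G (OO K 0 b) := by
  obtain rfl | rfl | rfl : b = 0 ∨ b = 1 ∨ b = 2 := by (clear * - h0 h2; omega)
  · exact h.base 0
  · exact h.base 1
  · exact h.base 2

theorem Devi.OO_one (h : Devi G) {b : ℤ} (h0 : 0 ≤ b) (h2 : b ≤ 2) : G (OO K 1 b) := by
  obtain rfl | rfl | rfl : b = 0 ∨ b = 1 ∨ b = 2 := by omega
  · exact h.quot _ _ _ _ _ (gses_s1 (by norm_num)) (gses_s1_tau (by norm_num)) (h.base 5)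
      (h.base 3)
  · exact h.quot _ _ _ _ _ (gses_s1 (by norm_num)) (gses_s1_tau (by norm_num)) (h.base 5)
      (h.base 4)
  · exact h.quot _ _ _ _ _ gses_s1' (gses_s2_tau (a := -1) (a' := 0) (a'' := 1) (by norm_num)
      (by norm_num) le_rfl) (h.base 5) (h.prod _ _ (h.base 2) (h.base 2))

/-- The property holds for `O(m,b)`, `m ≥ 0`, `0 ≤ b ≤ 2`. -/
theorem Devi.OO (h : Devi G) {b : ℤ} (h0 : 0 ≤ b) (h2 : b ≤ 2) (m : ℕ) :
    G (Van.OO K m b) ∧ G (Van.OO K (m + 1) b) := by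
  induction m with
  | zero =>
    have h1 := h.OO_one h0 h2
    have h3 := h.OO_zero h0 h2
    exact ⟨by simpa using h3, by simpa using h1⟩
  | succ m ih =>
    refine ⟨by simpa only [Nat.cast_add, Nat.cast_one] using ih.2, ?_⟩
    exact h.quot _ _ _ _ _ (gses_s2 (a := (m : ℤ)) (a' := (m : ℤ) + 1)
      (a'' := ((m + 1 : ℕ) : ℤ) + 1) rfl (by push_cast; ring) (by omega))
      (gses_s2_tau (a := (m : ℤ)) (a' := (m : ℤ) + 1)
      (a'' := ((m + 1 : ℕ) : ℤ) + 1) rfl (by push_cast; ring) (by omega)) ih.1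
      (h.prod _ _ ih.2 ih.2)

theorem Devi.OO' (h : Devi G) {b : ℤ} (h0 : 0 ≤ b) (h2 : b ≤ 2) {m : ℤ} (hm : 0 ≤ m) :
    G (Van.OO K m b) := by
  obtain ⟨n, rfl⟩ := Int.eq_ofNat_of_zero_le hm
  exact (h.OO h0 h2 n).1

/-- The property holds for `C_n`, `n ≥ -1`. -/
theorem Devi.CC (h : Devi G) {n : ℤ} (hn : -1 ≤ n) : G (Van.CC K n) := by
  have h1 : G (II K n) := h.quot _ _ _ _ _ (gses_s3 (a := n + 2) (n' := n + 1) rfl rfl (by omega))
    (gses_s3_tau (a := n + 2) (n' := n + 1) rfl rfl (by omega)) (h.OO' le_rfl (by norm_num)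
      (by omega)) (h.prod _ _ (h.OO' (by norm_num) (by norm_num) (by omega))
      (h.OO' (by norm_num) (by norm_num) (by omega)))
  have h2 : G (Van.OO K n 2) := by
    rcases hn.lt_or_eq with h3 | h3
    · exact h.OO' (by norm_num) le_rfl (by omega)
    · subst h3
      exact h.base 5
  exact h.quot _ _ _ _ _ (gses_s4 hn) (gses_s4_tau (by omega)) h1 h2

end Vale.Agent.P195.Van
end
end

section

section

/-!
# P195 (vanishing version), Step D: `Orth (Δ C_{-1}) [C_{-1}]'`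
-/

open Vale.Agent.P195.Weyl

namespace Vale.Agent.P195.Van

universe u

variable {K : Type u} [Field K]

theorem pRet_J (v : Fin 6) : IsRetract (PP K) (EM.J (TT K v)).toF := (SumT.t v).J

theorem pRet_J' (v : Fin 6) : IsRetract (PP K) (EM.J' (TT K v)).toF := (SumT.t v).J'

/-- The devissage for `Z ↦ J Z`. -/
theorem devi_J {N : Type u} [AddCommGroup N] [Module (RR K) N]
    (h : ∀ v, Orth (RR K) (Md (EM.J (TT K v))) N) :
    Devi (K := K) fun Z => Orth (RR K) (Md (EM.J Z)) N where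
  base v := h v
  prod A B hA hB :=
    (((GSES.inl_snd A B).J (GSES.inl_snd A.tau B.tau)).md TT_rep).orth_left₂ hA hB
  quot _ _ _ _ _ s sτ hA hB := ((s.J sτ).md TT_rep).orth_left₃ hA hB

theorem orth_J_TT_br' (v : Fin 6) (C : GM K) :
    Orth (RR K) (Md (EM.J (TT K v))) (Md (EM.br' C)) :=
  orth_J_S' pRet_J TT_rep v C

/-- `J C_n`, `n ≥ -1`, is orthogonal to `[C]'`. -/
theorem orth_J_CC_br' (C : GM K) {n : ℤ} (hn : -1 ≤ n) :
    Orth (RR K) (Md (EM.J (CC K n))) (Md (EM.br' C)) :=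
  (devi_J fun v => orth_J_TT_br' v C).CC hn

/-- `[T_v]` is orthogonal to `[C_{-1}]'` for `v ≠ 5`. -/
theorem orth_br_TT_Sm {v : Fin 6} (hv : v ≠ 5) :
    Orth (RR K) (Md (EM.br (TT K v))) (Md (EM.br' (CC K (-1)))) :=
  orth_br_S' PP_isBase pRet_J pRet_J' TT_rep v fun _ hz => CC_win_zero hv hz

/-- The relative form of step D, for `RR K`-modules. -/
theorem orth_De_of_J' [CharZero K] {N : Type u} [AddCommGroup N] [iN : Module (RR K) N]
    (hN : ∀ v, v ≠ 5 → Orth (RR K) (Md (EM.br (TT K v))) N)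
    (hJ : ∀ n : ℤ, -1 ≤ n → Orth (RR K) (Md (EM.J (CC K n))) N)
    {n : ℤ} (hn : -1 ≤ n) : Orth (RR K) (Md (EM.De (CC K n))) N := by
  let iN' : Module (WAlg (PP K)) N := iN
  exact orth_De_of_J (P := PP K) (N := N) PP_isBase TT_rep hN hJ hn

/-- **Step D**. -/
theorem orth_Q_S [CharZero K] :
    Orth (RR K) (Md (EM.De (CC K (-1)))) (Md (EM.br' (CC K (-1)))) :=
  orth_De_of_J' (fun _ hv => orth_br_TT_Sm hv) (fun _ hn => orth_J_CC_br' _ hn) le_rfl

end Vale.Agent.P195.Van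
end
end

section

section

/-!
# P195: finiteness of the ring `RR K`, and `Hom (P_v, S') = 0`
-/

open Vale.Agent.P195.Weyl MvPolynomial

namespace Vale.Agent.P195.Van

universe u

variable {K : Type u} [Field K]

/-! ### Finiteness -/

/-- evaluation of a map `J T → M` at the generator -/
theorem FHom_J_finite {T : GM K} {i : Fin 6} {u : T.X × T.X} (hT : Rep T i u) (M : EM K)
    (h : Module.Finite K (win M.A i)) : Module.Finite K (FHom (EM.J T).toF M.toF) := by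
  let F : FHom (EM.J T).toF M.toF →ₗ[K] win M.A i :=
    { toFun := fun φ => ⟨((φ.1 (u.1, 0)).1, (φ.1 (u.2, 0)).1), by
        obtain ⟨a, b, hab, h1⟩ := exists_isE_of_mem φ.2
        rw [h1]
        exact hab.gA.win i hT.mem⟩
      map_add' := fun _ _ => rfl
      map_smul' := fun _ _ => rfl }
  refine Module.Finite.of_injective F fun φ ψ hφψ => ?_
  obtain ⟨a, b, hab, h1⟩ := exists_isE_of_mem φ.2
  obtain ⟨a', b', hab', h2⟩ := exists_isE_of_mem ψ.2
  have h3 : ((φ.1 (u.1, 0)).1, (φ.1 (u.2, 0)).1) = ((ψ.1 (u.1, 0)).1, (ψ.1 (u.2, 0)).1) :=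
    congrArg Subtype.val hφψ
  rw [h1, h2] at h3
  obtain ⟨h4, h5⟩ := hT.J_uniq hab hab' h3
  apply Subtype.ext
  rw [h1, h2, h4, h5]

theorem FHom_J'_finite {T : GM K} {i : Fin 6} {u : T.X × T.X} (hT : Rep T i u) (M : EM K)
    (h : Module.Finite K (win M.B i)) : Module.Finite K (FHom (EM.J' T).toF M.toF) := by
  let F : FHom (EM.J' T).toF M.toF →ₗ[K] win M.B i :=
    { toFun := fun φ => ⟨((φ.1 (0, (u.1, 0))).2, (φ.1 (0, (u.2, 0))).2), by
        obtain ⟨a, b, hab, h1⟩ := exists_isE_of_mem φ.2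
        rw [h1]
        exact hT.J'_mem hab⟩
      map_add' := fun _ _ => rfl
      map_smul' := fun _ _ => rfl }
  refine Module.Finite.of_injective F fun φ ψ hφψ => ?_
  obtain ⟨a, b, hab, h1⟩ := exists_isE_of_mem φ.2
  obtain ⟨a', b', hab', h2⟩ := exists_isE_of_mem ψ.2
  have h3 : ((φ.1 (0, (u.1, 0))).2, (φ.1 (0, (u.2, 0))).2) =
    ((ψ.1 (0, (u.1, 0))).2, (ψ.1 (0, (u.2, 0))).2) := congrArg Subtype.val hφψ
  rw [h1, h2] at h3
  obtain ⟨h4, h5⟩ := hT.J'_uniq hab hab' h3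
  apply Subtype.ext
  rw [h1, h2, h4, h5]

theorem TT_finite (i : Fin 6) (w e : ℤ) : Module.Finite K ((TT K i).F w e) := by
  fin_cases i
  · exact OO_finite _ _ _ _
  · exact OO_finite _ _ _ _
  · exact OO_finite _ _ _ _
  · exact GG_finite _ _ _
  · exact GG_finite _ _ _
  · exact OO_finite _ _ _ _

theorem GM.prod_finite {A B : GM K} {w e : ℤ} (hA : Module.Finite K (A.F w e))
    (hB : Module.Finite K (B.F w e)) : Module.Finite K ((A.prod B).F w e) := by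
  let F : (A.prod B).F w e →ₗ[K] A.F w e × B.F w e :=
    { toFun := fun z => (⟨z.1.1, z.2.1⟩, ⟨z.1.2, z.2.2⟩)
      map_add' := fun _ _ => rfl
      map_smul' := fun _ _ => rfl }
  refine Module.Finite.of_injective F fun z y hzy => ?_
  have e1 : z.1.1 = y.1.1 := congrArg (fun p => (p.1 : A.X)) hzy
  have e2 : z.1.2 = y.1.2 := congrArg (fun p => (p.2 : B.X)) hzy
  exact Subtype.ext (Prod.ext e1 e2)

theorem TT_ind_finite (i : Fin 6) (w e : ℤ) : Module.Finite K ((TT K i).ind.F w e) :=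
  GM.prod_finite (A := TT K i) (B := (TT K i).tau) (TT_finite i w e) (TT_finite i (w + 1) e)

theorem zero_finite (w e : ℤ) : Module.Finite K ((GM.zero K).F w e) := by
  have : Subsingleton ((GM.zero K).F w e) := ⟨fun a b => Subtype.ext (Subsingleton.elim _ _)⟩
  infer_instance

theorem PE_A_win_finite (v : Bool × Fin 6) (i : Fin 6) :
    Module.Finite K (win (PE K v).A i) := by
  obtain ⟨s, j⟩ := v
  cases s
  · exact win_finite _ (fun _ => zero_finite _ _) (zero_finite _ _) i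
  · exact win_finite _ (fun _ => TT_finite _ _ _) (TT_finite _ _ _) i

theorem PE_B_win_finite (v : Bool × Fin 6) (i : Fin 6) :
    Module.Finite K (win (PE K v).B i) := by
  obtain ⟨s, j⟩ := v
  cases s
  · exact win_finite _ (fun _ => TT_ind_finite _ _ _) (TT_ind_finite _ _ _) i
  · exact win_finite _ (fun _ => TT_ind_finite _ _ _) (TT_ind_finite _ _ _) i

theorem FHom_PE_finite (v w : Bool × Fin 6) :
    Module.Finite K (FHom (PE K v).toF (PE K w).toF) := by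
  obtain ⟨s, j⟩ := v
  cases s
  · exact FHom_J'_finite (TT_rep j) _ (PE_B_win_finite w j)
  · exact FHom_J_finite (TT_rep j) _ (PE_A_win_finite w j)

/-- The ring is finite-dimensional. -/
theorem finite_RR : Module.Finite K (RR K) :=
  WAlg.finite (Q := fun v : Bool × Fin 6 => (PE K v).toF) fun v w => FHom_PE_finite v w

theorem PE_pret (v : Bool × Fin 6) : PRet (PE K v) :=
  FMod.isRetract_factor (fun v : Bool × Fin 6 => (PE K v).toF) v

/-- The only vertex with a map to `S'` is `L_6`. -/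
theorem hom_PE_S (v : Bool × Fin 6) (hv : v ≠ (false, 5))
    (f : Md (PE K v) →ₗ[RR K] Md (EM.br' (CC K (-1)))) : f = 0 := by
  obtain ⟨a, b, hab, rfl⟩ := (PE_pret v).exists_map f
  obtain ⟨s, j⟩ := v
  cases s
  · have hj : j ≠ 5 := fun h => hv (by rw [h])
    have h0 : ((b ((gen K j).1, 0), b ((gen K j).2, 0)) :
        (CC K (-1)).X × (CC K (-1)).X) = 0 :=
      CC_win_zero hj ((TT_rep j).J'_mem hab)
    have h1 := (TT_rep j).J'_uniq hab (IsE.zero (EM.J' (TT K j)) (EM.br' (CC K (-1)))) (by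
      rw [h0]; rfl)
    exact Md.map_eq_zero' hab h1.1 h1.2
  · have h1 := (TT_rep j).J_uniq hab (IsE.zero (EM.J (TT K j)) (EM.br' (CC K (-1))))
      (Subsingleton.elim _ _)
    exact Md.map_eq_zero' hab h1.1 h1.2

end Vale.Agent.P195.Van
end
end

section

section

/-!
# P195 (vanishing version): the generic part of step A

`orth_W_J`: `Orth (W T) (J F)` from a resolution `0 → Q1 → Q0 → τ T → 0` such that
`0 → F(T) → τF(Q0) → τF(Q1) → 0` is exact.
-/

open Function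

namespace Vale.Agent.P195.Van

universe u

section

variable {R : Type u} [Ring R] {A0 A1 A2 X Q N : Type u} [AddCommGroup A0] [Module R A0]
  [AddCommGroup A1] [Module R A1] [AddCommGroup A2] [Module R A2] [AddCommGroup X] [Module R X]
  [AddCommGroup Q] [Module R Q] [AddCommGroup N] [Module R N]

/-- A projective resolution of length two from two short exact sequences. -/
theorem orth_of_two_ses [Module.Projective R A0] [Module.Projective R A1]
    [Module.Projective R A2] {k : X →ₗ[R] A0} {e : A0 →ₗ[R] Q} {c : A2 →ₗ[R] A1}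
    {d : A1 →ₗ[R] X} (s1 : SES k e) (s2 : SES c d)
    (h0 : ∀ f : A0 →ₗ[R] N, f ∘ₗ (k ∘ₗ d) = 0 → f = 0)
    (h1 : ∀ f : A1 →ₗ[R] N, f ∘ₗ c = 0 → ∃ g : A0 →ₗ[R] N, g ∘ₗ (k ∘ₗ d) = f)
    (h2 : ∀ f : A2 →ₗ[R] N, ∃ g : A1 →ₗ[R] N, g ∘ₗ c = f) : Orth R Q N := by
  refine orth_of_res2 e (k ∘ₗ d) c s1.surj ?_ ?_ s2.inj h0 h1 h2
  · intro y
    rw [s1.exact y]
    constructor
    · rintro ⟨x, rfl⟩
      obtain ⟨z, rfl⟩ := s2.surj x
      exact ⟨z, rfl⟩
    · rintro ⟨z, rfl⟩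
      exact ⟨d z, rfl⟩
  · intro y
    rw [← s2.exact y]
    constructor
    · intro h
      exact s1.inj (h.trans (map_zero k).symm)
    · intro h
      change k (d y) = 0
      rw [h, map_zero]

end

variable {K : Type u} [Field K]

/-- `(Q1 → Ind Q0)` for `ι : Q1 → Q0`. -/
@[reducible] def EM.XX {Q1 Q0 : GM K} {ι : Q1.X →ₗ[K] Q0.X} (h : IsG Q1 Q0 ι) : EM K where
  A := Q1
  B := Q0.ind
  r := indR Q0
  t := LinearMap.inl K Q0.X Q0.X ∘ₗ ι
  rx i z := by rw [indR_apply, indR_apply]; ext <;> simp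
  rd i z := by rw [indR_apply, indR_apply]; ext <;> simp
  rr z := by rw [indR_apply, indR_apply]; rfl
  rF := indR_F Q0
  tG := (isG_inl Q0 Q0.tau).comp h

section

variable {T Q0 Q1 : GM K} {ι : Q1.X →ₗ[K] Q0.X} {π : Q0.X →ₗ[K] T.X}

/-- `0 → X → J (T × Q0) → W T → 0` -/
theorem ESES.XX_J_W (s : GSES Q1 Q0 T.tau ι π) :
    ESES (EM.XX s.gf) (EM.J (T.prod Q0)) (EM.W T)
      (LinearMap.inr K T.X Q0.X ∘ₗ ι)
      (((LinearMap.inr K T.X Q0.X) ∘ₗ LinearMap.fst K Q0.X Q0.X).prod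
        ((-π ∘ₗ LinearMap.fst K Q0.X Q0.X).prod (LinearMap.snd K Q0.X Q0.X)))
      (LinearMap.id.prodMap π)
      ((LinearMap.fst K T.X Q0.X ∘ₗ LinearMap.fst K _ (T.X × Q0.X)).prod
        (LinearMap.fst K T.X Q0.X ∘ₗ LinearMap.snd K (T.X × Q0.X) _ +
          π ∘ₗ LinearMap.snd K T.X Q0.X ∘ₗ LinearMap.fst K _ (T.X × Q0.X))) := by
  have hA : GSES Q1 (T.prod Q0) T.ind (LinearMap.inr K T.X Q0.X ∘ₗ ι)
      (LinearMap.id.prodMap π) := by
    refine ⟨(isG_inr T Q0).comp s.gf, ⟨fun i z => ?_, fun i z => ?_, fun w e z hz => ?_⟩,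
      fun z => ?_, fun i z hz h0 => ?_, fun i z hz h0 => ?_, fun i z hz => ?_⟩
    · ext
      · simp
      · simpa using s.gg.x i z.2
    · ext
      · simp only [LinearMap.prodMap_apply, LinearMap.id_coe, id_eq]
      · simpa using s.gg.d i z.2
    · exact ⟨hz.1, s.gg.F _ _ _ hz.2⟩
    · ext
      · simp only [LinearMap.coe_comp, LinearMap.coe_inr, comp_apply, LinearMap.prodMap_apply, LinearMap.id_coe, id_eq, Prod.fst_zero]
      · simpa only [LinearMap.coe_comp, LinearMap.coe_inr, comp_apply, LinearMap.prodMap_apply, LinearMap.id_coe,     id_eq, Prod.snd_zero] using s.zero z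
    · refine s.inj i z hz ?_
      exact Prod.ext (congrArg (fun p => p.1.2) h0) (congrArg (fun p => p.2.2) h0)
    · rw [mem_win_prod] at hz
      obtain ⟨y, hy, hyz⟩ := s.ex i _ hz.2
        (Prod.ext (congrArg (fun p => p.1.2) h0) (congrArg (fun p => p.2.2) h0))
      refine ⟨y, hy, ?_⟩
      obtain ⟨⟨z1, z2⟩, ⟨z3, z4⟩⟩ := z
      have h1 : z1 = 0 := congrArg (fun p => p.1.1) h0
      have h2 : z3 = 0 := congrArg (fun p => p.2.1) h0
      have h3 : ι y.1 = z2 := congrArg Prod.fst hyz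
      have h4 : ι y.2 = z4 := congrArg Prod.snd hyz
      subst h1; subst h2; subst h3; subst h4
      rfl
    · rw [mem_win_prod] at hz
      obtain ⟨y, hy, hyz⟩ := s.surj i _ hz.2
      refine ⟨((z.1.1, y.1), (z.2.1, y.2)), mem_win_prod.2 ⟨hz.1, hy⟩, ?_⟩
      have h3 : π y.1 = z.1.2 := congrArg Prod.fst hyz
      have h4 : π y.2 = z.2.2 := congrArg Prod.snd hyz
      exact Prod.ext (Prod.ext rfl h3) (Prod.ext rfl h4)
  have gB : IsG Q0.ind (T.prod Q0).ind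
      (((LinearMap.inr K T.X Q0.X) ∘ₗ LinearMap.fst K Q0.X Q0.X).prod
        ((-π ∘ₗ LinearMap.fst K Q0.X Q0.X).prod (LinearMap.snd K Q0.X Q0.X))) := by
    refine ⟨fun i z => ?_, fun i z => ?_, fun w e z hz => ?_⟩
    · have h1 := s.gg.x i z.1
      refine Prod.ext (Prod.ext ?_ ?_) (Prod.ext ?_ ?_)
      · simp only [LinearMap.prodMap_apply, LinearMap.prod_apply, LinearMap.coe_comp, LinearMap.coe_inr, LinearMap.coe_fst, Function.prod_apply, comp_apply, LinearMap.coe_neg, LinearMap.coe_snd, Pi.neg_apply, map_zero, map_neg]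
      · simp only [LinearMap.prodMap_apply, LinearMap.prod_apply, LinearMap.coe_comp, LinearMap.coe_inr, LinearMap.coe_fst, Function.prod_apply, comp_apply, LinearMap.coe_neg, LinearMap.coe_snd, Pi.neg_apply, map_zero, map_neg]
      · change -(π (Q0.x i z.1)) = T.x i (-(π z.1))
        rw [h1, map_neg]
      · simp
    · have h1 := s.gg.d i z.1
      refine Prod.ext (Prod.ext ?_ ?_) (Prod.ext ?_ ?_)
      · simp only [LinearMap.prodMap_apply, LinearMap.prod_apply, LinearMap.coe_comp, LinearMap.coe_inr, LinearMap.coe_fst, Function.prod_apply, comp_apply, LinearMap.coe_neg, LinearMap.coe_snd, Pi.neg_apply, map_zero, map_neg]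
      · simp only [LinearMap.prodMap_apply, LinearMap.prod_apply, LinearMap.coe_comp, LinearMap.coe_inr, LinearMap.coe_fst, Function.prod_apply, comp_apply, LinearMap.coe_neg, LinearMap.coe_snd, Pi.neg_apply, map_zero, map_neg]
      · change -(π (Q0.d i z.1)) = T.d i (-(π z.1))
        rw [h1, map_neg]
      · simp only [LinearMap.prodMap_apply, LinearMap.prod_apply, LinearMap.coe_comp, LinearMap.coe_inr, LinearMap.coe_fst, Function.prod_apply, comp_apply, LinearMap.coe_neg, LinearMap.coe_snd, Pi.neg_apply, map_zero, map_neg]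
    · exact ⟨⟨zero_mem _, hz.1⟩, ⟨neg_mem (s.gg.F _ _ _ hz.1), hz.2⟩⟩
  have gB' : IsG (T.prod Q0).ind T.ind
      ((LinearMap.fst K T.X Q0.X ∘ₗ LinearMap.fst K _ (T.X × Q0.X)).prod
        (LinearMap.fst K T.X Q0.X ∘ₗ LinearMap.snd K (T.X × Q0.X) _ +
          π ∘ₗ LinearMap.snd K T.X Q0.X ∘ₗ LinearMap.fst K _ (T.X × Q0.X))) := by
    refine ⟨fun i z => ?_, fun i z => ?_, fun w e z hz => ?_⟩
    · have h1 := s.gg.x i z.1.2
      refine Prod.ext rfl ?_
      change T.x i z.2.1 + π (Q0.x i z.1.2) = T.x i (z.2.1 + π z.1.2)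
      rw [h1, map_add]
    · have h1 := s.gg.d i z.1.2
      refine Prod.ext rfl ?_
      change T.d i z.2.1 + π (Q0.d i z.1.2) = T.d i (z.2.1 + π z.1.2)
      rw [h1, map_add]
    · exact ⟨hz.1.1, add_mem hz.2.1 (s.gg.F _ _ _ hz.1.2)⟩
  have hB : GSES Q0.ind (T.prod Q0).ind T.ind _ _ :=
    { gf := gB
      gg := gB'
      zero := fun z => by
        refine Prod.ext rfl ?_
        change -(π z.1) + π z.1 = 0
        exact neg_add_cancel _
      inj := WInj.of_injective fun z z' h => by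
        have h1 : z.1 = z'.1 := congrArg (fun p => p.1.2) h
        have h2 : z.2 = z'.2 := congrArg (fun p => p.2.2) h
        exact Prod.ext h1 h2
      ex := fun i z hz h0 => by
        have hz' := (mem_win_prod (A := T.prod Q0) (B := (T.prod Q0).tau)).1 hz
        have h1 := (mem_win_prod (A := T) (B := Q0)).1 hz'.1
        have h2 := (mem_win_prod (A := T.tau) (B := Q0.tau)).1 hz'.2
        refine ⟨((z.1.1.2, z.1.2.2), (z.2.1.2, z.2.2.2)), mem_win_prod.2 ⟨h1.2, h2.2⟩, ?_⟩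
        have e1 : z.1.1.1 = 0 := congrArg (fun p => p.1.1) h0
        have e2 : z.2.1.1 = 0 := congrArg (fun p => p.2.1) h0
        have e3 : z.1.2.1 + π z.1.1.2 = 0 := congrArg (fun p => p.1.2) h0
        have e4 : z.2.2.1 + π z.2.1.2 = 0 := congrArg (fun p => p.2.2) h0
        refine Prod.ext (Prod.ext (Prod.ext e1.symm rfl) (Prod.ext ?_ rfl))
          (Prod.ext (Prod.ext e2.symm rfl) (Prod.ext ?_ rfl))
        · exact (eq_neg_of_add_eq_zero_left e3).symm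
        · exact (eq_neg_of_add_eq_zero_left e4).symm
      surj := fun i z hz => by
        have hz' := (mem_win_prod (A := T) (B := T.tau)).1 hz
        refine ⟨(((z.1.1, 0), (z.1.2, 0)), ((z.2.1, 0), (z.2.2, 0))),
          (mem_win_prod (A := T.prod Q0) (B := (T.prod Q0).tau)).2
            ⟨(mem_win_prod (A := T) (B := Q0)).2 ⟨hz'.1, zero_mem _⟩,
              (mem_win_prod (A := T.tau) (B := Q0.tau)).2 ⟨hz'.2, zero_mem _⟩⟩, ?_⟩
        refine Prod.ext (Prod.ext rfl ?_) (Prod.ext rfl ?_)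
        · change z.1.2 + π 0 = z.1.2
          rw [map_zero, add_zero]
        · change z.2.2 + π 0 = z.2.2
          rw [map_zero, add_zero] }
  refine ⟨⟨hA.gf, hB.gf, fun z => ?_, fun z => ?_⟩, ⟨hA.gg, hB.gg, fun z => ?_, fun z => ?_⟩,
    hA, hB⟩
  · rw [indR_apply, indR_apply]
    refine Prod.ext rfl (Prod.ext ?_ rfl)
    change -(π 0) = 0
    rw [map_zero, neg_zero]
  · refine Prod.ext rfl (Prod.ext ?_ rfl)
    change -(π (ι z)) = 0
    rw [s.zero, neg_zero]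
  · rw [indR_apply, indR_apply]
    refine Prod.ext rfl ?_
    change z.1.1 + π 0 = z.1.1
    rw [map_zero, add_zero]
  · refine Prod.ext rfl ?_
    change (0 : T.X) + π z.2 = π z.2
    rw [zero_add]

/-- `0 → J' Q1 → J Q1 ⊕ J' Q0 → X → 0` -/
theorem ESES.J'_JJ_XX (hι : IsG Q1 Q0 ι) :
    ESES (EM.J' Q1) (EM.JJ Q1 Q0) (EM.XX hι) 0
      ((LinearMap.id.prod (-ι)).prodMap (LinearMap.id.prod (-ι))) LinearMap.id
      ((ι.coprod LinearMap.id).prodMap (ι.coprod LinearMap.id)) := by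
  have g1 : IsG Q1 (Q1.prod Q0) (LinearMap.id.prod (-ι)) := (IsG.id Q1).prod hι.neg
  have g2 : IsG (Q1.prod Q0) Q0 (ι.coprod LinearMap.id) := hι.coprod (IsG.id Q0)
  have hz : ∀ z : Q1.X, (ι.coprod LinearMap.id) ((LinearMap.id.prod (-ι)) z) = (0 : Q0.X) :=
    fun z => by
      change ι z + -(ι z) = 0
      exact add_neg_cancel _
  have hs : GSES Q1 (Q1.prod Q0) Q0 (LinearMap.id.prod (-ι)) (ι.coprod LinearMap.id) := by
    refine ⟨g1, g2, hz, WInj.of_injective fun z z' h => congrArg Prod.fst h,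
      fun i z hz h0 => ?_, fun i z hz => ?_⟩
    · rw [mem_win_prod] at hz
      refine ⟨_, hz.1, ?_⟩
      have e3 : ι z.1.1 + z.1.2 = 0 := congrArg (fun p => p.1) h0
      have e4 : ι z.2.1 + z.2.2 = 0 := congrArg (fun p => p.2) h0
      refine Prod.ext (Prod.ext rfl ?_) (Prod.ext rfl ?_)
      · exact (eq_neg_of_add_eq_zero_right e3).symm
      · exact (eq_neg_of_add_eq_zero_right e4).symm
    · refine ⟨((0, z.1), (0, z.2)), mem_win_prod.2 ⟨zero_mem _, hz⟩, ?_⟩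
      refine Prod.ext ?_ ?_
      · change ι 0 + z.1 = z.1
        rw [map_zero, zero_add]
      · change ι 0 + z.2 = z.2
        rw [map_zero, zero_add]
  have hsτ : GSES Q1.tau (Q1.prod Q0).tau Q0.tau (LinearMap.id.prod (-ι))
      (ι.coprod LinearMap.id) := by
    refine ⟨g1.tau, g2.tau, hz, WInj.of_injective fun z z' h => congrArg Prod.fst h,
      fun i z hz h0 => ?_, fun i z hz => ?_⟩
    · have hz' := (mem_win_prod (A := Q1.tau) (B := Q0.tau)).1 hz
      refine ⟨_, hz'.1, ?_⟩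
      have e3 : ι z.1.1 + z.1.2 = 0 := congrArg (fun p => p.1) h0
      have e4 : ι z.2.1 + z.2.2 = 0 := congrArg (fun p => p.2) h0
      refine Prod.ext (Prod.ext rfl ?_) (Prod.ext rfl ?_)
      · exact (eq_neg_of_add_eq_zero_right e3).symm
      · exact (eq_neg_of_add_eq_zero_right e4).symm
    · refine ⟨((0, z.1), (0, z.2)), (mem_win_prod (A := Q1.tau) (B := Q0.tau)).2
        ⟨zero_mem _, hz⟩, ?_⟩
      refine Prod.ext ?_ ?_
      · change ι 0 + z.1 = z.1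
        rw [map_zero, zero_add]
      · change ι 0 + z.2 = z.2
        rw [map_zero, zero_add]
  have hB : GSES Q1.ind (Q1.prod Q0).ind Q0.ind
      ((LinearMap.id.prod (-ι)).prodMap (LinearMap.id.prod (-ι)))
      ((ι.coprod LinearMap.id).prodMap (ι.coprod LinearMap.id)) := hs.ind hsτ
  refine ⟨⟨IsG.zero _ _, hB.gf, fun z => ?_, fun z => ?_⟩,
    ⟨IsG.id _, hB.gg, fun z => ?_, fun z => ?_⟩, GSES.zero_id Q1, hB⟩
  · rw [indR_apply, indR_apply]; simp
  · simp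
  · rw [indR_apply, indR_apply]; simp only [LinearMap.prodMap_apply, LinearMap.coprod_apply, Prod.fst_zero, map_zero, Prod.snd_zero, LinearMap.id_coe, id_eq, add_zero]
  · refine Prod.ext ?_ ?_
    · change ι z + 0 = ι z
      rw [add_zero]
    · change ι 0 + 0 = (0 : Q0.X)
      rw [map_zero, add_zero]

end

/-- maps into `J F` -/
theorem IsE.to_J_of_J {Z F : GM K} {a : Z.X →ₗ[K] F.X} {b : (Z.X × Z.X) →ₗ[K] (F.X × F.X)}
    (e : IsE (EM.J Z) (EM.J F) a b) (z : Z.X × Z.X) : b z = (a z.1, a z.2) := by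
  rw [e.J_eq]
  change (a z.1, (0 : F.X)) + indR F (a z.2, 0) = _
  rw [indR_apply]
  simp

/-- **The generic part of step A.** -/
theorem orth_W_J (hT : RepT K) {T F Q0 Q1 : GM K} {ι : Q1.X →ₗ[K] Q0.X} {π : Q0.X →ₗ[K] T.X}
    (s : GSES Q1 Q0 T.tau ι π) (pT : PRet (EM.J T)) (pQ0 : PRet (EM.J Q0))
    (pQ0' : PRet (EM.J' Q0)) (pQ1 : PRet (EM.J Q1)) (pQ1' : PRet (EM.J' Q1))
    (hinj : ∀ γ : T.X →ₗ[K] F.X, IsG T F γ → γ ∘ₗ π = 0 → γ = 0)
    (hex : ∀ β : Q0.X →ₗ[K] F.X, IsG Q0 F.tau β → β ∘ₗ ι = 0 →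
      ∃ γ : T.X →ₗ[K] F.X, IsG T F γ ∧ γ ∘ₗ π = β)
    (hsurj : ∀ β' : Q1.X →ₗ[K] F.X, IsG Q1 F.tau β' →
      ∃ β : Q0.X →ₗ[K] F.X, IsG Q0 F.tau β ∧ β ∘ₗ ι = β') :
    Orth (RR K) (Md (EM.W T)) (Md (EM.J F)) := by
  have s1 := (ESES.XX_J_W s).md hT
  have s2 := (ESES.J'_JJ_XX s.gf).md hT
  have p0 : PRet (EM.J (T.prod Q0)) := pT.J_prod pQ0
  have p1 : PRet (EM.JJ Q1 Q0) := pQ1.JJ pQ0'
  have i0 := p0.projective
  have i1 := p1.projective
  have i2 := pQ1'.projective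
  refine orth_of_two_ses s1 s2 ?_ ?_ ?_
  · intro f hf
    obtain ⟨a, b, e, rfl⟩ := p0.exists_map f
    have hb : ∀ z : (T.X × Q0.X) × (T.X × Q0.X), b z = (a z.1, a z.2) := e.to_J_of_J
    have h1 := (p1.map_eq_zero
      (e.comp ((ESES.XX_J_W s).e.comp (ESES.J'_JJ_XX s.gf).e')) hf).2
    have h2 : ∀ q q' : Q0.X, b ((0, ι 0 + q), (-(π (ι 0 + q)), ι 0 + q')) = 0 := fun q q' =>
      LinearMap.congr_fun h1 (((0, q), (0, q')) : (Q1.X × Q0.X) × (Q1.X × Q0.X))
    have h3 : ∀ q q' : Q0.X, a (0, q) = 0 ∧ a (-(π q), q') = 0 := by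
      intro q q'
      have h4 := h2 q q'
      rw [map_zero, zero_add, zero_add, hb] at h4
      exact ⟨congrArg Prod.fst h4, congrArg Prod.snd h4⟩
    have h5 : a ∘ₗ LinearMap.inl K T.X Q0.X = 0 := by
      refine hinj _ (e.gA.comp (isG_inl T Q0)) ?_
      refine LinearMap.ext fun q => ?_
      have h6 := (h3 q 0).2
      have h7 : a (-(π q), (0 : Q0.X)) = - a (π q, 0) := by
        have h8 := map_neg a ((π q, 0) : T.X × Q0.X)
        rw [← h8, Prod.neg_mk, neg_zero]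
      rw [h7, neg_eq_zero] at h6
      exact h6
    have ha : a = 0 := by
      refine LinearMap.ext fun z => ?_
      have h6 : a z = a (z.1, 0) + a (0, z.2) := by rw [← map_add]; simp
      have h7 : a (z.1, 0) = 0 := LinearMap.congr_fun h5 z.1
      rw [h6, h7, (h3 z.2 0).1, add_zero]
      rfl
    refine Md.map_eq_zero' e ha ?_
    refine LinearMap.ext fun z => ?_
    rw [hb, ha]
    rfl
  · intro f hf
    obtain ⟨a, b, e, rfl⟩ := p1.exists_map f
    have h1 := (pQ1'.map_eq_zero (e.comp (ESES.J'_JJ_XX s.gf).e) hf).2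
    -- the structure of `b`
    have hbt : ∀ y : Q1.X, b ((y, 0), (0, 0)) = (a y, 0) := fun y => e.t y
    have hbr : ∀ z : Q1.X × Q0.X, b (0, z) = (0, (b (z, 0)).1) := fun z => e.r (z, 0)
    let β0 : Q0.X →ₗ[K] F.X := LinearMap.fst K F.X F.X ∘ₗ b ∘ₗ
      LinearMap.inl K (Q1.X × Q0.X) (Q1.X × Q0.X) ∘ₗ LinearMap.inr K Q1.X Q0.X
    let β1 : Q0.X →ₗ[K] F.X := LinearMap.snd K F.X F.X ∘ₗ b ∘ₗ
      LinearMap.inl K (Q1.X × Q0.X) (Q1.X × Q0.X) ∘ₗ LinearMap.inr K Q1.X Q0.X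
    have hg : IsG Q0 F.ind (b ∘ₗ
        LinearMap.inl K (Q1.X × Q0.X) (Q1.X × Q0.X) ∘ₗ LinearMap.inr K Q1.X Q0.X) :=
      e.gB.comp ((isG_inl (Q1.prod Q0) (Q1.prod Q0).tau).comp (isG_inr Q1 Q0))
    have hβ0 : IsG Q0 F β0 := (isG_fst F F.tau).comp hg
    have hβ1 : IsG Q0 F.tau β1 := (isG_snd F F.tau).comp hg
    have hbβ : ∀ q : Q0.X, b ((0, q), 0) = (β0 q, β1 q) := fun q => rfl
    have hb1 : ∀ z : Q1.X × Q0.X, b (z, 0) = (a z.1 + β0 z.2, β1 z.2) := by
      intro z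
      have h2 : ((z, 0) : (Q1.X × Q0.X) × (Q1.X × Q0.X)) = ((z.1, 0), (0, 0)) + ((0, z.2), 0) := by
        ext <;> simp
      rw [h2, map_add, hbt, hbβ]
      simp only [Prod.mk_add_mk, zero_add]
    have hb : ∀ z : (Q1.X × Q0.X) × (Q1.X × Q0.X),
        b z = (a z.1.1 + β0 z.1.2, β1 z.1.2 + (a z.2.1 + β0 z.2.2)) := by
      intro z
      have h2 : z = (z.1, 0) + (0, z.2) := by simp
      have h3 : b z = b (z.1, 0) + b (0, z.2) := by rw [← map_add]; simp
      rw [h3, hbr, hb1, hb1]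
      simp only [Prod.mk_add_mk, add_zero]
    have h2 : ∀ y : Q1.X, a y = β0 (ι y) ∧ β1 (ι y) = 0 := by
      intro y
      have h3 : b ((y, -(ι y)), ((0 : Q1.X), -(ι 0))) = 0 :=
        LinearMap.congr_fun h1 ((y, 0) : Q1.X × Q1.X)
      rw [hb] at h3
      have h4 : a y + β0 (-(ι y)) = 0 := congrArg Prod.fst h3
      have h5 : β1 (-(ι y)) + (a 0 + β0 (-(ι 0))) = 0 := congrArg Prod.snd h3
      rw [map_neg, ← sub_eq_add_neg, sub_eq_zero] at h4
      rw [map_zero, map_zero, neg_zero, map_zero, add_zero, add_zero, map_neg, neg_eq_zero] at h5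
      exact ⟨h4, h5⟩
    obtain ⟨γ, hγ, hγπ⟩ := hex β1 hβ1 (LinearMap.ext fun y => (h2 y).2)
    have hγπ' : ∀ q, γ (π q) = β1 q := fun q => LinearMap.congr_fun hγπ q
    have hag : IsG (T.prod Q0) F ((-γ).coprod β0) := hγ.neg.coprod hβ0
    refine ⟨Md.map hag.J, ?_⟩
    refine Md.map_congr (hag.J.comp ((ESES.XX_J_W s).e.comp (ESES.J'_JJ_XX s.gf).e')) e ?_ ?_
    · refine LinearMap.ext fun y => ?_
      change -(γ 0) + β0 (ι y) = a y
      rw [map_zero, neg_zero, zero_add, (h2 y).1]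
    · refine LinearMap.ext fun z => ?_
      rw [hb]
      refine Prod.ext ?_ ?_
      · change -(γ 0) + β0 (ι z.1.1 + z.1.2) = a z.1.1 + β0 z.1.2
        rw [map_zero, neg_zero, zero_add, map_add, (h2 z.1.1).1]
      · change -(γ (-(π (ι z.1.1 + z.1.2)))) + β0 (ι z.2.1 + z.2.2) =
          β1 z.1.2 + (a z.2.1 + β0 z.2.2)
        rw [map_neg, neg_neg, hγπ', map_add, (h2 z.1.1).2, zero_add, map_add, (h2 z.2.1).1]
  · intro f
    obtain ⟨a, b, e, rfl⟩ := pQ1'.exists_map f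
    have hbr : ∀ z : Q1.X, b (0, z) = (0, (b (z, 0)).1) := fun z => e.r (z, 0)
    let β0 : Q1.X →ₗ[K] F.X := LinearMap.fst K F.X F.X ∘ₗ b ∘ₗ LinearMap.inl K Q1.X Q1.X
    let β1 : Q1.X →ₗ[K] F.X := LinearMap.snd K F.X F.X ∘ₗ b ∘ₗ LinearMap.inl K Q1.X Q1.X
    have hg : IsG Q1 F.ind (b ∘ₗ LinearMap.inl K Q1.X Q1.X) :=
      e.gB.comp (isG_inl Q1 Q1.tau)
    have hβ0 : IsG Q1 F β0 := (isG_fst F F.tau).comp hg
    have hβ1 : IsG Q1 F.tau β1 := (isG_snd F F.tau).comp hg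
    have hb : ∀ z : Q1.X × Q1.X, b z = (β0 z.1, β1 z.1 + β0 z.2) := by
      intro z
      have h3 : b z = b (z.1, 0) + b (0, z.2) := by rw [← map_add]; simp only [Prod.mk_add_mk, add_zero, zero_add, Prod.mk.eta]
      have h4 : b (z.1, 0) = (β0 z.1, β1 z.1) := rfl
      rw [h3, hbr, h4]
      refine Prod.ext ?_ rfl
      exact add_zero _
    obtain ⟨β, hβ, hβι⟩ := hsurj (-β1) hβ1.neg
    have hβι' : ∀ y, β (ι y) = -(β1 y) := fun y => LinearMap.congr_fun hβι y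
    let bg : ((Q1.X × Q0.X) × (Q1.X × Q0.X)) →ₗ[K] (F.X × F.X) :=
      (β0 ∘ₗ LinearMap.fst K Q1.X Q0.X ∘ₗ LinearMap.fst K _ _).prod
        (β ∘ₗ LinearMap.snd K Q1.X Q0.X ∘ₗ LinearMap.fst K _ _ +
          β0 ∘ₗ LinearMap.fst K Q1.X Q0.X ∘ₗ LinearMap.snd K _ _)
    have hbg : ∀ z, bg z = (β0 z.1.1, β z.1.2 + β0 z.2.1) := fun z => rfl
    have heg : IsE (EM.JJ Q1 Q0) (EM.J F) β0 bg := by
      refine ⟨hβ0, ⟨fun i z => ?_, fun i z => ?_, fun w m z hz => ?_⟩, fun z => ?_, fun z => ?_⟩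
      · refine Prod.ext (hβ0.x i z.1.1) ?_
        change β (Q0.x i z.1.2) + β0 (Q1.x i z.2.1) = F.x i (β z.1.2 + β0 z.2.1)
        rw [map_add, hβ0.x, hβ.x]
      · refine Prod.ext (hβ0.d i z.1.1) ?_
        change β (Q0.d i z.1.2) + β0 (Q1.d i z.2.1) = F.d i (β z.1.2 + β0 z.2.1)
        rw [map_add, hβ0.d, hβ.d]
      · exact ⟨hβ0.F _ _ _ hz.1.1, add_mem (hβ.F _ _ _ hz.1.2) (hβ0.F _ _ _ hz.2.1)⟩
      · rw [indR_apply, indR_apply, hbg, hbg]
        refine Prod.ext ?_ ?_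
        · exact map_zero β0
        · change β 0 + β0 z.1.1 = β0 z.1.1
          rw [map_zero, zero_add]
      · rw [hbg]
        refine Prod.ext rfl ?_
        change β 0 + β0 0 = 0
        rw [map_zero, map_zero, add_zero]
    refine ⟨Md.map heg, ?_⟩
    refine Md.map_congr (heg.comp (ESES.J'_JJ_XX s.gf).e) e ?_ ?_
    · refine LinearMap.ext fun y => ?_
      rw [Subsingleton.elim y 0, map_zero, map_zero]
    · refine LinearMap.ext fun z => ?_
      rw [hb]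
      refine Prod.ext rfl ?_
      change β (-(ι z.1)) + β0 z.2 = β1 z.1 + β0 z.2
      rw [map_neg, hβι', neg_neg]

end Vale.Agent.P195.Van
end
end

section

section

/-!
# P195: the sequence `0 → T_6² × O(0,b) → G_b² × O(0,2) → τ G_b → 0`, on line windows
-/

namespace Vale.Agent.P195.Van

open Vale.Agent.P195.Weyl

universe u

variable {K : Type u} [Field K]

/-- `((s,s'),t) ↦ ((jj s + (0,t), jj s' - (t,0)), t - s x₀ - s' x₁)` -/
noncomputable def iG : ((D K × D K) × D K) →ₗ[K] (((D K × D K) × (D K × D K)) × D K) :=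
  (((jj ∘ₗ LinearMap.fst K (D K) (D K) ∘ₗ LinearMap.fst K (D K × D K) (D K)) +
      LinearMap.inr K (D K) (D K) ∘ₗ LinearMap.snd K (D K × D K) (D K)).prod
    ((jj ∘ₗ LinearMap.snd K (D K) (D K) ∘ₗ LinearMap.fst K (D K × D K) (D K)) -
      LinearMap.inl K (D K) (D K) ∘ₗ LinearMap.snd K (D K × D K) (D K))).prod
  (LinearMap.snd K (D K × D K) (D K) - mu ∘ₗ LinearMap.fst K (D K × D K) (D K))

theorem iG_apply (z : (D K × D K) × D K) :
    iG z = ((jj z.1.1 + (0, z.2), jj z.1.2 - (z.2, 0)), z.2 - mu z.1) := rfl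

/-- `((h,h'),g) ↦ h x₀ + h' x₁ + jj g` -/
noncomputable def pG : (((D K × D K) × (D K × D K)) × D K) →ₗ[K] (D K × D K) :=
  (((Rx 0).prodMap (Rx 0)).coprod ((Rx 1).prodMap (Rx 1))).coprod jj

theorem pG_apply (z : ((D K × D K) × (D K × D K)) × D K) :
    pG z = ((Rx 0 z.1.1.1, Rx 0 z.1.1.2) + (Rx 1 z.1.2.1, Rx 1 z.1.2.2)) + jj z.2 := rfl

theorem pG_iG (z : (D K × D K) × D K) : pG (iG z) = 0 := by
  obtain ⟨⟨s, s'⟩, t⟩ := z
  rw [iG_apply, pG_apply]
  simp only [jj_apply, mu_apply, Prod.mk_add_mk, Prod.mk_sub_mk, map_add, map_sub, map_neg,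
    add_zero, sub_zero, Rx_comm 0 1]
  ext1
  · simp only [Prod.fst_zero]; abel
  · simp only [Prod.snd_zero]; abel

theorem iG_x (i : Fin 2) (z : (D K × D K) × D K) :
    iG ((Lx i z.1.1, Lx i z.1.2), Lx i z.2) =
      ((Lx2 i (iG z).1.1, Lx2 i (iG z).1.2), Lx i (iG z).2) := by
  rw [iG_apply, iG_apply]
  simp only [jj_apply, mu_apply, Prod.mk_add_mk, Prod.mk_sub_mk, Lx2_apply, map_add, map_sub,
    map_neg, Lx_Rx, add_zero, sub_zero]

theorem iG_d (i : Fin 2) (z : (D K × D K) × D K) :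
    iG ((Ld i z.1.1, Ld i z.1.2), Ld i z.2) =
      ((Ld2 i (iG z).1.1, Ld2 i (iG z).1.2), Ld i (iG z).2) := by
  rw [iG_apply, iG_apply]
  simp only [jj_apply, mu_apply, Prod.mk_add_mk, Prod.mk_sub_mk, Ld2_apply, map_add, map_sub,
    map_neg, Ld_Rx, add_zero, sub_zero]

theorem pG_x (i : Fin 2) (z : ((D K × D K) × (D K × D K)) × D K) :
    pG ((Lx2 i z.1.1, Lx2 i z.1.2), Lx i z.2) = Lx2 i (pG z) := by
  rw [pG_apply, pG_apply]
  simp only [jj_apply, Prod.mk_add_mk, Lx2_apply, map_add, map_neg, Lx_Rx]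

theorem pG_d (i : Fin 2) (z : ((D K × D K) × (D K × D K)) × D K) :
    pG ((Ld2 i z.1.1, Ld2 i z.1.2), Ld i z.2) = Ld2 i (pG z) := by
  rw [pG_apply, pG_apply]
  simp only [jj_apply, Prod.mk_add_mk, Ld2_apply, map_add, map_neg, Ld_Rx]

theorem Rx_pair_mem {b w e : ℤ} {h : D K × D K} (hh : h ∈ Weyl.GG K b w e) (i : Fin 2) :
    ((Rx i h.1, Rx i h.2) : D K × D K) ∈ Weyl.GG K b (w + 1) e := by
  rw [mem_GG] at hh ⊢
  refine ⟨⟨Rx_mem hh.1.1 i, Rx_mem hh.1.2 i⟩, ?_⟩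
  have h1 : mu (Rx i h.1, Rx i h.2) = Rx i (mu h) := by
    rw [mu_apply, mu_apply, map_add, Rx_comm 0 i, Rx_comm 1 i]
  rw [h1]
  exact Rx_mem hh.2 i

theorem iG_mem {b : ℤ} (hb : b ≤ 2) {w e : ℤ} {z : (D K × D K) × D K}
    (h1 : z.1.1 ∈ V K (w - 1) (e + 2)) (h2 : z.1.2 ∈ V K (w - 1) (e + 2))
    (h3 : z.2 ∈ V K w (b + e)) :
    ((iG z).1.1 ∈ Weyl.GG K b w e ∧ (iG z).1.2 ∈ Weyl.GG K b w e) ∧ (iG z).2 ∈ V K w (e + 2) := by
  rw [iG_apply]
  refine ⟨⟨?_, ?_⟩, ?_⟩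
  · exact Submodule.add_mem _ (jj_mem (cV h1 (by ring) (by ring))) (pair_mem_GG hb (Submodule.zero_mem _) h3)
  · exact Submodule.sub_mem _ (jj_mem (cV h2 (by ring) (by ring))) (pair_mem_GG hb h3 (Submodule.zero_mem _))
  · refine Submodule.sub_mem _ (V_mono (by omega) h3) (Submodule.add_mem _ ?_ ?_)
    · exact cV (Rx_mem h1 0) (by ring) (by ring)
    · exact cV (Rx_mem h2 1) (by ring) (by ring)

theorem pG_mem {b w e : ℤ} {z : ((D K × D K) × (D K × D K)) × D K}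
    (h1 : z.1.1 ∈ Weyl.GG K b w e) (h2 : z.1.2 ∈ Weyl.GG K b w e) (h3 : z.2 ∈ V K w (e + 2)) :
    pG z ∈ Weyl.GG K b (w + 1) e := by
  rw [pG_apply]
  exact Submodule.add_mem _ (Submodule.add_mem _ (Rx_pair_mem h1 0) (Rx_pair_mem h2 1))
    (jj_mem (cV h3 (by ring) (by ring)))

theorem iG_inj {z : (D K × D K) × D K} (h : iG z = 0) : z = 0 := by
  obtain ⟨⟨s, s'⟩, t⟩ := z
  rw [iG_apply] at h
  have h1 : Rx 1 s = 0 := by
    have := congrArg (fun p => p.1.1.1) h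
    simpa only [Fin.isValue, jj_apply, Prod.mk_add_mk, add_zero, Prod.fst_zero] using this
  have h2 : Rx 0 s' = 0 := by
    have := congrArg (fun p => p.1.2.2) h
    simpa only [Fin.isValue, jj_apply, Prod.mk_sub_mk, sub_zero, Prod.fst_zero, Prod.snd_zero, neg_eq_zero] using     this
  have h3 : s = 0 := Rx_inj 1 (h1.trans (map_zero _).symm)
  have h4 : s' = 0 := Rx_inj 0 (h2.trans (map_zero _).symm)
  subst h3 h4
  have h5 : t = 0 := by
    have := congrArg (fun p => p.2) h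
    simpa only [mu_apply, Fin.isValue, map_zero, add_zero, sub_zero, Prod.snd_zero] using this
  subst h5
  rfl

theorem iG_exact {b w e : ℤ} {z : ((D K × D K) × (D K × D K)) × D K}
    (h1 : z.1.1 ∈ Weyl.GG K b w e) (h2 : z.1.2 ∈ Weyl.GG K b w e) (h3 : z.2 ∈ V K w (e + 2))
    (h0 : pG z = 0) : ∃ y : (D K × D K) × D K, (y.1.1 ∈ V K (w - 1) (e + 2) ∧
      y.1.2 ∈ V K (w - 1) (e + 2)) ∧ y.2 ∈ V K w (b + e) ∧ iG y = z := by
  obtain ⟨⟨⟨h, k⟩, ⟨h', k'⟩⟩, g⟩ := z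
  rw [mem_GG] at h1 h2
  simp only at h1 h2 h3
  rw [pG_apply] at h0
  have e1 : Rx 0 h + Rx 1 h' + Rx 1 g = 0 := by
    have := congrArg Prod.fst h0
    simpa only [Fin.isValue, Prod.mk_add_mk, jj_apply, Prod.fst_zero] using this
  have e2 : Rx 0 k + Rx 1 k' - Rx 0 g = 0 := by
    have := congrArg Prod.snd h0
    simpa only [Fin.isValue, sub_eq_add_neg, Prod.mk_add_mk, jj_apply, Prod.snd_zero] using this
  obtain ⟨s, hs, a1, a2⟩ := Rx_kos (w := w - 1) (d := e + 2) (p := h' + g) (q := -h)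
    (cV (Submodule.add_mem _ h2.1.1 h3) (by ring) (by ring)) (by
      rw [map_add, map_neg, eq_neg_iff_add_eq_zero, ← e1]; abel)
  obtain ⟨s', hs', b1, b2⟩ := Rx_kos (w := w - 1) (d := e + 2) (p := k') (q := g - k)
    (cV h2.1.2 (by ring) (by ring)) (by
      rw [map_sub, eq_sub_iff_add_eq, ← sub_eq_zero, ← e2]; abel)
  have hh : h = -Rx 1 s := by rw [← a2, neg_neg]
  have hk' : k' = Rx 0 s' := b1
  have hh' : h' = Rx 0 s - g := by rw [← a1]; abel
  have hg : k = g - Rx 1 s' := by rw [← b2]; abel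
  refine ⟨((-s, -s'), k - Rx 0 s), ⟨Submodule.neg_mem _ hs, Submodule.neg_mem _ hs'⟩, ?_, ?_⟩
  · have h4 : Rx 1 (k - Rx 0 s) = mu (h, k) := by
      rw [mu_apply, map_sub, hh, map_neg, Rx_comm 0 1]; abel
    rw [← Rx_mem_iff 1, h4]
    exact h1.2
  · rw [iG_apply]
    refine Prod.ext (Prod.ext (Prod.ext ?_ ?_) (Prod.ext ?_ ?_)) ?_
    · simp [hh]
    · simp
    · change Rx 1 (-s') - (k - Rx 0 s) = h'
      rw [hh', hg, map_neg]; abel
    · simp [hk']
    · simp only [mu_apply, map_neg]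
      rw [hg]; abel

theorem pG_surj {b w e : ℤ} (hb : b ≤ 2) (hw : 0 ≤ w) {u : D K × D K}
    (hu : u ∈ Weyl.GG K b (w + 1) e) : ∃ y : ((D K × D K) × (D K × D K)) × D K,
      (y.1.1 ∈ Weyl.GG K b w e ∧ y.1.2 ∈ Weyl.GG K b w e) ∧ y.2 ∈ V K w (e + 2) ∧ pG y = u := by
  obtain ⟨p, hp, q, hq, g, hg, rfl⟩ := GG_gen' hb hu
  obtain ⟨a0, ha0, b0, hb0, rfl⟩ := Rx_surj hw hp
  obtain ⟨a1, ha1, b1, hb1, rfl⟩ := Rx_surj hw hq
  refine ⟨(((a0, a1), (b0, b1)), g), ⟨pair_mem_GG hb ha0 ha1, pair_mem_GG hb hb0 hb1⟩, cV hg (by ring) (by ring), ?_⟩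
  rw [pG_apply]
  rfl

end Vale.Agent.P195.Van
end
end

section

section

/-!
# P195: the six sequences `0 → Q₁ → Q₀ → τ T_v → 0`
-/

namespace Vale.Agent.P195.Van

open Vale.Agent.P195.Weyl

universe u

variable {K : Type u} [Field K]

/-- `O(a,c) → O(a',c)` for `a = a' + 1`, as the shift of `O(a',c)`. -/
theorem isG_to_tau {A : GM K} {a a' c : ℤ} (h : a = a' + 1) {f : A.X →ₗ[K] D K}
    (hf : IsG A (OO K a c) f) : IsG A (OO K a' c).tau f :=
  ⟨hf.x, hf.d, fun w e z hz => by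
    have h1 : f z ∈ V K (a + w) (c + e) := hf.F w e z hz
    have h2 : f z ∈ V K (a' + (w + 1)) (c + e) := cV h1 (by omega) rfl
    exact h2⟩

theorem lex_to_tau {A B : GM K} {a a' c : ℤ} (h : a = a' + 1) {f : A.X →ₗ[K] B.X}
    {g : B.X →ₗ[K] D K} {w e : ℤ} (hl : LEx A B (OO K a c) f g w e) :
    LEx A B (OO K a' c).tau f g w e :=
  ⟨hl.inj, hl.exact, fun z hz => hl.surj z (by
    have h1 : z ∈ V K (a' + (w + 1)) (c + e) := hz
    have h2 : z ∈ V K (a + w) (c + e) := cV h1 (by omega) rfl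
    exact h2)⟩

theorem q2 : GSES (OO K (-1) 2) ((OO K 0 2).prod (OO K 0 2)) (OO K 0 2).tau jj mu :=
  gses_of_line (isG_jj (-1) 0 2 rfl) (isG_to_tau (by norm_num) (isG_mu 0 1 2 rfl)) mu_jj
    (fun b _ _ => lex_to_tau (by norm_num) (lex_s2 (a'' := 1) rfl rfl (by norm_num) _))
    (fun b _ _ => lex_to_tau (by norm_num) (lex_s2 (a'' := 1) rfl rfl (by norm_num) _))
    (fun b _ _ => F4_T6 _)

theorem q01 {b : ℤ} (hb : b ≤ 2) : GSES (OO K (-1) 2) (GG K b) (OO K 0 b).tau jj mu :=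
  gses_of_line (isG_jjG b) (isG_to_tau (by norm_num) (isG_muG b)) mu_jj
    (fun _ _ _ => lex_to_tau (by norm_num) (lex_s1 hb (by norm_num) _))
    (fun _ _ _ => lex_to_tau (by norm_num) (lex_s1 hb (by norm_num) _)) (fun _ _ _ => F4_T6 _)

theorem q5 : GSES (GM.zero K) (OO K 0 2) (OO K (-1) 2).tau 0
    (LinearMap.id : D K →ₗ[K] D K) :=
  gses_of_line (IsG.zero _ _) (isG_to_tau (A := OO K 0 2) (by norm_num) (IsG.id (OO K 0 2)))
    (fun z => rfl)
    (fun b _ _ => ⟨fun _ _ _ => Subsingleton.elim _ _, fun z _ h => ⟨0, trivial, h.symm⟩,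
      fun z hz => ⟨z, cV hz (by ring) (by ring), rfl⟩⟩)
    (fun b _ _ => ⟨fun _ _ _ => Subsingleton.elim _ _, fun z _ h => ⟨0, trivial, h.symm⟩,
      fun z hz => ⟨z, cV hz (by ring) (by ring), rfl⟩⟩)
    (fun b _ _ z _ => ⟨0, trivial, 0, trivial, 0, trivial, Subsingleton.elim _ _⟩)

theorem isG_iG {b : ℤ} (hb : b ≤ 2) :
    IsG (((OO K (-1) 2).prod (OO K (-1) 2)).prod (OO K 0 b))
      (((GG K b).prod (GG K b)).prod (OO K 0 2)) iG := by
  refine ⟨fun i z => iG_x i z, fun i z => iG_d i z, fun w e z hz => ?_⟩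
  obtain ⟨⟨h1, h2⟩, h3⟩ := iG_mem hb (w := w) (e := e) (z := z) (cV hz.1.1 (by ring) (by ring)) (cV hz.1.2 (by ring) (by ring))
    (cV hz.2 (by ring) (by ring))
  exact ⟨⟨h1, h2⟩, cV h3 (by ring) (by ring)⟩

theorem isG_pG (b : ℤ) :
    IsG (((GG K b).prod (GG K b)).prod (OO K 0 2)) (GG K b).tau pG :=
  ⟨fun i z => pG_x i z, fun i z => pG_d i z, fun w e z hz =>
    pG_mem (w := w) (e := e) (z := z) hz.1.1 hz.1.2 (cV hz.2 (by ring) (by ring))⟩

theorem lex_qG {b : ℤ} (hb : b ≤ 2) {w : ℤ} (hw : 0 ≤ w) (e : ℤ) :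
    LEx (((OO K (-1) 2).prod (OO K (-1) 2)).prod (OO K 0 b))
      (((GG K b).prod (GG K b)).prod (OO K 0 2)) (GG K b).tau iG pG w e := by
  refine ⟨fun z _ h => iG_inj h, fun z hz h => ?_, fun z hz => ?_⟩
  · obtain ⟨y, ⟨h1, h2⟩, h3, h4⟩ := iG_exact (w := w) (e := e) hz.1.1 hz.1.2 (cV hz.2 (by ring) (by ring)) h
    exact ⟨y, ⟨⟨cV h1 (by ring) (by ring), cV h2 (by ring) (by ring)⟩, cV h3 (by ring) (by ring)⟩, h4⟩
  · obtain ⟨y, ⟨h1, h2⟩, h3, h4⟩ := pG_surj hb hw hz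
    exact ⟨y, ⟨⟨h1, h2⟩, cV h3 (by ring) (by ring)⟩, h4⟩

theorem qG {b : ℤ} (_ : 0 ≤ b) (hb1 : b ≤ 1) :
    GSES (((OO K (-1) 2).prod (OO K (-1) 2)).prod (OO K 0 b))
      (((GG K b).prod (GG K b)).prod (OO K 0 2)) (GG K b).tau iG pG :=
  gses_of_line (isG_iG (by omega)) (isG_pG b) pG_iG
    (fun _ _ _ => lex_qG (by omega) (by norm_num) _)
    (fun _ _ _ => lex_qG (by omega) (by norm_num) _)
    (fun _ _ _ => ((F4_T6 _).prod (F4_T6 _)).prod (F4_O (by norm_num) _ _))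

end Vale.Agent.P195.Van
end
end

section

section

/-!
# P195, step A: the concrete part (conditions on maps into `F = T_w`)
-/

open Vale.Agent.P195.Weyl MvPolynomial

namespace Vale.Agent.P195.Van

universe u

variable {K : Type u} [Field K]

/-! ### The properties of the objects `F = T_w` used in step A -/

/-- The properties F2, F3, F4. -/
structure AF (F : GM K) : Prop where
  inj : ∀ i, Function.Injective (F.x i)
  F2 : ∀ d, ∀ p ∈ F.F 1 d, ∀ q, F.x 1 p = F.x 0 q →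
    ∃ z ∈ F.F 0 d, p = F.x 0 z ∧ q = F.x 1 z
  F3 : ∀ p ∈ F.F 2 (-2), ∃ a ∈ F.F 1 (-2), ∃ b ∈ F.F 1 (-2), p = F.x 0 a + F.x 1 b
  F4 : ∀ d, ∀ p ∈ F.F 1 d, ∃ c ∈ F.F 1 (-2), ∃ a ∈ F.F 0 d, ∃ b ∈ F.F 0 d,
    p = c + F.x 0 a + F.x 1 b

theorem AF_OO {a b : ℤ} (ha : 0 ≤ a) : AF (OO K a b) where
  inj := Lx_inj
  F2 d p hp q h := by
    obtain ⟨z, hz, h1, h2⟩ := Lx_kos (w := a) (d := b + d) hp h
    exact ⟨z, by simpa using hz, h1, h2⟩
  F3 p hp := by
    obtain ⟨p, hp, q, hq, h⟩ := Lx_surj (w := a + 1) (d := b + (-2)) (by omega)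
      (by rw [show a + 1 + 1 = a + 2 by ring]; exact hp)
    exact ⟨p, hp, q, hq, h⟩
  F4 d p hp := by
    obtain ⟨p, hp, q, hq, h⟩ := Lx_surj (w := a) (d := b + d) ha hp
    exact ⟨0, Submodule.zero_mem _, p, by simpa using hp, q, by simpa using hq, by
      rw [zero_add]; exact h⟩

theorem AF_T6 : AF (OO K (-1) 2) where
  inj := Lx_inj
  F2 d p hp q h := by
    obtain ⟨z, hz, h1, h2⟩ := Lx_kos (w := -1) (d := 2 + d) hp h
    exact ⟨z, by simpa only [Int.reduceNeg, add_zero] using hz, h1, h2⟩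
  F3 p hp := by
    obtain ⟨p, hp, q, hq, h⟩ := Lx_surj (w := 0) (d := 2 + (-2)) (by omega)
      (by simpa using hp)
    exact ⟨p, by simpa using hp, q, by simpa using hq, h⟩
  F4 d p hp := by
    obtain ⟨c, p, hp, q, hq, h⟩ := Lx_surj0 (d := 2 + d) (by simpa using hp)
    refine ⟨c • 1, ?_, p, by simpa using hp, q, by simpa using hq, h⟩
    simpa only [Int.reduceNeg, neg_add_cancel, add_neg_cancel] using Submodule.smul_mem _ c one_mem_V

theorem AF_GG {b : ℤ} (hb : b ≤ 1) : AF (GG K b) where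
  inj i := by
    intro p q h
    exact Prod.ext (Lx_inj i (congrArg Prod.fst h)) (Lx_inj i (congrArg Prod.snd h))
  F2 d p hp q h := GG_F2 (w := 0) hp h
  F3 p hp := GG_F3 hb le_rfl hp
  F4 d p hp := GG_F4 (by omega) hp

theorem AF_TT (i : Fin 6) : AF (TT K i) := by
  fin_cases i
  · exact AF_OO le_rfl
  · exact AF_OO le_rfl
  · exact AF_OO le_rfl
  · exact AF_GG (by norm_num)
  · exact AF_GG le_rfl
  · exact AF_T6

/-! ### The conditions on maps -/

/-- The three conditions of step A for a presentation `Q1 → Q0 → T` and a target `F`. -/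
structure SA (T Q0 Q1 F : GM K) (ι : Q1.X →ₗ[K] Q0.X) (π : Q0.X →ₗ[K] T.X) : Prop where
  inj : ∀ γ, IsG T F γ → γ ∘ₗ π = 0 → γ = 0
  ex : ∀ β, IsG Q0 F.tau β → β ∘ₗ ι = 0 → ∃ γ, IsG T F γ ∧ γ ∘ₗ π = β
  surj : ∀ β', IsG Q1 F.tau β' → ∃ β, IsG Q0 F.tau β ∧ β ∘ₗ ι = β'

variable {F : GM K}

/-- `T_6` -/
theorem SA_5 : SA (OO K (-1) 2) (OO K 0 2) (GM.zero K) F
    (0 : (GM.zero K).X →ₗ[K] D K) (LinearMap.id : D K →ₗ[K] D K) where
  inj γ _ h := h
  ex β hβ _ := by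
    refine ⟨β, ⟨hβ.x, hβ.d, fun w e z hz => ?_⟩, LinearMap.comp_id _⟩
    have := hβ.F (w - 1) e z (by
      change z ∈ V K (0 + (w - 1)) (2 + e)
      rw [show 0 + (w - 1) = -1 + w by ring]; exact hz)
    change β z ∈ F.F (w - 1 + 1) e at this
    rwa [show w - 1 + 1 = w by ring] at this
  surj β' _ := ⟨0, IsG.zero _ _, LinearMap.ext fun z => by
    rw [Subsingleton.elim z 0, map_zero, map_zero]⟩

/-- values of the equivariant maps on `jj 1` -/
theorem eval_jj {b : ℤ} {Z : GM K} {φ : (D K × D K) →ₗ[K] Z.X} (hφ : IsG (GG K b) Z φ) :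
    φ (jj 1) = Z.x 1 (φ (1, 0)) - Z.x 0 (φ (0, 1)) := by
  have h1 : jj (1 : D K) = Lx2 1 (1, 0) - Lx2 0 (0, 1) := by
    ext1 <;> simp only [jj_apply, Fin.isValue, Rx_one, Lx2_apply, Lx_one, map_zero, Prod.mk_sub_mk, sub_zero, zero_sub]
  rw [h1, map_sub]
  congr 1
  · exact hφ.x 1 (1, 0)
  · exact hφ.x 0 (0, 1)

/-- to give an equivariant map into `τ F` -/
theorem IsG.comp_tau {A T F : GM K} {φ : A.X →ₗ[K] T.X} {γ : T.X →ₗ[K] F.X} (hγ : IsG T F γ)
    (hφ : IsG A T.tau φ) : IsG A F.tau (γ ∘ₗ φ) := hγ.tau.comp hφ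

theorem isG_mu' {b : ℤ} : IsG (GG K b) (OO K 0 b).tau (mu : D K × D K →ₗ[K] D K) where
  x i z := mu_Lx2 i z
  d i z := mu_Ld2 i z
  F w e z hz := by
    have := (mem_GG.1 hz).2
    change mu z ∈ V K (0 + (w + 1)) (b + e)
    rwa [zero_add]

/-- `T = O(0,b)`, `b = 0, 1`: `0 → T_6 → G_b → τ O(0,b) → 0` -/
theorem SA_line (hF : AF F) {b : ℤ} (hb : b ≤ 2) :
    SA (OO K 0 b) (GG K b) (OO K (-1) 2) F jj mu where
  inj γ hγ h := by
    refine OO_ext hγ (IsG.zero _ _) ?_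
    have h1 := LinearMap.congr_fun h ((1 : D K), (0 : D K))
    rw [LinearMap.comp_apply, mu_apply] at h1
    simp only [map_zero, add_zero, Rx_one, LinearMap.zero_apply] at h1
    rw [← Lx_one, show γ (Lx 0 1) = F.x 0 (γ 1) from hγ.x 0 1] at h1
    rw [LinearMap.zero_apply]
    exact hF.inj 0 (by rw [h1, map_zero])
  ex β hβ h := by
    have h1 : β (1, 0) ∈ F.F 1 (-b) := by
      have := hβ.F 0 (-b) (1, 0) (by
        refine pair_mem_GG hb (w := 0) ?_ (Submodule.zero_mem _)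
        rw [add_neg_cancel]; exact one_mem_V)
      simpa using this
    have h2 : F.x 1 (β (1, 0)) = F.x 0 (β (0, 1)) := by
      have h3 := LinearMap.congr_fun h (1 : D K)
      rw [LinearMap.comp_apply, LinearMap.zero_apply] at h3
      have h4 := eval_jj hβ
      rw [h3] at h4
      exact (sub_eq_zero.1 h4.symm)
    obtain ⟨z, hz, e1, e2⟩ := hF.F2 _ _ h1 _ h2
    obtain ⟨γ, hγ, hγ1⟩ := OO_ex 0 b F (z := z) (by simpa using hz)
    refine ⟨γ, hγ, GG_ext (Z := F.tau) (hγ.comp_tau isG_mu') hβ ?_ ?_⟩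
    · rw [LinearMap.comp_apply, mu_apply]
      simp only [Rx_one, map_zero, add_zero]
      rw [← Lx_one, show γ (Lx 0 1) = F.x 0 (γ 1) from hγ.x 0 1, hγ1, e1]
    · rw [LinearMap.comp_apply, mu_apply]
      simp only [map_zero, zero_add, Rx_one]
      rw [← Lx_one, show γ (Lx 1 1) = F.x 1 (γ 1) from hγ.x 1 1, hγ1, e2]
  surj β' hβ' := by
    have h1 : β' 1 ∈ F.F 2 (-2) := by
      have := hβ'.F 1 (-2) 1 (by simpa only [Int.reduceNeg, neg_add_cancel, add_neg_cancel] using one_mem_V)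
      simpa only [Int.reduceNeg, Int.reduceAdd] using this
    obtain ⟨a, ha, c, hc, e⟩ := hF.F3 _ h1
    have hc' : c ∈ F.F 1 (-b) := GM.mono' F (by omega) hc
    have ha' : a ∈ F.F 1 (-b) := GM.mono' F (by omega) ha
    obtain ⟨β, hβ, k1, k2⟩ := GG_ex hb F.tau (z := (c, -a)) ⟨hc', Submodule.neg_mem _ ha', by
      change F.x 1 c - F.x 0 (-a) ∈ F.F (1 + 1) (-2)
      rw [map_neg, sub_neg_eq_add, add_comm (F.x 1 c), ← e]
      exact h1⟩
    refine ⟨β, hβ, OO_ext (Z := F.tau) (hβ.comp (isG_jjG b)) hβ' ?_⟩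
    rw [LinearMap.comp_apply, eval_jj hβ, k1, k2, e]
    change F.x 1 c - F.x 0 (-a) = _
    rw [map_neg, sub_neg_eq_add, add_comm]

theorem iG_apply' (z : (D K × D K) × D K) :
    iG z = ((jj z.1.1 + (0, z.2), jj z.1.2 - (z.2, 0)), z.2 - Rx 0 z.1.1 - Rx 1 z.1.2) := by
  rw [iG_apply, mu_apply, sub_sub]

theorem pG_apply' (z : ((D K × D K) × (D K × D K)) × D K) :
    pG z = (Rx 0 z.1.1.1 + Rx 1 z.1.2.1, Rx 0 z.1.1.2 + Rx 1 z.1.2.2) + jj z.2 := rfl

theorem SA_G_inj (hF : AF F) {b : ℤ} {γ : D K × D K →ₗ[K] F.X} (hγ : IsG (GG K b) F γ)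
    (h : γ ∘ₗ pG = 0) : γ = 0 := by
  refine GG_ext hγ (IsG.zero _ _) ?_ ?_
  · have h1 := LinearMap.congr_fun h (((((1 : D K), (0 : D K)), ((0 : D K), (0 : D K))) :
      (D K × D K) × (D K × D K)), (0 : D K))
    rw [LinearMap.comp_apply, pG_apply'] at h1
    have h2 : ((Rx 0 (1 : D K) + Rx 1 (0 : D K), Rx 0 (0 : D K) + Rx 1 (0 : D K)) + jj 0 :
      D K × D K) = Lx2 0 (1, 0) := by simp
    simp only at h1
    rw [h2] at h1
    rw [LinearMap.zero_apply] at h1 ⊢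
    exact hF.inj 0 (by rw [← show γ (Lx2 0 (1, 0)) = F.x 0 (γ (1, 0)) from hγ.x 0 (1, 0), h1,
      map_zero])
  · have h1 := LinearMap.congr_fun h (((((0 : D K), (1 : D K)), ((0 : D K), (0 : D K))) :
      (D K × D K) × (D K × D K)), (0 : D K))
    rw [LinearMap.comp_apply, pG_apply'] at h1
    have h2 : ((Rx 0 (0 : D K) + Rx 1 (0 : D K), Rx 0 (1 : D K) + Rx 1 (0 : D K)) + jj 0 :
      D K × D K) = Lx2 0 (0, 1) := by simp
    simp only at h1
    rw [h2] at h1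
    rw [LinearMap.zero_apply] at h1 ⊢
    exact hF.inj 0 (by rw [← show γ (Lx2 0 (0, 1)) = F.x 0 (γ (0, 1)) from hγ.x 0 (0, 1), h1,
      map_zero])

theorem SA_G_ex (hF : AF F) {b : ℤ} (hb : b ≤ 2)
    {β : ((D K × D K) × (D K × D K)) × D K →ₗ[K] F.X}
    (hβ : IsG (((GG K b).prod (GG K b)).prod (OO K 0 2)) F.tau β)
    (h : β ∘ₗ iG = 0) : ∃ γ : D K × D K →ₗ[K] F.X, IsG (GG K b) F γ ∧ γ ∘ₗ pG = β := by
  have e1 : IsG (GG K b) F.tau (β ∘ₗ LinearMap.inl K _ _ ∘ₗ LinearMap.inl K _ _) :=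
    hβ.comp ((isG_inl _ _).comp (isG_inl (GG K b) (GG K b)))
  have e2 : IsG (GG K b) F.tau (β ∘ₗ LinearMap.inl K _ _ ∘ₗ LinearMap.inr K _ _) :=
    hβ.comp ((isG_inl _ _).comp (isG_inr (GG K b) (GG K b)))
  have e3 : IsG (OO K 0 2) F.tau (β ∘ₗ LinearMap.inr K _ _) :=
    hβ.comp (isG_inr _ _)
  obtain ⟨φ, hφd⟩ : ∃ φ : D K × D K →ₗ[K] F.X,
    φ = β ∘ₗ LinearMap.inl K _ _ ∘ₗ LinearMap.inl K _ _ := ⟨_, rfl⟩
  obtain ⟨φ', hφd'⟩ : ∃ φ' : D K × D K →ₗ[K] F.X,
    φ' = β ∘ₗ LinearMap.inl K _ _ ∘ₗ LinearMap.inr K _ _ := ⟨_, rfl⟩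
  obtain ⟨ψ, hψd⟩ : ∃ ψ : D K →ₗ[K] F.X, ψ = β ∘ₗ LinearMap.inr K _ _ := ⟨_, rfl⟩
  rw [← hφd] at e1
  rw [← hφd'] at e2
  rw [← hψd] at e3
  have hβe : ∀ z, β z = φ z.1.1 + φ' z.1.2 + ψ z.2 := by
    intro z
    rw [hφd, hφd', hψd]
    simp only [LinearMap.comp_apply, LinearMap.inl_apply, LinearMap.inr_apply]
    rw [← map_add, ← map_add]
    refine congrArg β ?_
    simp
  -- the three relations
  have r1 : F.x 1 (φ (1, 0)) - F.x 0 (φ (0, 1)) = F.x 0 (ψ 1) := by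
    have h1 := LinearMap.congr_fun h (((1 : D K), (0 : D K)), (0 : D K))
    rw [LinearMap.comp_apply, iG_apply', hβe, LinearMap.zero_apply] at h1
    simp only [map_zero, zero_sub, sub_zero, Rx_one, Prod.mk_zero_zero, add_zero, map_neg] at h1
    rw [eval_jj e1, ← Lx_one, show ψ (Lx 0 1) = F.x 0 (ψ 1) from e3.x 0 1,
      ← sub_eq_add_neg] at h1
    exact sub_eq_zero.1 h1
  have r2 : F.x 1 (φ' (1, 0)) - F.x 0 (φ' (0, 1)) = F.x 1 (ψ 1) := by
    have h1 := LinearMap.congr_fun h (((0 : D K), (1 : D K)), (0 : D K))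
    rw [LinearMap.comp_apply, iG_apply', hβe, LinearMap.zero_apply] at h1
    simp only [map_zero, Prod.mk_zero_zero, add_zero, sub_zero, zero_add, Rx_one, zero_sub, map_neg] at h1
    rw [eval_jj e2, ← Lx_one, show ψ (Lx 1 1) = F.x 1 (ψ 1) from e3.x 1 1,
      ← sub_eq_add_neg] at h1
    exact sub_eq_zero.1 h1
  have r3 : φ' (1, 0) = φ (0, 1) + ψ 1 := by
    have h1 := LinearMap.congr_fun h (((0 : D K), (0 : D K)), (1 : D K))
    rw [LinearMap.comp_apply, iG_apply', hβe, LinearMap.zero_apply] at h1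
    simp only [map_zero, zero_sub, sub_zero, zero_add, map_neg] at h1
    rw [← sub_eq_zero, ← neg_eq_zero, ← h1]
    abel
  have p0 : φ (1, 0) ∈ F.F 1 (-b) := by
    have := e1.F 0 (-b) (1, 0) (by
      refine pair_mem_GG hb (w := 0) ?_ (Submodule.zero_mem _)
      rw [add_neg_cancel]; exact one_mem_V)
    simpa only [zero_add] using this
  have p1 : φ (0, 1) ∈ F.F 1 (-b) := by
    have := e1.F 0 (-b) (0, 1) (by
      refine pair_mem_GG hb (w := 0) (Submodule.zero_mem _) ?_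
      rw [add_neg_cancel]; exact one_mem_V)
    simpa only [zero_add] using this
  have p2 : ψ 1 ∈ F.F 1 (-2) := by
    have := e3.F 0 (-2) 1 (by simpa only [add_zero, Int.reduceNeg, add_neg_cancel] using one_mem_V)
    simpa only [Int.reduceNeg, zero_add] using this
  obtain ⟨z, hz, a1, a2⟩ := hF.F2 _ _ p0 (φ' (1, 0)) (by
    rw [r3, map_add, ← r1]; abel)
  obtain ⟨z', hz', b1, b2⟩ := hF.F2 _ _ p1 (φ' (0, 1)) (by
    rw [r3, map_add, sub_eq_iff_eq_add, add_comm] at r2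
    exact add_left_cancel r2)
  have r4 : ψ 1 = F.x 1 z - F.x 0 z' := by
    rw [← a2, ← b1, r3]; abel
  obtain ⟨γ, hγ, g1, g2⟩ := GG_ex hb F (z := (z, z')) ⟨hz, hz', by rw [← r4]; exact p2⟩
  simp only at g1 g2
  have hγp := hγ.comp_tau (isG_pG (K := K) b)
  have k1 : (γ ∘ₗ pG) ∘ₗ LinearMap.inl K _ _ ∘ₗ LinearMap.inl K _ _ = φ := by
    refine GG_ext (Z := F.tau)
      (hγp.comp ((isG_inl _ _).comp (isG_inl (GG K b) (GG K b)))) e1 ?_ ?_
    · simp only [LinearMap.comp_apply, LinearMap.inl_apply, pG_apply']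
      have : ((Rx 0 (1 : D K) + Rx 1 (0 : D K × D K).1, Rx 0 (0 : D K) +
        Rx 1 (0 : D K × D K).2) + jj 0 : D K × D K) = Lx2 0 (1, 0) := by simp
      rw [this, show γ (Lx2 0 (1, 0)) = F.x 0 (γ (1, 0)) from hγ.x 0 (1, 0), g1, a1]
    · simp only [LinearMap.comp_apply, LinearMap.inl_apply, pG_apply']
      have : ((Rx 0 (0 : D K) + Rx 1 (0 : D K × D K).1, Rx 0 (1 : D K) +
        Rx 1 (0 : D K × D K).2) + jj 0 : D K × D K) = Lx2 0 (0, 1) := by simp only [Fin.isValue, map_zero, Prod.fst_zero, add_zero, Rx_one, Prod.snd_zero, jj_apply, neg_zero, Prod.mk_add_mk, Lx2_apply, Lx_one]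
      rw [this, show γ (Lx2 0 (0, 1)) = F.x 0 (γ (0, 1)) from hγ.x 0 (0, 1), g2, b1]
  have k2 : (γ ∘ₗ pG) ∘ₗ LinearMap.inl K _ _ ∘ₗ LinearMap.inr K _ _ = φ' := by
    refine GG_ext (Z := F.tau)
      (hγp.comp ((isG_inl _ _).comp (isG_inr (GG K b) (GG K b)))) e2 ?_ ?_
    · simp only [LinearMap.comp_apply, LinearMap.inl_apply, LinearMap.inr_apply, pG_apply']
      have : ((Rx 0 (0 : D K × D K).1 + Rx 1 (1 : D K), Rx 0 (0 : D K × D K).2 +
        Rx 1 (0 : D K)) + jj 0 : D K × D K) = Lx2 1 (1, 0) := by simp only [Fin.isValue, Prod.fst_zero, map_zero, Rx_one, zero_add, Prod.snd_zero, add_zero, jj_apply, neg_zero, Prod.mk_add_mk, Lx2_apply, Lx_one]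
      rw [this, show γ (Lx2 1 (1, 0)) = F.x 1 (γ (1, 0)) from hγ.x 1 (1, 0), g1, a2]
    · simp only [LinearMap.comp_apply, LinearMap.inl_apply, LinearMap.inr_apply, pG_apply']
      have : ((Rx 0 (0 : D K × D K).1 + Rx 1 (0 : D K), Rx 0 (0 : D K × D K).2 +
        Rx 1 (1 : D K)) + jj 0 : D K × D K) = Lx2 1 (0, 1) := by simp only [Fin.isValue, Prod.fst_zero, map_zero, add_zero, Prod.snd_zero, Rx_one, zero_add, jj_apply, neg_zero, Prod.mk_add_mk, Lx2_apply, Lx_one]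
      rw [this, show γ (Lx2 1 (0, 1)) = F.x 1 (γ (0, 1)) from hγ.x 1 (0, 1), g2, b2]
  have k3 : (γ ∘ₗ pG) ∘ₗ LinearMap.inr K _ _ = ψ := by
    refine OO_ext (Z := F.tau) (hγp.comp (isG_inr _ _)) e3 ?_
    simp only [LinearMap.comp_apply, LinearMap.inr_apply, pG_apply']
    have : ((Rx 0 (0 : (D K × D K) × (D K × D K)).1.1 +
      Rx 1 (0 : (D K × D K) × (D K × D K)).2.1,
      Rx 0 (0 : (D K × D K) × (D K × D K)).1.2 +
      Rx 1 (0 : (D K × D K) × (D K × D K)).2.2) + jj 1 : D K × D K) = jj 1 := by simp only [Fin.isValue, Prod.fst_zero, map_zero, Prod.snd_zero, add_zero, jj_apply, Rx_one, Prod.mk_add_mk, zero_add]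
    rw [this, eval_jj hγ, g1, g2, r4]
  refine ⟨γ, hγ, ?_⟩
  apply LinearMap.ext
  intro y
  rw [hβe, ← k1, ← k2, ← k3]
  simp only [LinearMap.comp_apply, LinearMap.inl_apply, LinearMap.inr_apply]
  rw [← map_add, ← map_add, ← map_add, ← map_add]
  refine congrArg (fun y => γ (pG y)) ?_
  simp only [Prod.mk_add_mk, add_zero, zero_add, Prod.mk.eta]

theorem SA_G_surj (hF : AF F) {b : ℤ} (hb : b ≤ 2)
    {β' : (D K × D K) × D K →ₗ[K] F.X}
    (hβ' : IsG (((OO K (-1) 2).prod (OO K (-1) 2)).prod (OO K 0 b)) F.tau β') :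
    ∃ β : ((D K × D K) × (D K × D K)) × D K →ₗ[K] F.X,
      IsG (((GG K b).prod (GG K b)).prod (OO K 0 2)) F.tau β ∧ β ∘ₗ iG = β' := by
  have e1 : IsG (OO K (-1) 2) F.tau (β' ∘ₗ LinearMap.inl K _ _ ∘ₗ LinearMap.inl K _ _) :=
    hβ'.comp ((isG_inl _ _).comp (isG_inl (OO K (-1) 2) (OO K (-1) 2)))
  have e2 : IsG (OO K (-1) 2) F.tau (β' ∘ₗ LinearMap.inl K _ _ ∘ₗ LinearMap.inr K _ _) :=
    hβ'.comp ((isG_inl _ _).comp (isG_inr (OO K (-1) 2) (OO K (-1) 2)))
  have e3 : IsG (OO K 0 b) F.tau (β' ∘ₗ LinearMap.inr K _ _) :=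
    hβ'.comp (isG_inr _ _)
  obtain ⟨u, hud⟩ : ∃ u : D K →ₗ[K] F.X,
    u = β' ∘ₗ LinearMap.inl K _ _ ∘ₗ LinearMap.inl K _ _ := ⟨_, rfl⟩
  obtain ⟨u', hud'⟩ : ∃ u' : D K →ₗ[K] F.X,
    u' = β' ∘ₗ LinearMap.inl K _ _ ∘ₗ LinearMap.inr K _ _ := ⟨_, rfl⟩
  obtain ⟨v, hvd⟩ : ∃ v : D K →ₗ[K] F.X, v = β' ∘ₗ LinearMap.inr K _ _ := ⟨_, rfl⟩
  rw [← hud] at e1
  rw [← hud'] at e2
  rw [← hvd] at e3
  have hβe : ∀ z, β' z = u z.1.1 + u' z.1.2 + v z.2 := by
    intro z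
    rw [hud, hud', hvd]
    simp only [LinearMap.comp_apply, LinearMap.inl_apply, LinearMap.inr_apply]
    rw [← map_add, ← map_add]
    refine congrArg β' ?_
    simp only [Prod.mk_add_mk, add_zero, zero_add, Prod.mk.eta]
  have h1 : u 1 ∈ F.F 2 (-2) := by
    have := e1.F 1 (-2) 1 (by simpa only [Int.reduceNeg, neg_add_cancel, add_neg_cancel] using one_mem_V)
    simpa only [Int.reduceNeg, Int.reduceAdd] using this
  have h2 : u' 1 ∈ F.F 2 (-2) := by
    have := e2.F 1 (-2) 1 (by simpa only [Int.reduceNeg, neg_add_cancel, add_neg_cancel] using one_mem_V)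
    simpa only [Int.reduceNeg, Int.reduceAdd] using this
  have h3 : v 1 ∈ F.F 1 (-b) := by
    have := e3.F 0 (-b) 1 (by simpa only [add_zero, add_neg_cancel] using one_mem_V)
    simpa only [zero_add] using this
  obtain ⟨a, ha, c, hc, eu⟩ := hF.F3 _ h1
  obtain ⟨a', ha', c', hc', eu'⟩ := hF.F3 _ h2
  have hle : ∀ {y : F.X}, y ∈ F.F 1 (-2) → y ∈ F.F 1 (-b) := fun hy =>
    GM.mono' F (by omega) hy
  obtain ⟨c0, hc0, p, hp, q, hq, ev⟩ := hF.F4 (-b) (v 1 + a + c')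
    (Submodule.add_mem _ (Submodule.add_mem _ h3 (hle ha)) (hle hc'))
  have hx : ∀ {y : F.X} (i : Fin 2), y ∈ F.F 0 (-b) → F.x i y ∈ F.F 1 (-b) := fun i hy => by
    simpa using F.xF i 0 (-b) _ hy
  have hx2 : ∀ {y : F.X} (i : Fin 2), y ∈ F.F 1 (-2) → F.x i y ∈ F.F 2 (-2) := fun i hy => by
    simpa using F.xF i 1 (-2) _ hy
  have hP0 : c + F.x 0 q ∈ F.F 1 (-b) := Submodule.add_mem _ (hle hc) (hx 0 hq)
  have hP1 : -a + F.x 1 q + c0 ∈ F.F 1 (-b) :=
    Submodule.add_mem _ (Submodule.add_mem _ (Submodule.neg_mem _ (hle ha)) (hx 1 hq)) (hle hc0)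
  have hP0' : c' - F.x 0 p - c0 ∈ F.F 1 (-b) :=
    Submodule.sub_mem _ (Submodule.sub_mem _ (hle hc') (hx 0 hp)) (hle hc0)
  have hP1' : -a' - F.x 1 p ∈ F.F 1 (-b) :=
    Submodule.sub_mem _ (Submodule.neg_mem _ (hle ha')) (hx 1 hp)
  have k1 : F.x 1 (c + F.x 0 q) - F.x 0 (-a + F.x 1 q + c0) = u 1 - F.x 0 c0 := by
    rw [eu]
    simp only [map_add, F.xx 1 0, map_neg]
    abel
  have k2 : F.x 1 (c' - F.x 0 p - c0) - F.x 0 (-a' - F.x 1 p) = u' 1 - F.x 1 c0 := by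
    rw [eu']
    simp only [map_sub, F.xx 1 0, map_neg]
    abel
  obtain ⟨φ, hφ, f1, f2⟩ := GG_ex hb F.tau (z := (c + F.x 0 q, -a + F.x 1 q + c0))
    ⟨hP0, hP1, by
      change F.x 1 _ - F.x 0 _ ∈ F.F (1 + 1) (-2)
      rw [k1]
      exact Submodule.sub_mem _ h1 (hx2 0 hc0)⟩
  obtain ⟨φ', hφ', f1', f2'⟩ := GG_ex hb F.tau (z := (c' - F.x 0 p - c0, -a' - F.x 1 p))
    ⟨hP0', hP1', by
      change F.x 1 _ - F.x 0 _ ∈ F.F (1 + 1) (-2)
      rw [k2]
      exact Submodule.sub_mem _ h2 (hx2 1 hc0)⟩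
  obtain ⟨ψ, hψ, g1⟩ := OO_ex 0 2 F.tau (z := -c0) (by
    change -c0 ∈ F.F (-0 + 1) (-2)
    simpa using hc0)
  simp only at f1 f2 f1' f2'
  have hβ : IsG (((GG K b).prod (GG K b)).prod (OO K 0 2)) F.tau
      ((φ.coprod φ').coprod ψ) := (hφ.coprod hφ').coprod hψ
  refine ⟨(φ.coprod φ').coprod ψ, hβ, ?_⟩
  have hβi : IsG (((OO K (-1) 2).prod (OO K (-1) 2)).prod (OO K 0 b)) F.tau
    (((φ.coprod φ').coprod ψ) ∘ₗ iG) := hβ.comp (isG_iG hb)
  have q1 : φ (jj 1) = F.x 1 (c + F.x 0 q) - F.x 0 (-a + F.x 1 q + c0) := by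
    rw [eval_jj hφ, f1, f2]
  have q2 : φ' (jj 1) = F.x 1 (c' - F.x 0 p - c0) - F.x 0 (-a' - F.x 1 p) := by
    rw [eval_jj hφ', f1', f2']
  have q3 : ∀ i, ψ (Lx i 1) = - F.x i c0 := by
    intro i
    rw [← map_neg, ← g1]
    exact hψ.x i 1
  have l1 : (((φ.coprod φ').coprod ψ) ∘ₗ iG) ∘ₗ LinearMap.inl K _ _ ∘ₗ LinearMap.inl K _ _
      = u := by
    refine OO_ext (Z := F.tau)
      (hβi.comp ((isG_inl _ _).comp (isG_inl (OO K (-1) 2) (OO K (-1) 2)))) e1 ?_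
    have h : (((φ.coprod φ').coprod ψ) ∘ₗ iG) (((1 : D K), (0 : D K)), (0 : D K)) =
        φ (jj 1 + (0, 0)) + φ' (jj 0 - (0, 0)) + ψ (0 - Rx 0 1 - Rx 1 0) := by
        rw [LinearMap.comp_apply, iG_apply']; rfl
    refine h.trans ?_
    rw [Prod.mk_zero_zero, add_zero, sub_zero, map_zero jj, map_zero φ', map_zero (Rx 1),
      Rx_one, ← Lx_one, sub_zero, zero_sub, map_neg, q1, k1, q3, add_zero]
    abel
  have l2 : (((φ.coprod φ').coprod ψ) ∘ₗ iG) ∘ₗ LinearMap.inl K _ _ ∘ₗ LinearMap.inr K _ _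
      = u' := by
    refine OO_ext (Z := F.tau)
      (hβi.comp ((isG_inl _ _).comp (isG_inr (OO K (-1) 2) (OO K (-1) 2)))) e2 ?_
    have h : (((φ.coprod φ').coprod ψ) ∘ₗ iG) (((0 : D K), (1 : D K)), (0 : D K)) =
        φ (jj 0 + (0, 0)) + φ' (jj 1 - (0, 0)) + ψ (0 - Rx 0 0 - Rx 1 1) := by
        rw [LinearMap.comp_apply, iG_apply']; rfl
    refine h.trans ?_
    rw [Prod.mk_zero_zero, add_zero, sub_zero, map_zero jj, map_zero φ, map_zero (Rx 0),
      Rx_one, ← Lx_one, sub_zero, zero_sub, map_neg, q2, k2, q3, zero_add]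
    abel
  have l3 : (((φ.coprod φ').coprod ψ) ∘ₗ iG) ∘ₗ LinearMap.inr K _ _ = v := by
    refine OO_ext (Z := F.tau) (hβi.comp (isG_inr _ _)) e3 ?_
    have h : (((φ.coprod φ').coprod ψ) ∘ₗ iG) (((0 : D K), (0 : D K)), (1 : D K)) =
        φ (jj 0 + (0, 1)) + φ' (jj 0 - (1, 0)) + ψ (1 - Rx 0 0 - Rx 1 0) := by
        rw [LinearMap.comp_apply, iG_apply']; rfl
    refine h.trans ?_
    rw [map_zero jj, map_zero (Rx 0), map_zero (Rx 1), zero_add, zero_sub, sub_zero, sub_zero,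
      map_neg, f2, f1', g1]
    have e5 : v 1 = c0 + F.x 0 p + F.x 1 q - a - c' := by
      rw [← ev]; abel
    rw [e5]
    abel
  apply LinearMap.ext
  intro y
  rw [hβe, ← l1, ← l2, ← l3]
  simp only [LinearMap.comp_apply, LinearMap.inl_apply, LinearMap.inr_apply]
  rw [← map_add, ← map_add, ← map_add, ← map_add]
  refine congrArg (fun y => ((φ.coprod φ').coprod ψ) (iG y)) ?_
  simp


/-! ### `G_2 = O(0,2)²` -/

theorem isG_two : IsG (GG K 2) ((OO K 0 2).prod (OO K 0 2)) (LinearMap.id : D K × D K →ₗ[K] _) :=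
  ⟨fun _ _ => rfl, fun _ _ => rfl, fun _ _ _ hz => ⟨cV (mem_GG.1 hz).1.1 (by ring) (by ring),
    cV (mem_GG.1 hz).1.2 (by ring) (by ring)⟩⟩

theorem isG_two' : IsG ((OO K 0 2).prod (OO K 0 2)) (GG K 2) (LinearMap.id : D K × D K →ₗ[K] _) :=
  ⟨fun _ _ => rfl, fun _ _ => rfl, fun _ _ _ hz => pair_mem_GG le_rfl (cV hz.1 (by ring) rfl)
    (cV hz.2 (by ring) rfl)⟩

/-! ### Step A for the six objects -/

theorem sumT_OO {b : ℤ} (h0 : 0 ≤ b) (h2 : b ≤ 2) : SumT (OO K 0 b) := by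
  obtain rfl | rfl | rfl : b = 0 ∨ b = 1 ∨ b = 2 := by omega
  · exact SumT.t 0
  · exact SumT.t 1
  · exact SumT.t 2

theorem sumT_GG {b : ℤ} (h0 : 0 ≤ b) (h1 : b ≤ 1) : SumT (GG K b) := by
  obtain rfl | rfl : b = 0 ∨ b = 1 := by omega
  · exact SumT.t 3
  · exact SumT.t 4

theorem sumT_T6 : SumT (OO K (-1) 2) := SumT.t 5

theorem orth_W_J_T6 : Orth (RR K) (Md (EM.W (OO K (-1) 2))) (Md (EM.J F)) :=
  orth_W_J TT_rep q5 sumT_T6.J (sumT_OO (by norm_num) le_rfl).J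
    (sumT_OO (by norm_num) le_rfl).J' SumT.zero.J SumT.zero.J' SA_5.inj SA_5.ex SA_5.surj

theorem orth_W_J_line (hF : AF F) {b : ℤ} (h0 : 0 ≤ b) (h1 : b ≤ 1) :
    Orth (RR K) (Md (EM.W (OO K 0 b))) (Md (EM.J F)) :=
  orth_W_J TT_rep (q01 (by omega)) (sumT_OO h0 (by omega)).J (sumT_GG h0 h1).J
    (sumT_GG h0 h1).J' sumT_T6.J sumT_T6.J' (SA_line hF (by omega)).inj
    (SA_line hF (by omega)).ex (SA_line hF (by omega)).surj

theorem orth_W_J_two (hF : AF F) : Orth (RR K) (Md (EM.W (OO K 0 2))) (Md (EM.J F)) :=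
  orth_W_J TT_rep q2 (sumT_OO (by norm_num) le_rfl).J
    ((sumT_OO (by norm_num) le_rfl).prod _ _ (sumT_OO (by norm_num) le_rfl)).J
    ((sumT_OO (by norm_num) le_rfl).prod _ _ (sumT_OO (by norm_num) le_rfl)).J'
    sumT_T6.J sumT_T6.J' (SA_line hF le_rfl).inj
    (fun β hβ h => (SA_line hF le_rfl).ex β (hβ.comp isG_two) h)
    (fun β' hβ' => by
      obtain ⟨β, hβ, h⟩ := (SA_line hF le_rfl).surj β' hβ'
      exact ⟨β, hβ.comp isG_two', h⟩)

theorem orth_W_J_GG (hF : AF F) {b : ℤ} (h0 : 0 ≤ b) (h1 : b ≤ 1) :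
    Orth (RR K) (Md (EM.W (GG K b))) (Md (EM.J F)) := by
  have s0 : SumT (((GG K b).prod (GG K b)).prod (OO K 0 2)) :=
    SumT.prod _ _ (SumT.prod _ _ (sumT_GG h0 h1) (sumT_GG h0 h1)) (sumT_OO (by norm_num) le_rfl)
  have s1 : SumT (((OO K (-1) 2).prod (OO K (-1) 2)).prod (OO K 0 b)) :=
    SumT.prod _ _ (SumT.prod _ _ sumT_T6 sumT_T6) (sumT_OO h0 (by omega))
  exact orth_W_J TT_rep (qG h0 h1) (sumT_GG h0 h1).J s0.J s0.J' s1.J s1.J'
    (fun γ hγ h => SA_G_inj hF hγ h) (fun β hβ h => SA_G_ex hF (by omega) hβ h)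
    (fun β' hβ' => SA_G_surj hF (by omega) hβ')

/-- **Step A** for the six objects. -/
theorem orth_W_J_TT (v w : Fin 6) :
    Orth (RR K) (Md (EM.W (TT K v))) (Md (EM.J (TT K w))) := by
  have hF := AF_TT (K := K) w
  fin_cases v
  · exact orth_W_J_line hF le_rfl (by norm_num)
  · exact orth_W_J_line hF (by norm_num) le_rfl
  · exact orth_W_J_two hF
  · exact orth_W_J_GG hF le_rfl (by norm_num)
  · exact orth_W_J_GG hF (by norm_num) le_rfl
  · exact orth_W_J_T6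

/-! ### Devissage -/

theorem orth_W_prod {A B : GM K} {N : Type u} [AddCommGroup N] [Module (RR K) N]
    (hA : Orth (RR K) (Md (EM.W A)) N) (hB : Orth (RR K) (Md (EM.W B)) N) :
    Orth (RR K) (Md (EM.W (A.prod B))) N := by
  have h : GSES A (A.prod B) B (LinearMap.inl K A.X B.X) (LinearMap.snd K A.X B.X) :=
    GSES.inl_snd A B
  have hτ : GSES A.tau (A.prod B).tau B.tau (LinearMap.inl K A.X B.X)
    (LinearMap.snd K A.X B.X) := GSES.inl_snd A.tau B.tau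
  exact ((h.W hτ).md TT_rep).orth_left₂ hA hB

theorem deviWJ (w : Fin 6) :
    Devi (fun Z : GM K => Orth (RR K) (Md (EM.W Z)) (Md (EM.J (TT K w)))) where
  base v := orth_W_J_TT v w
  prod _ _ hA hB := orth_W_prod hA hB
  quot _ _ _ _ _ h hτ hA hB := ((h.W hτ).md TT_rep).orth_left₃ hA hB

/-- **Step A** for `C_n`. -/
theorem orth_W_CC_J {n : ℤ} (hn : -1 ≤ n) (w : Fin 6) :
    Orth (RR K) (Md (EM.W (CC K n))) (Md (EM.J (TT K w))) :=
  (deviWJ w).CC hn

end Vale.Agent.P195.Van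
end
end

section

section

/-!
# P195 (vanishing version): the two vertex data of the quotient algebra

The vertices K6 = (true, 5) and L6 = (false, 5).
-/

open Vale.Agent.P195.Weyl MvPolynomial

namespace Vale.Agent.P195.Van

universe u

variable {K : Type u} [Field K]

/-- maps out of a vertex vanish if the window vanishes -/
theorem FHom_J_zero (i : Fin 6) {M : EM K} (hM : ∀ z ∈ win M.A i, z = 0)
    {φ : (EM.J (TT K i)).toF.X →ₗ[K] M.toF.X} (hφ : φ ∈ FHom (EM.J (TT K i)).toF M.toF) :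
    φ = 0 := by
  obtain ⟨a, b, hab, rfl⟩ := exists_isE_of_mem hφ
  have h3 : a.prodMap a (gen K i) = 0 := hM _ (hab.gA.win i (gen_mem i))
  obtain ⟨h5, h6⟩ := (TT_rep i).J_uniq hab (IsE.zero _ _) (by rw [h3]; simp only [LinearMap.prodMap_zero, LinearMap.zero_apply])
  subst h5 h6
  ext x <;> rfl

theorem FHom_J'_zero (i : Fin 6) {M : EM K} (hM : ∀ z ∈ win M.B i, z = 0)
    {φ : (EM.J' (TT K i)).toF.X →ₗ[K] M.toF.X} (hφ : φ ∈ FHom (EM.J' (TT K i)).toF M.toF) :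
    φ = 0 := by
  obtain ⟨a, b, hab, rfl⟩ := exists_isE_of_mem hφ
  have h3 := hM _ ((TT_rep i).J'_mem hab)
  obtain ⟨h5, h6⟩ := (TT_rep i).J'_uniq hab (IsE.zero _ _) (by rw [h3]; rfl)
  subst h5 h6
  ext x <;> rfl

/-- scalar endomorphisms -/
theorem gen_five : gen K 5 = ((1 : D K), (0 : D K)) := rfl

theorem IsE.smul_id (M : EM K) (c : K) : IsE M M (c • LinearMap.id) (c • LinearMap.id) :=
  ⟨(IsG.id _).smul c, (IsG.id _).smul c, fun z => by simp, fun z => by simp only [LinearMap.smul_apply, LinearMap.id_coe, id_eq, map_smul]⟩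

/-- `End (J T_5) = K`. -/
theorem end_JT {φ : (EM.J (TT K 5)).toF.X →ₗ[K] (EM.J (TT K 5)).toF.X}
    (hφ : φ ∈ FHom (EM.J (TT K 5)).toF (EM.J (TT K 5)).toF) : ∃ c : K, φ = c • LinearMap.id := by
  obtain ⟨a, b, hab, rfl⟩ := exists_isE_of_mem hφ
  have h3 := hab.gA.win 5 (gen_mem 5)
  obtain ⟨h4, h5⟩ := h3
  have h6 : a (1 : D K) ∈ V K 0 0 := cV h4 (by ring) (by ring)
  obtain ⟨c, hc⟩ := V_zero_zero h6
  refine ⟨c, ?_⟩
  obtain ⟨h7, h8⟩ := (TT_rep 5).J_uniq hab (IsE.smul_id _ c) (by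
    rw [gen_five]
    refine Prod.ext hc ?_
    simp only [Fin.isValue, LinearMap.prodMap_apply, map_zero, LinearMap.prodMap_smul, LinearMap.prodMap_id, LinearMap.smul_apply, LinearMap.id_coe, id_eq, Prod.smul_mk, smul_zero])
  rw [h7, h8]
  ext x <;> rfl

/-- `Hom (J T_5, J' T_5) = 0`. -/
theorem hom_JT_J'T {φ : (EM.J (TT K 5)).toF.X →ₗ[K] (EM.J' (TT K 5)).toF.X}
    (hφ : φ ∈ FHom (EM.J (TT K 5)).toF (EM.J' (TT K 5)).toF) : φ = 0 :=
  FHom_J_zero 5 (fun _ _ => Subsingleton.elim _ _) hφ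

/-- factorization of the maps out of `J' T_5` -/
theorem fac_J' (M : EM K) {z0 : M.B.X} (hz0 : z0 ∈ M.B.F 1 (-2))
    {θ : (EM.J' (TT K 5)).toF.X →ₗ[K] M.toF.X} (hθ : θ ∈ FHom (EM.J' (TT K 5)).toF M.toF)
    (h0 : θ ((0 : (GM.zero K).X), (((1 : D K), (0 : D K)) : D K × D K)) = (0, z0))
    {φ : (EM.J' (TT K 5)).toF.X →ₗ[K] M.toF.X} (hφ : φ ∈ FHom (EM.J' (TT K 5)).toF M.toF)
    (c c0 c1 : K)
    (h1 : φ ((0 : (GM.zero K).X), (((1 : D K), (0 : D K)) : D K × D K)) =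
      (0, c • z0 + (c0 • M.B.x 0 (M.r z0) + c1 • M.B.x 1 (M.r z0)))) :
    ∃ α ∈ FHom (EM.J' (TT K 5)).toF (EM.J' (TT K 2)).toF,
      ∃ β ∈ FHom (EM.J' (TT K 2)).toF M.toF, φ = c • θ + β ∘ₗ α := by
  -- the two factors
  obtain ⟨bα, hα, hα1⟩ := (TT_rep (K := K) 5).J'_ex (EM.J' (TT K 2))
    (z := (((c0 • Lx 0 1 + c1 • Lx 1 1 : D K), (0 : D K)), (0 : D K × D K)))
    (by
      refine ⟨⟨?_, Submodule.zero_mem _⟩, rfl⟩
      refine Submodule.add_mem _ (Submodule.smul_mem _ _ ?_) (Submodule.smul_mem _ _ ?_)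
      · exact cV (Lx_mem one_mem_V 0) (by ring) (by ring)
      · exact cV (Lx_mem one_mem_V 1) (by ring) (by ring))
  obtain ⟨bβ, hβ, hβ1⟩ := (TT_rep (K := K) 2).J'_ex M (z := (M.r z0, (0 : M.B.X)))
    ⟨M.rF _ _ _ (by simpa using hz0), rfl⟩
  refine ⟨_, hα.mem, _, hβ.mem, ?_⟩
  have hR : c • θ + ((0 : (GM.zero K).X →ₗ[K] M.A.X).prodMap bβ) ∘ₗ
      ((0 : (GM.zero K).X →ₗ[K] (GM.zero K).X).prodMap bα) ∈ FHom (EM.J' (TT K 5)).toF M.toF :=
    (FHom _ _).add_mem ((FHom _ _).smul_mem c hθ) (FHom.comp hβ.mem hα.mem)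
  obtain ⟨a, b, hab, hφab⟩ := exists_isE_of_mem hφ
  obtain ⟨a', b', hab', hR'⟩ := exists_isE_of_mem hR
  have e1 : bα ((1 : D K), (0 : D K)) = ((c0 • Lx 0 1 + c1 • Lx 1 1 : D K), (0 : D K)) :=
    congrArg Prod.fst hα1
  have e2 : bβ ((1 : D K), (0 : D K)) = M.r z0 := congrArg Prod.fst hβ1
  have e3 : bβ ((c0 • Lx 0 1 + c1 • Lx 1 1 : D K), (0 : D K)) =
      c0 • M.B.x 0 (M.r z0) + c1 • M.B.x 1 (M.r z0) := by
    have e4 : ∀ i, bβ (Lx i (1 : D K), (0 : D K)) = M.B.x i (M.r z0) := by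
      intro i
      have h := hβ.gB.x i ((1 : D K), (0 : D K))
      rw [e2] at h
      rw [← h]
      congr 1
      exact Prod.ext rfl (map_zero (Lx i)).symm
    have e5 : ((c0 • Lx 0 1 + c1 • Lx 1 1 : D K), (0 : D K)) =
        c0 • (Lx 0 (1 : D K), (0 : D K)) + c1 • (Lx 1 (1 : D K), (0 : D K)) := by
      simp
    rw [e5, map_add, map_smul, map_smul, e4, e4]
  have k1 : b ((1 : D K), (0 : D K)) =
      c • z0 + (c0 • M.B.x 0 (M.r z0) + c1 • M.B.x 1 (M.r z0)) := by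
    have h := h1
    rw [hφab] at h
    exact congrArg Prod.snd h
  have k2 : b' ((1 : D K), (0 : D K)) =
      c • z0 + (c0 • M.B.x 0 (M.r z0) + c1 • M.B.x 1 (M.r z0)) := by
    have h2 : (c • θ + ((0 : (GM.zero K).X →ₗ[K] M.A.X).prodMap bβ) ∘ₗ
      ((0 : (GM.zero K).X →ₗ[K] (GM.zero K).X).prodMap bα))
        ((0 : (GM.zero K).X), (((1 : D K), (0 : D K)) : D K × D K)) =
        (0, b' ((1 : D K), (0 : D K))) := by
      rw [hR']
      exact Prod.ext (map_zero a') rfl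
    rw [LinearMap.add_apply, LinearMap.smul_apply, h0, LinearMap.comp_apply] at h2
    have h3 : (c • ((0 : M.A.X), z0) + ((0 : (GM.zero K).X →ₗ[K] M.A.X).prodMap bβ)
        (((0 : (GM.zero K).X →ₗ[K] (GM.zero K).X).prodMap bα)
          ((0 : (GM.zero K).X), (((1 : D K), (0 : D K)) : D K × D K)))).2 =
        c • z0 + bβ (bα ((1 : D K), (0 : D K))) := rfl
    rw [e1, e3] at h3
    rw [← h3, h2]
  have key : (b ((gen K 5).1, 0), b ((gen K 5).2, 0)) = (b' ((gen K 5).1, 0), b' ((gen K 5).2, 0)) := by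
    refine Prod.ext ?_ ?_
    · exact k1.trans k2.symm
    · change b ((0 : D K), (0 : D K)) = b' ((0 : D K), (0 : D K))
      have : ((0 : D K), (0 : D K)) = (0 : D K × D K) := rfl
      rw [this, map_zero, map_zero]
  obtain ⟨h5, h6⟩ := (TT_rep 5).J'_uniq hab hab' key
  rw [hR', hφab, h5, h6]

/-- linear forms -/
theorem V_one_zero {f : D K} (h : f ∈ V K 1 0) :
    ∃ c0 c1 : K, f = c0 • Lx 0 (1 : D K) + c1 • Lx 1 1 := by
  obtain ⟨p, hp, q, hq, e⟩ := Lx_surj (K := K) (w := 0) le_rfl (by simpa using h)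
  obtain ⟨c0, rfl⟩ := V_zero_zero hp
  obtain ⟨c1, rfl⟩ := V_zero_zero hq
  exact ⟨c0, c1, by rw [e, map_smul, map_smul]⟩

/-- The window of `Ind T_5`. -/
theorem ind_T_five {z : D K × D K} (hz : z ∈ (TT K 5).ind.F 1 (-2)) :
    ∃ c c0 c1 : K, z = c • ((1 : D K), (0 : D K)) +
      (c0 • (TT K 5).ind.x 0 (indR (TT K 5) ((1 : D K), (0 : D K))) +
        c1 • (TT K 5).ind.x 1 (indR (TT K 5) ((1 : D K), (0 : D K)))) := by
  obtain ⟨h1, h2⟩ := hz
  obtain ⟨c, hc⟩ := V_zero_zero (K := K) (cV h1 (by ring) (by ring))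
  obtain ⟨c0, c1, hc'⟩ := V_one_zero (K := K) (cV h2 (by ring) (by ring))
  refine ⟨c, c0, c1, Prod.ext ?_ ?_⟩
  · change z.1 = c • (1 : D K) + (c0 • Lx 0 (0 : D K) + c1 • Lx 1 (0 : D K))
    rw [hc, map_zero, map_zero, smul_zero, smul_zero, add_zero, add_zero]
  · change z.2 = c • (0 : D K) + (c0 • Lx 0 (1 : D K) + c1 • Lx 1 (1 : D K))
    rw [hc', smul_zero, zero_add]

/-- the map `J' T_5 → J T_5` -/
noncomputable def th (K : Type u) [Field K] : (EM.J' (TT K 5)).toF.X →ₗ[K] (EM.J (TT K 5)).toF.X :=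
  (0 : (GM.zero K).X →ₗ[K] (TT K 5).X).prodMap LinearMap.id

theorem th_mem : th K ∈ FHom (EM.J' (TT K 5)).toF (EM.J (TT K 5)).toF :=
  (ESES.J'_J_br (TT K 5)).e.mem

/-- the first component of the value at the generator vanishes -/
theorem apply_gen {M : EM K} {φ : (EM.J' (TT K 5)).toF.X →ₗ[K] M.toF.X}
    (hφ : φ ∈ FHom (EM.J' (TT K 5)).toF M.toF) :
    ∃ z ∈ M.B.F 1 (-2),
      φ ((0 : (GM.zero K).X), (((1 : D K), (0 : D K)) : D K × D K)) = (0, z) := by
  obtain ⟨a, b, hab, rfl⟩ := exists_isE_of_mem hφ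
  have h := (TT_rep 5).J'_mem hab
  exact ⟨b ((1 : D K), (0 : D K)), h.1, Prod.ext (map_zero a) rfl⟩

theorem hom_J'T_J'T {φ : (EM.J' (TT K 5)).toF.X →ₗ[K] (EM.J' (TT K 5)).toF.X}
    (hφ : φ ∈ FHom (EM.J' (TT K 5)).toF (EM.J' (TT K 5)).toF) :
    ∃ c : K, ∃ α ∈ FHom (EM.J' (TT K 5)).toF (EM.J' (TT K 2)).toF,
      ∃ β ∈ FHom (EM.J' (TT K 2)).toF (EM.J' (TT K 5)).toF,
        φ = c • LinearMap.id + β ∘ₗ α := by
  obtain ⟨z, hz, hz1⟩ := apply_gen hφ
  obtain ⟨c, c0, c1, rfl⟩ := ind_T_five hz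
  refine ⟨c, fac_J' (EM.J' (TT K 5)) (z0 := ((1 : D K), (0 : D K))) ?_ (FHom.id _) rfl hφ c c0 c1
    hz1⟩
  exact ⟨cV one_mem_V (by ring) (by ring), Submodule.zero_mem _⟩

theorem hom_J'T_JT {φ : (EM.J' (TT K 5)).toF.X →ₗ[K] (EM.J (TT K 5)).toF.X}
    (hφ : φ ∈ FHom (EM.J' (TT K 5)).toF (EM.J (TT K 5)).toF) :
    ∃ c : K, ∃ α ∈ FHom (EM.J' (TT K 5)).toF (EM.J' (TT K 2)).toF,
      ∃ β ∈ FHom (EM.J' (TT K 2)).toF (EM.J (TT K 5)).toF,
        φ = c • th K + β ∘ₗ α := by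
  obtain ⟨z, hz, hz1⟩ := apply_gen hφ
  obtain ⟨c, c0, c1, rfl⟩ := ind_T_five hz
  refine ⟨c, fac_J' (EM.J (TT K 5)) (z0 := ((1 : D K), (0 : D K))) ?_ th_mem rfl hφ c c0 c1
    hz1⟩
  exact ⟨cV one_mem_V (by ring) (by ring), Submodule.zero_mem _⟩

/-! ### The two vertex data -/

/-- the matrix units -/
noncomputable def sPP (K : Type u) [Field K] :
    SumData (PP K) (fun v : Bool × Fin 6 => (PE K v).toF) :=
  SumData.pi fun v : Bool × Fin 6 => (PE K v).toF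

/-- the vertices -/
abbrev vK : Bool × Fin 6 := (true, 5)
abbrev vL : Bool × Fin 6 := (false, 5)

theorem FHom_PE_zero (v : Bool × Fin 6) {M : EM K} (hA : ∀ z ∈ win M.A v.2, z = 0)
    (hB : ∀ z ∈ win M.B v.2, z = 0)
    {φ : (PE K v).toF.X →ₗ[K] M.toF.X} (hφ : φ ∈ FHom (PE K v).toF M.toF) : φ = 0 := by
  obtain ⟨s, i⟩ := v
  cases s
  · exact FHom_J'_zero i hB hφ
  · exact FHom_J_zero i hA hφ

/-- The action of the idempotents. -/
theorem idem_smul_eq_zero_of {M : EM K} (v : Bool × Fin 6) (hA : ∀ z ∈ win M.A v.2, z = 0)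
    (hB : ∀ z ∈ win M.B v.2, z = 0) (c : Win (PP K) M.toF) : (sPP K).idem v • c = 0 := by
  apply Win.ext'
  have h1 : c.toLin ∘ₗ (sPP K).inc v = 0 :=
    FHom_PE_zero v hA hB (FHom.comp c.toLin_mem ((sPP K).inc_mem v))
  refine LinearMap.ext fun x => ?_
  exact LinearMap.congr_fun h1 ((sPP K).pr v x)

/-! ### The objects of step E -/

/-- the ten vertices -/
abbrev Ten' : Type := {v : Bool × Fin 6 // v.2 ≠ 5}

theorem vne {v : Bool × Fin 6} (hK : v ≠ vK) (hL : v ≠ vL) : v.2 ≠ 5 := by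
  intro h
  obtain ⟨s, i⟩ := v
  cases s
  · exact hL (Prod.ext rfl h)
  · exact hK (Prod.ext rfl h)

theorem one_mem_win : (((1 : MvPolynomial (Fin 2) K), (0 : MvPolynomial (Fin 2) K))) ∈
    win (CC K (-1)) 5 := by
  refine ⟨?_, rfl⟩
  change (1 : MvPolynomial (Fin 2) K) ∈ CF K (-1) 1 (-2)
  rw [CF_of_le le_rfl]
  have h : (-1 : ℤ) + 1 = 0 := by ring
  rw [h]
  exact one_mem_S

theorem S_zero {f : MvPolynomial (Fin 2) K} (h : f ∈ S K 0) : ∃ c : K, f = c • 1 := by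
  refine ⟨coeff 0 f, ?_⟩
  obtain ⟨g, hg, rfl⟩ := ev_surj (K := K) (w := 0) (d := 0) le_rfl h
  obtain ⟨c, rfl⟩ := V_zero_zero hg
  rw [map_smul, ev_one]
  simp only [coeff_smul, coeff_zero_one, smul_eq_mul, mul_one]

theorem win_CC_five {z : (CC K (-1)).X} (h : z ∈ (CC K (-1)).F 1 (-2)) :
    ∃ c : K, z = c • (1 : MvPolynomial (Fin 2) K) := by
  have h1 : z ∈ CF K (-1) 1 (-2) := h
  rw [CF_of_le le_rfl] at h1
  have h2 : (-1 : ℤ) + 1 = 0 := by ring
  rw [h2] at h1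
  exact S_zero h1

section inst

variable (K)

/-- the map `J T_5 → Δ C_{-1}` -/
theorem exists_gQ : ∃ g : (EM.J (TT K 5)).toF.X →ₗ[K] (EM.De (CC K (-1))).toF.X,
    g ∈ FHom (EM.J (TT K 5)).toF (EM.De (CC K (-1))).toF ∧
      g ((1 : D K), (0 : D K × D K)) = ((1 : MvPolynomial (Fin 2) K), 0) ∧
      g ((0 : D K), (((1 : D K), (0 : D K)) : D K × D K)) = (0, (1 : MvPolynomial (Fin 2) K)) := by
  obtain ⟨a, b, hab, h⟩ := (TT_rep (K := K) 5).J_ex (EM.De (CC K (-1))) one_mem_win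
  have h1 : a (1 : D K) = (1 : MvPolynomial (Fin 2) K) := congrArg Prod.fst h
  refine ⟨_, hab.mem, ?_, ?_⟩
  · exact Prod.ext h1 (map_zero b)
  · refine Prod.ext (map_zero a) ?_
    have h2 := hab.t (1 : D K)
    exact h2.trans h1

/-- the map `J' T_5 → [C_{-1}]'` -/
theorem exists_gS : ∃ g : (EM.J' (TT K 5)).toF.X →ₗ[K] (EM.br' (CC K (-1))).toF.X,
    g ∈ FHom (EM.J' (TT K 5)).toF (EM.br' (CC K (-1))).toF ∧
      g ((0 : (GM.zero K).X), (((1 : D K), (0 : D K)) : D K × D K)) =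
        (0, (1 : MvPolynomial (Fin 2) K)) := by
  obtain ⟨b, hab, h⟩ := (TT_rep (K := K) 5).J'_ex (EM.br' (CC K (-1))) one_mem_win
  exact ⟨_, hab.mem, Prod.ext rfl (congrArg Prod.fst h)⟩

end inst

/-- Maps out of `J' T_5` are determined by the value at the generator. -/
theorem J'_ext {M : EM K} {φ ψ : (EM.J' (TT K 5)).toF.X →ₗ[K] M.toF.X}
    (hφ : φ ∈ FHom (EM.J' (TT K 5)).toF M.toF) (hψ : ψ ∈ FHom (EM.J' (TT K 5)).toF M.toF)
    (h : φ ((0 : (GM.zero K).X), (((1 : D K), (0 : D K)) : D K × D K)) =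
      ψ ((0 : (GM.zero K).X), (((1 : D K), (0 : D K)) : D K × D K))) : φ = ψ := by
  obtain ⟨a, b, hab, rfl⟩ := exists_isE_of_mem hφ
  obtain ⟨a', b', hab', rfl⟩ := exists_isE_of_mem hψ
  obtain ⟨h5, h6⟩ := (TT_rep 5).J'_uniq hab hab' (by
    refine Prod.ext (congrArg Prod.snd h) ?_
    change b ((0 : D K), (0 : D K)) = b' ((0 : D K), (0 : D K))
    have : ((0 : D K), (0 : D K)) = (0 : D K × D K) := rfl
    rw [this, map_zero, map_zero])
  rw [h5, h6]

theorem J_ext {M : EM K} {φ ψ : (EM.J (TT K 5)).toF.X →ₗ[K] M.toF.X}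
    (hφ : φ ∈ FHom (EM.J (TT K 5)).toF M.toF) (hψ : ψ ∈ FHom (EM.J (TT K 5)).toF M.toF)
    (h : φ ((1 : D K), (0 : D K × D K)) = ψ ((1 : D K), (0 : D K × D K))) : φ = ψ := by
  obtain ⟨a, b, hab, rfl⟩ := exists_isE_of_mem hφ
  obtain ⟨a', b', hab', rfl⟩ := exists_isE_of_mem hψ
  have h1 : a (1 : D K) = a' (1 : D K) := congrArg Prod.fst h
  obtain ⟨h5, h6⟩ := (TT_rep 5).J_uniq hab hab' (by
    refine Prod.ext h1 ?_
    change a (0 : D K) = a' (0 : D K)
    rw [map_zero, map_zero])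
  rw [h5, h6]

/-- the element of `Md M` given by a map out of a vertex -/
noncomputable def el (v : Bool × Fin 6) {M : EM K} (g : (PE K v).toF.X →ₗ[K] M.toF.X)
    (hg : g ∈ FHom (PE K v).toF M.toF) : Win (PP K) M.toF :=
  Win.mk (g ∘ₗ (sPP K).pr v) (FHom.comp hg ((sPP K).pr_mem v))

theorem idem_el (v : Bool × Fin 6) {M : EM K} (g : (PE K v).toF.X →ₗ[K] M.toF.X)
    (hg : g ∈ FHom (PE K v).toF M.toF) : (sPP K).idem v • el v g hg = el v g hg := by
  apply Win.ext'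
  refine LinearMap.ext fun x => ?_
  exact congrArg g ((sPP K).pr_inc v ((sPP K).pr v x))

theorem el_inc (v : Bool × Fin 6) {M : EM K} (g : (PE K v).toF.X →ₗ[K] M.toF.X)
    (hg : g ∈ FHom (PE K v).toF M.toF) (x : (PE K v).toF.X) :
    (el v g hg).toLin ((sPP K).inc v x) = g x :=
  congrArg g ((sPP K).pr_inc v x)

theorem elt_el (v w : Bool × Fin 6) {M : EM K} (g : (PE K w).toF.X →ₗ[K] M.toF.X)
    (hg : g ∈ FHom (PE K w).toF M.toF) (f : (PE K v).toF.X →ₗ[K] (PE K w).toF.X)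
    (hf : f ∈ FHom (PE K v).toF (PE K w).toF) :
    (sPP K).elt v w f hf • el w g hg = el v (g ∘ₗ f) (FHom.comp hg hf) := by
  apply Win.ext'
  refine LinearMap.ext fun x => ?_
  exact congrArg g ((sPP K).pr_inc w (f ((sPP K).pr v x)))

/-- decomposition if only one vertex contributes -/
theorem eq_el (v : Bool × Fin 6) {M : EM K} (m : Win (PP K) M.toF)
    (h : ∀ w, w ≠ v → m.toLin ∘ₗ (sPP K).inc w = 0)
    {g : (PE K v).toF.X →ₗ[K] M.toF.X} (hg : g ∈ FHom (PE K v).toF M.toF) (c : K)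
    (hv : m.toLin ∘ₗ (sPP K).inc v = c • g) : m = c • el v g hg := by
  apply Win.ext'
  refine LinearMap.ext fun x => ?_
  conv_lhs => rw [← (sPP K).sum_inc x]
  rw [map_sum, Finset.sum_eq_single v]
  · exact LinearMap.congr_fun hv _
  · intro w _ hw
    exact LinearMap.congr_fun (h w hw) _
  · intro h; exact absurd (Finset.mem_univ _) h

theorem vK_ne_vL : vK ≠ vL := by decide

/-- the module hypothesis gives vanishing at the ten vertices -/
theorem idem_smul_of_P0 {C : Type u} [AddCommGroup C] [Module (RR K) C]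
    (h : ∀ f : (∀ v : Ten', Md (PE K v.1)) →ₗ[RR K] C, f = 0) (v : Bool × Fin 6) (hv : v.2 ≠ 5)
    (c : C) : (show RR K from (sPP K).idem v) • c = 0 := by
  have h1 : ∀ f : Md (PE K v) →ₗ[RR K] C, f = 0 := by
    intro f
    have h2 := h (f ∘ₗ (LinearMap.proj (⟨v, hv⟩ : Ten')))
    refine LinearMap.ext fun x => ?_
    have h3 := LinearMap.congr_fun h2 (Pi.single (⟨v, hv⟩ : Ten') x)
    rw [LinearMap.comp_apply, LinearMap.proj_apply, Pi.single_eq_same] at h3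
    exact h3
  let _ : Module (WAlg (PP K)) C := inferInstanceAs (Module (RR K) C)
  exact (sPP K).idem_smul_eq_zero (C := C) v h1 c

theorem hom_P0_zero {M : EM K} (hA : ∀ i, i ≠ 5 → ∀ z ∈ win M.A i, z = 0)
    (hB : ∀ i, i ≠ 5 → ∀ z ∈ win M.B i, z = 0)
    (f : (∀ v : Ten', Md (PE K v.1)) →ₗ[RR K] Md M) : f = 0 := by
  apply LinearMap.pi_ext'
  intro j
  rw [LinearMap.zero_comp]
  exact (sPP K).hom_eq_zero (C := Win (PP K) M.toF) j.1
    (fun c => idem_smul_eq_zero_of j.1 (hA _ j.2) (hB _ j.2) c) (f ∘ₗ _)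

/-- **The two vertex data.** -/
theorem twoData' : Nonempty (TwoData K (RR K) (∀ v : Ten', Md (PE K v.1))
    (Md (EM.br' (CC K (-1)))) (Md (EM.De (CC K (-1)))) (Md (EM.br (CC K (-1))))) := by
  obtain ⟨gQ, hgQ, gQ1, gQ2⟩ := exists_gQ K
  obtain ⟨gS, hgS, gS1⟩ := exists_gS K
  have z1 : ∀ i, i ≠ 5 → ∀ z ∈ win (CC K (-1)) i, z = 0 := fun i hi z hz => CC_win_zero hi hz
  have z2 : ∀ i : Fin 6, i ≠ 5 → ∀ z ∈ win (GM.zero K) i, z = 0 :=
    fun _ _ z _ => Subsingleton.elim z 0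
  have hθ : th K ∈ FHom (PE K vL).toF (PE K vK).toF := th_mem
  refine ⟨{
    eK := (sPP K).idem vK
    eL := (sPP K).idem vL
    θ := (sPP K).elt vL vK (th K) hθ
    kl := (sPP K).idem_ne vK_ne_vL
    lk := (sPP K).idem_ne vK_ne_vL.symm
    ll := (sPP K).idem_idem vL
    lθ := (sPP K).idem_elt vL vK hθ
    θk := (sPP K).elt_idem vL vK hθ
    one := ?_
    act := ?_
    ι := Md.map (ESES.br'_De_br (CC K (-1))).e
    π := Md.map (ESES.br'_De_br (CC K (-1))).e'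
    ses := (ESES.br'_De_br (CC K (-1))).md TT_rep
    hPS := hom_P0_zero z2 z1
    hPQ := hom_P0_zero z1 z1
    hPT := hom_P0_zero z1 z2
    q := el vK gQ hgQ
    s := el vL gS hgS
    hq := idem_el vK gQ hgQ
    hs := idem_el vL gS hgS
    ιs := ?_
    s_ne := ?_
    t_ne := ?_
    spanS := ?_
    spanT := ?_ }⟩
  · intro C _ _ hC c
    have h1 : ∑ v, (show RR K from (sPP K).idem v) • c = c := by
      rw [← Finset.sum_smul]
      have h2 : ∑ v, (show RR K from (sPP K).idem v) = 1 := (sPP K).sum_idem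
      rw [h2, one_smul]
    rw [Finset.sum_eq_add vK vL vK_ne_vL] at h1
    · exact h1
    · intro v _ hv
      exact idem_smul_of_P0 hC v (vne hv.1 hv.2) c
    · intro h; exact absurd (Finset.mem_univ _) h
    · intro h; exact absurd (Finset.mem_univ _) h
  · intro r
    obtain ⟨x, y, z, h⟩ := (sPP K).two_smul_eq vK_ne_vL hθ (fun φ hφ => end_JT hφ)
      (fun φ hφ => hom_JT_J'T hφ)
      (fun φ hφ => by
        obtain ⟨c, α, hα, β, hβ, h⟩ := hom_J'T_J'T hφ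
        exact ⟨c, (false, 2), by decide, by decide, α, hα, β, hβ, h⟩)
      (fun φ hφ => by
        obtain ⟨c, α, hα, β, hβ, h⟩ := hom_J'T_JT hφ
        exact ⟨c, (false, 2), by decide, by decide, α, hα, β, hβ, h⟩) r
    refine ⟨x, y, z, fun C _ _ hC c => ?_⟩
    let _ : Module (WAlg (PP K)) C := inferInstanceAs (Module (RR K) C)
    exact h C (fun l h1 h2 c => idem_smul_of_P0 hC l (vne h1 h2) c) c
  · change Md.map (ESES.br'_De_br (CC K (-1))).e (el vL gS hgS) =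
      (sPP K).elt vL vK (th K) hθ • el vK gQ hgQ
    rw [elt_el]
    have key : (LinearMap.prodMap (0 : (GM.zero K).X →ₗ[K] (CC K (-1)).X)
        (LinearMap.id : (CC K (-1)).X →ₗ[K] (CC K (-1)).X)) ∘ₗ gS = gQ ∘ₗ th K := by
      refine J'_ext (FHom.comp (ESES.br'_De_br (CC K (-1))).e.mem hgS) (FHom.comp hgQ hθ) ?_
      rw [LinearMap.comp_apply, gS1, LinearMap.comp_apply]
      exact gQ2.symm
    apply Win.ext'
    refine LinearMap.ext fun x => ?_
    exact LinearMap.congr_fun key ((sPP K).pr vL x)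
  · intro h
    have h1 := el_inc vL gS hgS ((0 : (GM.zero K).X), (((1 : D K), (0 : D K)) : D K × D K))
    rw [h] at h1
    have h2 : (0 : (EM.br' (CC K (-1))).toF.X) = ((0 : (GM.zero K).X),
      (1 : MvPolynomial (Fin 2) K)) := h1.trans gS1
    exact one_ne_zero (congrArg Prod.snd h2).symm
  · intro h
    have h1 := congrArg (fun m : Win (PP K) (EM.br (CC K (-1))).toF =>
      m.toLin ((sPP K).inc vK ((1 : D K), (0 : D K × D K)))) h
    have h2 := el_inc vK gQ hgQ ((1 : D K), (0 : D K × D K))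
    have h3 : (LinearMap.prodMap (LinearMap.id : (CC K (-1)).X →ₗ[K] (CC K (-1)).X)
        (0 : (CC K (-1)).X →ₗ[K] (GM.zero K).X))
        ((el vK gQ hgQ).toLin ((sPP K).inc vK ((1 : D K), (0 : D K × D K)))) = 0 := h1
    rw [h2, gQ1] at h3
    exact one_ne_zero (congrArg Prod.fst h3)
  · intro m
    obtain ⟨z, hz, hz1⟩ := apply_gen (M := EM.br' (CC K (-1)))
      (FHom.comp (Win.toLin_mem m) ((sPP K).inc_mem vL))
    obtain ⟨c, rfl⟩ := win_CC_five hz
    refine ⟨c, Eq.trans ?_ (algebraMap_smul (RR K) c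
      (show Md (EM.br' (CC K (-1))) from el vL gS hgS)).symm⟩
    refine eq_el vL m ?_ hgS c ?_
    · rintro ⟨s, i⟩ hw
      have hm := FHom.comp (Win.toLin_mem m) ((sPP K).inc_mem (s, i))
      cases s
      · exact FHom_J'_zero i (z1 i fun h => hw (Prod.ext rfl h)) hm
      · exact FHom_J_zero i (fun _ _ => Subsingleton.elim _ _) hm
    · refine J'_ext (FHom.comp (Win.toLin_mem m) ((sPP K).inc_mem vL))
        ((FHom _ _).smul_mem c hgS) ?_
      rw [hz1, LinearMap.smul_apply, gS1]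
      rfl
  · intro m
    have hmem := FHom.comp (Win.toLin_mem m) ((sPP K).inc_mem vK)
    obtain ⟨a, b, hab, he⟩ := exists_isE_of_mem (M := EM.J (TT K 5)) (N := EM.br (CC K (-1))) hmem
    obtain ⟨c, hc⟩ := win_CC_five (K := K) (hab.gA.win 5 (gen_mem 5)).1
    have hc' : a (1 : D K) = c • (1 : MvPolynomial (Fin 2) K) := hc
    have hT : (LinearMap.prodMap (LinearMap.id : (CC K (-1)).X →ₗ[K] (CC K (-1)).X)
        (0 : (CC K (-1)).X →ₗ[K] (GM.zero K).X)) ∘ₗ gQ ∈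
        FHom (PE K vK).toF (EM.br (CC K (-1))).toF :=
      FHom.comp (ESES.br'_De_br (CC K (-1))).e'.mem hgQ
    refine ⟨c, Eq.trans ?_ (algebraMap_smul (RR K) c
      (show Md (EM.br (CC K (-1))) from el vK ((LinearMap.prodMap
        (LinearMap.id : (CC K (-1)).X →ₗ[K] (CC K (-1)).X)
        (0 : (CC K (-1)).X →ₗ[K] (GM.zero K).X)) ∘ₗ gQ) hT)).symm⟩
    refine eq_el vK m ?_ hT c ?_
    · rintro ⟨s, i⟩ hw
      have hm := FHom.comp (Win.toLin_mem m) ((sPP K).inc_mem (s, i))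
      cases s
      · exact FHom_J'_zero i (fun _ _ => Subsingleton.elim _ _) hm
      · exact FHom_J_zero i (z1 i fun h => hw (Prod.ext rfl h)) hm
    · refine J_ext hmem ((FHom _ _).smul_mem c hT) ?_
      rw [he, LinearMap.smul_apply, LinearMap.comp_apply, gQ1]
      refine Prod.ext hc' ?_
      exact Subsingleton.elim _ _

end Vale.Agent.P195.Van
end
end

section

section

/-!
# P195 (vanishing version): final assembly
-/

open Vale.Agent.P195.Weyl MvPolynomial CategoryTheory CategoryTheory.Abelian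

namespace Vale.Agent.P195.Van

universe u

variable (K : Type u) [Field K]

/-- `Q = Δ C_{-1}` -/
abbrev Qm : Type u := Md (EM.De (CC K (-1)))
/-- `S' = [C_{-1}]'` -/
abbrev Sm : Type u := Md (EM.br' (CC K (-1)))
/-- `[C_{-1}]` -/
abbrev Tm : Type u := Md (EM.br (CC K (-1)))
/-- `P_{K6}` -/
abbrev MK : Type u := Md (PE K (true, 5))

/-- the ten vertices -/
abbrev Ten : Type := {v : Bool × Fin 6 // v.2 ≠ 5}

/-- the sum of the ten projectives -/
abbrev P0 : Type u := ∀ v : Ten, Md (PE K v.1)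

variable {K}

/-- Steps B and C. -/
theorem orth_Q_PE [CharZero K] (v : Bool × Fin 6) (hv : v ≠ (false, 5)) :
    Orth (RR K) (Qm K) (Md (PE K v)) := by
  have h0 := finite_RR (K := K)
  have h1 : IsNoetherianRing (RR K) := isNoetherian_of_tower K inferInstance
  exact orth_Q_PE_of_W (fun w n hn => orth_W_CC_J hn w) v hv

theorem twoData : Nonempty (TwoData K (RR K) (P0 K) (Sm K) (Qm K) (Tm K)) :=
  twoData'

/-! ### assembly -/

theorem stepEHyp' [CharZero K] {N : Type u} [AddCommGroup N] [Module (RR K) N]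
    (hN : Orth (RR K) (Qm K) N) : StepEHyp (RR K) (P0 K) (Sm K) N := by
  obtain ⟨D⟩ := twoData (K := K)
  have := finite_RR (K := K)
  exact D.stepEHyp hN orth_Q_S

theorem Orth.pi_right {R : Type u} [Ring R] {M : Type u} [AddCommGroup M] [Module R M]
    {ι : Type} [Fintype ι] [DecidableEq ι] (F : ι → Type u) [∀ i, AddCommGroup (F i)]
    [∀ i, Module R (F i)] (h : ∀ i, Orth R M (F i)) : Orth R M (∀ i, F i) := by
  refine Orth.of_retract_sum_right (Finset.univ : Finset ι) F (fun i => LinearMap.proj i)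
    (fun i => LinearMap.single R F i) ?_ h
  apply LinearMap.ext
  intro x
  rw [LinearMap.sum_apply]
  exact (LinearMap.sum_single_apply F x)

variable (K) in
/-- **Main theorem** -/
theorem main [CharZero K] : ∃ (A : Type u) (_ : Ring A) (_ : Algebra K A) (M : Type u)
    (_ : AddCommGroup M) (_ : Module A M), Module.Finite K A ∧ Module.Finite A M ∧
      ¬ Module.Projective A M ∧
      (∀ i : ℕ, 1 ≤ i → Subsingleton (Ext (ModuleCat.of A M) (ModuleCat.of A M) i)) ∧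
      (∀ i : ℕ, 1 ≤ i → Subsingleton (Ext (ModuleCat.of A M) (ModuleCat.of A A) i)) := by
  have h0 := finite_RR (K := K)
  have h1 := fun v => projective_PE (K := K) v
  have h2 := fun v => finite_PE (K := K) v
  have h3 : Module.Finite (RR K) (P0 K) := inferInstance
  have h4 : Module.Projective (RR K) (P0 K) := Module.Projective.of_equiv
    (DirectSum.linearEquivFunOnFintype (RR K) Ten fun v => Md (PE K v.1))
  have h5 : ∀ f : P0 K →ₗ[RR K] Sm K, f = 0 := by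
    intro f
    apply LinearMap.pi_ext'
    intro j
    rw [hom_PE_S j.1 (fun h => j.2 (by rw [h])) (f ∘ₗ _)]
    rfl
  have h6 : Orth (RR K) (Qm K) (P0 K) :=
    Orth.pi_right _ fun v => orth_Q_PE v.1 (fun h => v.2 (by rw [h]))
  obtain ⟨c1, c2, c3, c4, c5⟩ := stepE_conclusion (K := K) (R := RR K) (P0 := P0 K) (M := MK K)
    (S := Sm K) h5 (hom_PE_S (true, 5) (by decide))
    (stepEHyp' (orth_Q_PE (true, 5) (by decide))) (stepEHyp' h6) k0'
  refine ⟨EndOp (RR K) (P0 K), inferInstance, inferInstance, HM (RR K) (P0 K) (MK K),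
    inferInstance, inferInstance, c1, c2, c5, ?_, ?_⟩
  · intro i hi
    obtain ⟨j, rfl⟩ : ∃ j, i = j + 1 := ⟨i - 1, by omega⟩
    exact c3 j
  · intro i hi
    obtain ⟨j, rfl⟩ : ∃ j, i = j + 1 := ⟨i - 1, by omega⟩
    exact c4 j

end Vale.Agent.P195.Van
end
end

section

section

open Function CategoryTheory CategoryTheory.Abelian

namespace Vale.Agent.P195

universe u w

section syz

variable {R : Type u} [Ring R]

/-- Syzygies built up from the end: `0 → Y → P → Z → 0` with `Z` an `n`-th syzygy of `M`. -/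
def SyzEnd : ℕ → ModuleCat.{u} R → ModuleCat.{u} R → Prop
  | 0, M, Y => Nonempty (Y ≃ₗ[R] M)
  | n + 1, M, Y => ∃ (Z P : ModuleCat.{u} R) (f : Y →ₗ[R] P) (g : P →ₗ[R] Z),
      Module.Finite R P ∧ Module.Projective R P ∧ IsSES f g ∧ SyzEnd n M Z

theorem SyzEnd.congr {n : ℕ} {M Z Y : ModuleCat.{u} R} (e : Y ≃ₗ[R] Z) (h : SyzEnd n M Z) :
    SyzEnd n M Y := by
  cases n with
  | zero =>
    obtain ⟨f⟩ := h
    exact ⟨e.trans f⟩
  | succ n =>
    obtain ⟨Z', P, f, g, hf, hp, hfg, h⟩ := h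
    refine ⟨Z', P, f ∘ₗ e.toLinearMap, g, hf, hp, ⟨?_, ?_, hfg.2.2⟩, h⟩
    · exact hfg.1.comp e.injective
    · intro x
      rw [hfg.2.1 x]
      constructor
      · rintro ⟨y, rfl⟩
        exact ⟨e.symm y, by simp⟩
      · rintro ⟨y, rfl⟩
        exact ⟨e y, rfl⟩

theorem SyzEnd.trans {n : ℕ} : ∀ {m : ℕ} {M Z Y : ModuleCat.{u} R}, SyzEnd m M Z →
    IsSyzygy n Z Y → SyzEnd (m + n) M Y := by
  induction n with
  | zero =>
    rintro m M Z Y h ⟨e⟩
    exact h.congr e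
  | succ n ih =>
    rintro m M Z Y h ⟨Z', P, f, g, hf, hp, hfg, h'⟩
    have h1 : SyzEnd (m + 1) M Z' := ⟨Z, P, f, g, hf, hp, hfg, h⟩
    have h2 := ih h1 h'
    rwa [add_right_comm m 1 n] at h2

theorem SyzEnd.prod {n : ℕ} {M Y : ModuleCat.{u} R} (h : SyzEnd (n + 1) M Y)
    (Q : ModuleCat.{u} R) [Module.Finite R Q] [Module.Projective R Q] :
    SyzEnd (n + 1) M (ModuleCat.of R (Y × Q)) := by
  obtain ⟨Z, P, f, g, hf, hp, hfg, h⟩ := h
  refine ⟨Z, ModuleCat.of R (P × Q), LinearMap.prodMap f LinearMap.id,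
    g ∘ₗ LinearMap.fst R P Q, (inferInstance : Module.Finite R (P × Q)),
    (inferInstance : Module.Projective R (P × Q)), ⟨?_, ?_, ?_⟩, h⟩
  · rintro ⟨a, b⟩ ⟨a', b'⟩ hab
    have h1 := congrArg Prod.fst hab
    have h2 := congrArg Prod.snd hab
    exact Prod.ext (hfg.1 h1) h2
  · rintro ⟨a, b⟩
    constructor
    · intro hx
      obtain ⟨y, hy⟩ := (hfg.2.1 a).1 hx
      exact ⟨(y, b), Prod.ext hy rfl⟩
    · rintro ⟨⟨y, b'⟩, hy⟩
      have h1 := congrArg Prod.fst hy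
      exact (hfg.2.1 a).2 ⟨y, h1⟩
  · intro z
    obtain ⟨x, hx⟩ := hfg.2.2 z
    exact ⟨(x, 0), hx⟩

theorem SyzEnd.finite [IsNoetherianRing R] {n : ℕ} {M Y : ModuleCat.{u} R} [Module.Finite R M]
    (h : SyzEnd n M Y) : Module.Finite R Y := by
  cases n with
  | zero =>
    obtain ⟨e⟩ := h
    exact Module.Finite.equiv e.symm
  | succ n =>
    obtain ⟨Z, P, f, g, hf, hp, hfg, h⟩ := h
    exact Module.Finite.of_injective f hfg.1

theorem exists_syzEnd [IsNoetherianRing R] (M : ModuleCat.{u} R) [Module.Finite R M] (n : ℕ) :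
    ∃ Y : ModuleCat.{u} R, Module.Finite R Y ∧ SyzEnd n M Y := by
  induction n with
  | zero => exact ⟨M, inferInstance, ⟨LinearEquiv.refl R M⟩⟩
  | succ n ih =>
    obtain ⟨Z, hZ, h⟩ := ih
    obtain ⟨d, f, hf⟩ := Module.Finite.exists_fin' R Z
    refine ⟨ModuleCat.of R (LinearMap.ker f), inferInstance,
      Z, ModuleCat.of R (Fin d → R), (LinearMap.ker f).subtype, f,
      (inferInstance : Module.Finite R (Fin d → R)),
      (inferInstance : Module.Projective R (Fin d → R)),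
      ⟨Submodule.subtype_injective _, LinearMap.exact_subtype_ker_map f, hf⟩, h⟩

end syz

section

variable (k : Type w) [CommRing k] {R : Type u} [Ring R] [Algebra k R]

attribute [local instance] linK

theorem eLen_congr_left {M N : ModuleCat.{u} R} (e : M ≃ₗ[R] N) (X : ModuleCat.{u} R) (i : ℕ) :
    eLen k M X i = eLen k N X i := by
  have h1 : ModuleCat.ofHom e.toLinearMap ≫ ModuleCat.ofHom e.symm.toLinearMap = 𝟙 M := by
    ext x; simp only [ModuleCat.of_coe, ModuleCat.hom_comp, ConcreteCategory.hom_ofHom, LinearEquiv.comp_coe, LinearEquiv.self_trans_symm, LinearEquiv.refl_toLinearMap, LinearMap.id_coe, id_eq, ModuleCat.hom_id]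
  have h2 : ModuleCat.ofHom e.symm.toLinearMap ≫ ModuleCat.ofHom e.toLinearMap = 𝟙 N := by
    ext x; simp only [ModuleCat.of_coe, ModuleCat.hom_comp, ConcreteCategory.hom_ofHom, LinearEquiv.comp_coe, LinearEquiv.symm_trans_self, LinearEquiv.refl_toLinearMap, LinearMap.id_coe, id_eq, ModuleCat.hom_id]
  let f : Ext N X i →ₗ[k] Ext M X i :=
    (Ext.mk₀ (ModuleCat.ofHom e.toLinearMap)).precompOfLinear k X (zero_add i)
  let g : Ext M X i →ₗ[k] Ext N X i :=
    (Ext.mk₀ (ModuleCat.ofHom e.symm.toLinearMap)).precompOfLinear k X (zero_add i)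
  have hgf : ∀ x, g (f x) = x := by
    intro x
    show (Ext.mk₀ (ModuleCat.ofHom e.symm.toLinearMap)).comp
      ((Ext.mk₀ (ModuleCat.ofHom e.toLinearMap)).comp x (zero_add i)) (zero_add i) = x
    rw [Ext.mk₀_comp_mk₀_assoc, h2, Ext.mk₀_id_comp]
  have hfg : ∀ x, f (g x) = x := by
    intro x
    show (Ext.mk₀ (ModuleCat.ofHom e.toLinearMap)).comp
      ((Ext.mk₀ (ModuleCat.ofHom e.symm.toLinearMap)).comp x (zero_add i)) (zero_add i) = x
    rw [Ext.mk₀_comp_mk₀_assoc, h1, Ext.mk₀_id_comp]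
  unfold eLen
  refine congrArg ENat.toNat (LinearEquiv.ofBijective f ⟨?_, ?_⟩).symm.length_eq
  · exact Function.LeftInverse.injective hgf
  · exact Function.RightInverse.surjective hfg

theorem SyzEnd.eLen_eq {n : ℕ} : ∀ {M Y : ModuleCat.{u} R}, SyzEnd n M Y →
    ∀ (X : ModuleCat.{u} R) (j : ℕ), 1 ≤ j → eLen k Y X j = eLen k M X (j + n) := by
  induction n with
  | zero =>
    rintro M Y ⟨e⟩ X j _
    exact eLen_congr_left k e X j
  | succ n ih =>
    rintro M Y ⟨Z, P, f, g, hf, hp, hfg, h⟩ X j hj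
    rw [eLen_shift k f g hfg.2.1 hfg.1 hfg.2.2 j hj, ih h X (j + 1) (by omega)]
    congr 1
    omega

variable [IsArtinianRing k] [Module.Finite k R]

include k

theorem isNoetherianRing_of_artinAlg : IsNoetherianRing R := by
  have hRk : IsNoetherian k R := inferInstance
  exact isNoetherian_of_tower k hRk

theorem SyzEnd.vanish (L : ℕ) {M : ModuleCat.{u} R} [Module.Finite R M]
    (h1 : ∀ j : ℕ, 1 ≤ j → j ≤ L → Subsingleton (Ext M M j))
    (h2 : ∀ j : ℕ, 1 ≤ j → j ≤ L → Subsingleton (Ext M (ModuleCat.of R R) j)) {n : ℕ} :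
    ∀ {Y : ModuleCat.{u} R}, SyzEnd n M Y → ∀ j : ℕ, n < j → j ≤ L →
      Subsingleton (Ext M Y j) := by
  have hNoeth : IsNoetherianRing R := isNoetherianRing_of_artinAlg k
  induction n with
  | zero =>
    rintro Y ⟨e⟩ j hj hjL
    have hY : Module.Finite R Y := Module.Finite.equiv e.symm
    rw [← eLen_eq_zero k, eLen_congr k M e j, eLen_eq_zero]
    exact h1 j hj hjL
  | succ n ih =>
    rintro Y ⟨Z, P, f, g, hf, hp, hfg, h⟩ j hj hjL
    obtain ⟨j, rfl⟩ : ∃ j', j = j' + 1 := ⟨j - 1, by omega⟩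
    have hS := scR_shortExact f g hfg.2.1 hfg.1 hfg.2.2
    have hP := ext_proj_subsingleton k M (j + 1) (h2 _ (by omega) hjL) P
    have hN := ih h j (by omega) (by omega)
    refine subsingleton_of_forall_eq 0 fun x => ?_
    obtain ⟨x₃, hx₃⟩ := Ext.covariant_sequence_exact₁ M hS x
      (Subsingleton.elim (α := Ext M P (j + 1)) _ _) (n₀ := j) rfl
    have h0 : x₃ = 0 := Subsingleton.elim (α := Ext M Z j) _ _
    rw [← hx₃, h0, Ext.zero_comp]

omit k [CommRing k] [Algebra k R] [IsArtinianRing k] [Module.Finite k R] in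
/-- If the extension class of `0 → Y → P → Z → 0` is killed by `Ext^1(Z, Y) = 0`, then `Z` is
projective. -/
theorem proj_of_ext_zero {Z P Y : ModuleCat.{u} R} (f : Y →ₗ[R] P) (g : P →ₗ[R] Z)
    (hfg : IsSES f g) [Module.Projective R P] (h0 : Subsingleton (Ext Z Y 1)) :
    Module.Projective R Z := by
  obtain ⟨r, hr⟩ := extends_of_extClass f g hfg.2.1 hfg.1 hfg.2.2
    LinearMap.id (Subsingleton.elim (α := Ext Z Y 1) _ _)
  obtain ⟨s, hs⟩ := factor_surj hfg.2.2 hfg.2.1 (LinearMap.id - f ∘ₗ r) (by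
    rw [LinearMap.sub_comp, LinearMap.comp_assoc, hr, LinearMap.comp_id, LinearMap.id_comp,
      sub_self])
  refine Module.Projective.of_split s g ?_
  apply cancel_surj hfg.2.2
  rw [LinearMap.comp_assoc, hs, LinearMap.comp_sub, ← LinearMap.comp_assoc,
    hfg.2.1.linearMap_comp_eq_zero, LinearMap.zero_comp, sub_zero, LinearMap.comp_id,
    LinearMap.id_comp]

theorem SyzEnd.descend (L : ℕ) {M : ModuleCat.{u} R} [Module.Finite R M]
    (h2 : ∀ j : ℕ, 1 ≤ j → j ≤ L → Subsingleton (Ext M (ModuleCat.of R R) j)) {n : ℕ} :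
    ∀ {Y : ModuleCat.{u} R}, SyzEnd n M Y → n ≤ L → Module.Projective R Y →
      Module.Projective R M := by
  have hNoeth : IsNoetherianRing R := isNoetherianRing_of_artinAlg k
  induction n with
  | zero =>
    rintro Y ⟨e⟩ _ hY
    exact Module.Projective.of_equiv e
  | succ n ih =>
    rintro Y ⟨Z, P, f, g, hf, hp, hfg, h⟩ hn hY
    have hYf : Module.Finite R Y := Module.Finite.of_injective f hfg.1
    have hZf : Module.Finite R Z := Module.Finite.of_surjective g hfg.2.2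
    refine ih h (by omega) ?_
    refine proj_of_ext_zero f g hfg ?_
    rw [← eLen_eq_zero k, h.eLen_eq k Y 1 le_rfl, eLen_eq_zero]
    exact ext_proj_subsingleton k M (1 + n) (h2 _ (by omega) (by omega)) Y

theorem SyzEnd.proj_of_eLen_zero (L : ℕ) {M : ModuleCat.{u} R} [Module.Finite R M]
    (h2 : ∀ j : ℕ, 1 ≤ j → j ≤ L → Subsingleton (Ext M (ModuleCat.of R R) j)) {n : ℕ}
    {Y : ModuleCat.{u} R} (h : SyzEnd (n + 1) M Y) (hn : n ≤ L)
    (h0 : eLen k M Y (n + 1) = 0) : Module.Projective R M := by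
  have hNoeth : IsNoetherianRing R := isNoetherianRing_of_artinAlg k
  obtain ⟨Z, P, f, g, hf, hp, hfg, h⟩ := h
  have hYf : Module.Finite R Y := Module.Finite.of_injective f hfg.1
  have hZf : Module.Finite R Z := Module.Finite.of_surjective g hfg.2.2
  refine h.descend k L h2 hn (proj_of_ext_zero f g hfg ?_)
  rw [← eLen_eq_zero k, h.eLen_eq k Y 1 le_rfl, add_comm 1 n]
  exact h0

/-- The map `Ext^(i+1)(M, A) → Ext^(i+1)(M, B)` for `0 → A → B → Y → 0` with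
`Ext^i(M, Y) = 0 = Ext^(i+1)(M, Y)` preserves length. -/
theorem eLen_eq_of_vanish (M : ModuleCat.{u} R) [Module.Finite R M] {A B Y : ModuleCat.{u} R}
    (f : A →ₗ[R] B) (g : B →ₗ[R] Y) (hfg : IsSES f g) (i : ℕ)
    (h0 : Subsingleton (Ext M Y i)) (h1 : Subsingleton (Ext M Y (i + 1))) :
    eLen k M A (i + 1) = eLen k M B (i + 1) := by
  have hS := scR_shortExact f g hfg.2.1 hfg.1 hfg.2.2
  let φ : Ext M A (i + 1) →ₗ[k] Ext M B (i + 1) :=
    (Ext.mk₀ (ModuleCat.ofHom f)).postcompOfLinear k M (add_zero (i + 1))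
  have hinj : Injective φ := by
    intro a b hab
    rw [← sub_eq_zero, ← map_sub] at hab
    rw [← sub_eq_zero]
    obtain ⟨x₃, hx₃⟩ := Ext.covariant_sequence_exact₁ M hS (a - b) hab (n₀ := i) rfl
    have h0' : x₃ = 0 := Subsingleton.elim (α := Ext M Y i) _ _
    rw [← hx₃, h0', Ext.zero_comp]
  have hsurj : Surjective φ := by
    intro y
    obtain ⟨x, hx⟩ := Ext.covariant_sequence_exact₂ M hS y
      (Subsingleton.elim (α := Ext M Y (i + 1)) _ _)
    exact ⟨x, hx⟩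
  unfold eLen
  exact congrArg ENat.toNat (LinearEquiv.ofBijective φ ⟨hinj, hsurj⟩).length_eq

/-- If `Ext^1(Y, Y) = 0` and the lengths of `Ext^1(Y, A)` and `Ext^1(Y, B)` agree then
`0 → A → B → Y → 0` splits. -/
theorem split_of_eLen_eq {A B Y : ModuleCat.{u} R} [Module.Finite R Y] [Module.Finite R A]
    [Module.Finite R B] (f : A →ₗ[R] B) (g : B →ₗ[R] Y) (hfg : IsSES f g)
    (h1 : Subsingleton (Ext Y Y 1)) (heq : eLen k Y A 1 = eLen k Y B 1) :
    ∃ s : Y →ₗ[R] B, g ∘ₗ s = LinearMap.id := by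
  have hS := scR_shortExact f g hfg.2.1 hfg.1 hfg.2.2
  let φ : Ext Y A 1 →ₗ[k] Ext Y B 1 :=
    (Ext.mk₀ (ModuleCat.ofHom f)).postcompOfLinear k Y (add_zero 1)
  have hsurj : Surjective φ := by
    intro y
    obtain ⟨x, hx⟩ := Ext.covariant_sequence_exact₂ Y hS y
      (Subsingleton.elim (α := Ext Y Y 1) _ _)
    exact ⟨x, hx⟩
  have : Module.Finite k (Ext Y A 1) := ext_finite k A 1 Y
  have : Module.Finite k (Ext Y B 1) := ext_finite k B 1 Y
  have hinj : Injective φ := inj_of_length φ hsurj heq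
  have h0 : hS.extClass = 0 := by
    apply hinj
    rw [map_zero]
    exact hS.extClass_comp
  obtain ⟨x₂, hx₂⟩ := Ext.covariant_sequence_exact₃ Y hS (Ext.mk₀ (𝟙 Y)) (n₁ := 1) rfl (by
    rw [h0, Ext.comp_zero])
  obtain ⟨s, rfl⟩ := Ext.homEquiv₀.symm.surjective x₂
  refine ⟨s.hom, ?_⟩
  have h3 : Ext.mk₀ (s ≫ (scR f g hfg.2.1).g) = Ext.mk₀ (𝟙 Y) := by
    rw [← Ext.mk₀_comp_mk₀]
    exact hx₂
  have h4 := (Ext.mk₀_bijective _ _).1 h3
  exact congrArg ModuleCat.Hom.hom h4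

end

end Vale.Agent.P195
end
end

section

section

open Function CategoryTheory CategoryTheory.Abelian

namespace Vale.Agent.P195

universe u w

theorem InAdd.finite {R : Type u} [Ring R] [IsNoetherianRing R] {V : ModuleCat.{u} R}
    [Module.Finite R V] {X : ModuleCat.{u} R} (h : InAdd R V X) : Module.Finite R X := by
  obtain ⟨n, i, p, hpi⟩ := h
  have hinj : Injective i :=
    Function.LeftInverse.injective (g := p) fun x => congrArg (fun g => g x) hpi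
  exact Module.Finite.of_injective i hinj

/-- The functional `v ↦ ∑ v (b j) - ∑ v (a j)`. -/
noncomputable def subFun {ι : Type*} {m₁ m₂ : ℕ} (a : Fin m₁ → ι) (b : Fin m₂ → ι) :
    (ι → ℚ) →ₗ[ℚ] ℚ :=
  (∑ j, LinearMap.proj (b j)) - (∑ j, LinearMap.proj (a j))

section

variable (k : Type w) [CommRing k] [IsArtinianRing k] {R : Type u} [Ring R] [Algebra k R]
  [Module.Finite k R]

theorem subFun_eLen {ι : Type*} (M : ModuleCat.{u} R) [Module.Finite R M]
    (W : ι → ModuleCat.{u} R) (hW : ∀ j, Module.Finite R (W j)) {m₁ m₂ : ℕ}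
    (a : Fin m₁ → ι) (b : Fin m₂ → ι) {A B : ModuleCat.{u} R}
    (e₁ : A ≃ₗ[R] ((j : Fin m₁) → W (a j))) (e₂ : B ≃ₗ[R] ((j : Fin m₂) → W (b j))) (j : ℕ) :
    subFun a b (fun t => (eLen k M (W t) j : ℚ)) = (eLen k M B j : ℚ) - (eLen k M A j : ℚ) := by
  rw [eLen_isSumOf k M W hW b e₂ j, eLen_isSumOf k M W hW a e₁ j]
  simp only [subFun, LinearMap.sub_apply, LinearMap.coe_sum, LinearMap.coe_proj, Finset.sum_apply, Function.eval, Nat.cast_sum]

theorem sumFun_eLen {ι : Type*} (M : ModuleCat.{u} R) [Module.Finite R M]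
    (W : ι → ModuleCat.{u} R) (hW : ∀ j, Module.Finite R (W j)) {m : ℕ}
    (b : Fin m → ι) {B : ModuleCat.{u} R}
    (e₂ : B ≃ₗ[R] ((j : Fin m) → W (b j))) (j : ℕ) :
    (∑ j, LinearMap.proj (b j) : (ι → ℚ) →ₗ[ℚ] ℚ) (fun t => (eLen k M (W t) j : ℚ)) =
      (eLen k M B j : ℚ) := by
  rw [eLen_isSumOf k M W hW b e₂ j]
  simp only [LinearMap.coe_sum, LinearMap.coe_proj, Finset.sum_apply, Function.eval, Nat.cast_sum]

include k in
/-- Uniform Auslander–Reiten property for Igusa–Todorov algebras, with explicit bound in terms of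
a finite list `W` of modules such that every module in `add V` is a finite direct sum of
members of `W`. -/
theorem unif_IT_explicit (n : ℕ) (V : ModuleCat.{u} R) [Module.Finite R V]
    (hV : ∀ X : ModuleCat.{u} R, Module.Finite R X →
      ∃ (Y Q V₁ V₀ : ModuleCat.{u} R) (f : V₁ →ₗ[R] V₀) (g : V₀ →ₗ[R] ModuleCat.of R (Y × Q)),
        IsSyzygy n X Y ∧ Module.Finite R Q ∧ Module.Projective R Q ∧
        InAdd R V V₁ ∧ InAdd R V V₀ ∧ IsSES f g)
    {r : ℕ} (W : Fin r → ModuleCat.{u} R) (hW : ∀ j, Module.Finite R (W j))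
    (hVW : ∀ (X : Type u) [AddCommGroup X] [Module R X], InAdd R V X → IsSumOf W X)
    (M : ModuleCat.{u} R) [Module.Finite R M]
    (h1 : ∀ j : ℕ, 1 ≤ j → j ≤ 2 * r + max n 1 + 1 → Subsingleton (Ext M M j))
    (h2 : ∀ j : ℕ, 1 ≤ j → j ≤ 2 * r + max n 1 + 1 →
      Subsingleton (Ext M (ModuleCat.of R R) j)) :
    Module.Projective R M := by
  have hNoeth : IsNoetherianRing R := isNoetherianRing_of_artinAlg k
  by_contra hproj
  have hmax1 : 1 ≤ max n 1 := le_max_right _ _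
  have hmaxn : n ≤ max n 1 := le_max_left _ _
  set n' := max n 1 with hn'
  set L := 2 * r + n' + 1 with hL
  -- for each `t ≤ r` a functional with leading index `n' + 2t` or `n' + 2t + 1`
  have hch : ∀ t : Fin (r + 1), ∃ (l : ℕ) (φ : (Fin r → ℚ) →ₗ[ℚ] ℚ),
      n' + 2 * t.1 ≤ l ∧ l ≤ n' + 2 * t.1 + 1 ∧
      φ (fun b => (eLen k M (W b) l : ℚ)) ≠ 0 ∧
      ∀ j, l < j → j ≤ L → φ (fun b => (eLen k M (W b) j : ℚ)) = 0 := by
    intro t
    have ht := t.2
    obtain ⟨a, ha⟩ : ∃ a, n' + 2 * t.1 = a + 1 := ⟨n' + 2 * t.1 - 1, by omega⟩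
    obtain ⟨m, hm⟩ : ∃ m, m + n = a + 1 := ⟨a + 1 - n, by (clear * - hmaxn ha; omega)⟩
    obtain ⟨Z, hZf, hZ⟩ := exists_syzEnd M m
    obtain ⟨Y', Q, V₁, V₀, f, g, hsyz, hQf, hQp, hV₁, hV₀, hfg⟩ := hV Z hZf
    have hY' : SyzEnd (a + 1) M Y' := by
      have := hZ.trans hsyz
      rwa [hm] at this
    have hY : SyzEnd (a + 1) M (ModuleCat.of R (Y' × Q)) := hY'.prod Q
    set Y : ModuleCat.{u} R := ModuleCat.of R (Y' × Q) with hYdef
    have hYf : Module.Finite R Y := hY.finite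
    have hV₁f : Module.Finite R V₁ := hV₁.finite
    have hV₀f : Module.Finite R V₀ := hV₀.finite
    have hvan : ∀ j, a + 1 < j → j ≤ L → Subsingleton (Ext M Y j) :=
      hY.vanish k L h1 h2
    obtain ⟨m₁, c₁, ⟨e₁⟩⟩ := hVW V₁ hV₁
    obtain ⟨m₀, c₀, ⟨e₀⟩⟩ := hVW V₀ hV₀
    by_cases heq : eLen k M V₁ (a + 2) = eLen k M V₀ (a + 2)
    · -- the sequence splits, `Y` is in `add V`
      have hYY : Subsingleton (Ext Y Y 1) := by
        rw [← eLen_eq_zero k, hY.eLen_eq k Y 1 le_rfl, eLen_eq_zero]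
        exact hvan _ (by omega) (by omega)
      obtain ⟨s, hs⟩ := split_of_eLen_eq k f g hfg hYY (by
        rw [hY.eLen_eq k V₁ 1 le_rfl, hY.eLen_eq k V₀ 1 le_rfl]
        have : 1 + (a + 1) = a + 2 := by omega
        rw [this]
        exact heq)
      have hYadd : InAdd R V Y := by
        obtain ⟨d, i, p, hpi⟩ := hV₀
        refine ⟨d, i ∘ₗ s, g ∘ₗ p, ?_⟩
        have : (g ∘ₗ p) ∘ₗ (i ∘ₗ s) = g ∘ₗ (p ∘ₗ i) ∘ₗ s := rfl
        rw [this, hpi, LinearMap.id_comp, hs]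
      obtain ⟨m, c, ⟨e⟩⟩ := hVW Y hYadd
      refine ⟨a + 1, ∑ j, LinearMap.proj (c j), by omega, by omega, ?_, ?_⟩
      · rw [sumFun_eLen k M W hW c e]
        intro h0
        apply hproj
        exact hY.proj_of_eLen_zero k L h2 (by omega) (by exact_mod_cast h0)
      · intro j hj hjL
        rw [sumFun_eLen k M W hW c e]
        have := (eLen_eq_zero k M Y j).2 (hvan j hj hjL)
        rw [this]
        simp
    · refine ⟨a + 2, subFun c₁ c₀, by omega, by omega, ?_, ?_⟩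
      · rw [subFun_eLen k M W hW c₁ c₀ e₁ e₀]
        intro h0
        apply heq
        have := sub_eq_zero.mp h0
        exact_mod_cast this.symm
      · intro j hj hjL
        rw [subFun_eLen k M W hW c₁ c₀ e₁ e₀]
        obtain ⟨j, rfl⟩ : ∃ j', j = j' + 1 := ⟨j - 1, by omega⟩
        rw [eLen_eq_of_vanish k M f g hfg j (hvan j (by omega) (by omega))
          (hvan (j + 1) (by omega) hjL), sub_self]
  choose l φ hl1 hl2 hφ1 hφ2 using hch
  refine no_triangular (E := Fin r → ℚ) (d := r + 1) ?_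
    (fun t => fun b => (eLen k M (W b) (l t) : ℚ)) φ hφ1 ?_
  · rw [Module.finrank_fin_fun]
    omega
  · intro t t' htt'
    have h3 := Fin.lt_def.mp htt'
    have h4 := hl2 t
    have h5 := hl1 t'
    have h6 := hl2 t'
    have h7 := t'.2
    exact hφ2 t (l t') (by omega) (by omega)

end

/-- Uniform Auslander–Reiten property for `n`-Igusa–Todorov algebras. -/
theorem unif_IT (k : Type w) [CommRing k] [IsArtinianRing k] (R : Type u) [Ring R]
    [Algebra k R] [Module.Finite k R] (n : ℕ) (h : IsIgusaTodorov R n) :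
    ∃ L : ℕ, ∀ (M : Type u) [AddCommGroup M] [Module R M] [Module.Finite R M],
      (∀ j : ℕ, 1 ≤ j → j ≤ L → Subsingleton (Ext (ModuleCat.of R M) (ModuleCat.of R M) j) ∧
        Subsingleton (Ext (ModuleCat.of R M) (ModuleCat.of R R) j)) →
      Module.Projective R M := by
  have : IsArtinianRing R := IsArtinianRing.of_finite k R
  obtain ⟨V, hVf, hV⟩ := h
  obtain ⟨r, W, hW, hVW⟩ := exists_list_of_add (R := R) V
  refine ⟨2 * r + max n 1 + 1, ?_⟩
  intro M _ _ _ hM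
  exact unif_IT_explicit k n V hV W hW hVW (ModuleCat.of R M)
    (fun j hj hjL => (hM j hj hjL).1) (fun j hj hjL => (hM j hj hjL).2)

end Vale.Agent.P195
end
end
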